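import Claimed.Agent.R322.Freq.Cover
import Claimed.Agent.R322.Pack045
import Claimed.Agent.R322.Tube.Inputs

/-!
# CO Proposition 5.1 (centered blow-up at the target scales): one target scale

Package BP-CO5-blow (owner helper35).  EVERYTHING IS DONE FOR ONE INDEX `i`, quantitatively.

`Ctx m n Q π C₀` = one start `S`, one target radius `r` (start units) in its fitting interval with the conclusions of
CO Proposition 4.5 (doubling constant `C₀`), and the rotation `G` from start coordinates to target coordinates.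

* `K.a = sqrt (H(r)) / r`   height normalisation;
* `K.V = ` push-forward of the start varifold under `K.T X = G (X / r)`   (the varifold in target units);
* `K.ψ`, `K.ut`  change of the graph coordinate / the centre in target coordinates, cut off outside `ball 0 18`;
* `K.Small δ`  : `δ(1000 r) ≤ δ` and `K.V` is `δ`-good (close to `Q` horizontal planes in `B_2000`).

Statements have the form `Stm m (fun π => ∀ C₀, ∃ C δ, ... ∀ K : Ctx m n Q π C₀, K.Small δ → ...)`:
constants may depend on ALL parameters `π` and on `C₀`, never on `K`.  "`o(1)`" is written `∀ ε > 0, ∃ δ > 0, ...`.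

Radii (start units / target units): energy `ρ < 200 r`; tents and curvature `|y| ≤ 40 r`; sup height `|X| ≤ 25 r`;
smooth moment tests `ball 0 (25 r)`; correspondence of the two cylinders `|X| ≤ 15 r`; centre unchanged by the cutoff on `ball 0 16`;
auxiliary cylinder over `ball 0 12`; final cylinder over `ball 0 8`.
-/

set_option autoImplicit false

open scoped ENNReal ContDiff
open MeasureTheory Filter Topology

namespace Claimed.Agent.R322.Blow

open Claimed.Agent.R322.Tube Claimed.Agent.R322.Freq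

/-- "for all admissible bases of sufficiently high order and all parameters chosen in the right order" -/
def Stm (m : ℕ) (Φ : Par → Prop) : Prop :=
  ∃ J₁ : ℕ, ∀ B : FitBase, J₁ ≤ B.J → B.Adm m → Ev B Φ

theorem Stm.and {m : ℕ} {Φ Ψ : Par → Prop} (h₁ : Stm m Φ) (h₂ : Stm m Ψ) : Stm m (fun π => Φ π ∧ Ψ π) := by
  obtain ⟨J₁, h₁⟩ := h₁
  obtain ⟨J₂, h₂⟩ := h₂
  exact ⟨max J₁ J₂, fun B hJ hB => (h₁ B ((le_max_left _ _).trans hJ) hB).and
    (h₂ B ((le_max_right _ _).trans hJ) hB)⟩

theorem Stm.mono {m : ℕ} {Φ Ψ : Par → Prop} (h : Stm m Φ) (hΦ : ∀ π : Par, π.toFitBase.Adm m → Φ π → Ψ π) :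
    Stm m Ψ := by
  obtain ⟨J₁, h⟩ := h
  exact ⟨J₁, fun B hJ hB => (h B hJ hB).mono fun π hπ => hΦ π (hπ ▸ hB)⟩

/-- the order of the base can be prescribed from below -/
theorem Stm.order (m J : ℕ) : Stm m (fun π => J ≤ π.J) :=
  ⟨J, fun B hJ _ => Ev.of_forall fun π hπ => by rw [hπ]; exact hJ⟩

variable {m n : ℕ}

/-- one target scale in the fitting interval of a start -/
structure Ctx (m n Q : ℕ) (π : Par) (C₀ : ℝ) where
  S : Start m n Q π
  /-- target radius in start units -/
  r : ℝ
  /-- rotation from start coordinates to target coordinates -/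
  G : E (m + n) ≃ₗᵢ[ℝ] E (m + n)
  r_pos : 0 < r
  r_lo : 100 * S.b ≤ r
  r_hi : 1000 * r ≤ π.rs
  H_pos : 0 < qH S.N r
  dbl : ∀ r', r ≤ r' → r' ≤ 1000 * r → qH S.N r' ≤ C₀ * qH S.N r
  rad : ∃ r', 400 * r ≤ r' ∧ r' ≤ 600 * r ∧
    qE S.N r' ≤ C₀ * qH S.N r' ∧ qR S.N r' ≤ C₀ * qH S.N r'

namespace Ctx

variable {Q : ℕ} {π : Par} {C₀ : ℝ} (K : Ctx m n Q π C₀)

/-- height normalisation `a = sqrt (H(r)) / r` -/
noncomputable def a : ℝ := Real.sqrt (qH K.S.N K.r) / K.r

/-- the varifold in target units and target coordinates -/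
noncomputable def V : SIV m n := K.S.N.W.simil 0 K.r K.r_pos K.G

/-- the similarity `X ↦ G (X / r)` -/
noncomputable def T (X : E (m + n)) : E (m + n) := simMap 0 K.r K.G X

/-- change of the graph coordinate -/
noncomputable def ψ (y : E m) : E m := psiT K.S.N.u K.G K.r y

/-- the centre in target coordinates (cut off) -/
noncomputable def ut : E m → E n := uT K.S.N.u K.G K.r

/-- smallness of the relative support height and goodness in target coordinates -/
structure Small (δ : ℝ) : Prop where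
  qd : qd K.S.N (1000 * K.r) ≤ δ
  good : IsGood K.V Q δ

/-- `N` is the normal cylinder of `K.V` over `K.ut`, base `ball 0 R`, height `hc` -/
structure IsCyl (R hc : ℝ) (N : NCyl m n) : Prop where
  W : N.W = K.V
  u : N.u = K.ut
  Ω : N.Ω = Metric.ball 0 R
  h : N.h = hc
  Q : N.Q = Q

theorem a_pos : 0 < K.a := div_pos (Real.sqrt_pos.2 K.H_pos) K.r_pos

theorem a_sq : K.a ^ 2 * K.r ^ 2 = qH K.S.N K.r := by
  unfold a
  rw [div_pow, Real.sq_sqrt K.H_pos.le]
  have := K.r_pos.ne'
  field_simp

end Ctx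

theorem _root_.Claimed.Agent.R322.Freq.IsGood.mono {W : SIV m n} {Q : ℕ} {ε ε' : ℝ} (h : IsGood W Q ε) (hε : ε ≤ ε') :
    IsGood W Q ε' :=
  ⟨h.dom, fun X hX h1 => (h.height X hX h1).trans hε, fun χ h1 h2 h3 => (h.mass χ h1 h2 h3).trans hε,
    h.dens, h.ratio.trans (by linarith)⟩

theorem Ctx.Small.mono {Q : ℕ} {π : Par} {C₀ : ℝ} {K : Ctx m n Q π C₀} {δ δ' : ℝ} (h : K.Small δ) (hδ : δ ≤ δ') :
    K.Small δ' :=
  ⟨h.qd.trans hδ, h.good.mono hδ⟩

end Claimed.Agent.R322.Blow
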