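import Claimed.Agent.R322.Blow.Ctx

/-!
# CO Proposition 5.1: kit for the passage from start units to target units

For one context `K : Ctx m n Q π C₀`: the similarity `K.T`, change of variables between `K.V.μ` and the start weight,
the pointwise correspondence of the two cylinders (`corr_core`), and the cores of the leaves `tiltT`, `mom2T`, `mom1T`
of `Blow/Target.lean`, with all inputs as hypotheses.
-/

set_option autoImplicit false

open scoped ENNReal ContDiff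
open MeasureTheory Filter Topology

namespace Claimed.Agent.R322.Blow

open Claimed.Agent.R322.Tube Claimed.Agent.R322.Freq

variable {m n Q : ℕ} {π : Par} {C₀ : ℝ}

/-- bounded geometry from uniform bounds of the derivatives -/
theorem kit_geo_of_bounds {u : E m → E n} (h1 : ContDiff ℝ 4 u)
    (h2 : ∀ j : ℕ, j ≤ 4 → ∀ x, ‖iteratedFDeriv ℝ j u x‖ ≤ 1 / 2) : Geo 1 u where
  smooth := h1
  slope := fun y => by
    rw [← norm_iteratedFDeriv_one]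
    exact h2 1 (by norm_num) y
  d2 := fun y => (h2 2 (by norm_num) y).trans (by norm_num)
  d3 := fun y => (h2 3 (by norm_num) y).trans (by norm_num)
  le_one := le_rfl

/-- a push-forward never has more mass -/
theorem kit_map_apply_le {α β : Type*} [MeasurableSpace α] [MeasurableSpace β] (ν : Measure α)
    (g : α → β) (A : Set β) : (ν.map g) A ≤ ν Set.univ := by
  by_cases hg : AEMeasurable g ν
  · calc (ν.map g) A ≤ (ν.map g) Set.univ := measure_mono (Set.subset_univ _)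
      _ = ν Set.univ := by
        rw [Measure.map_apply_of_aemeasurable hg MeasurableSet.univ, Set.preimage_univ]
  · rw [Measure.map_of_not_aemeasurable hg]
    simp

theorem kit_ae_support (W : SIV m n) : ∀ᵐ X ∂W.μ, X ∈ W.support :=
  mem_ae_iff.2 W.μ_compl_support

theorem kit_norm_Fg_le (u : E m → E n) (y : E m) : ‖Fg u y‖ ≤ ‖y‖ + ‖u y‖ := by
  rw [Fg_eq]
  refine (norm_add_le _ _).trans ?_
  rw [norm_inH, norm_inV]

theorem kit_norm_le_norm_Fg (u : E m → E n) (y : E m) : ‖y‖ ≤ ‖Fg u y‖ := by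
  have h := norm_prH_le (m := m) (n := n) (Fg u y)
  unfold Fg at h ⊢
  rwa [prH_mkHV] at h

theorem kit_norm_Fg_zero (u : E m → E n) : ‖Fg u 0‖ = ‖u 0‖ := by
  rw [Fg_eq, map_zero, zero_add, norm_inV]

theorem kit_norm_le_Fg_add_zz (u : E m → E n) (X : E (m + n)) :
    ‖X‖ ≤ ‖Fg u (npr u X)‖ + ‖zz u X‖ := by
  have h1 : X = Fg u (npr u X) + zz u X := by
    unfold zz
    abel
  calc ‖X‖ = ‖Fg u (npr u X) + zz u X‖ := by rw [← h1]
    _ ≤ _ := norm_add_le _ _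

theorem kit_norm_Fg_le_rho (u : E m → E n) (y : E m) : ‖Fg u y‖ ≤ rho u y + ‖u 0‖ := by
  unfold rho
  rw [← kit_norm_Fg_zero u]
  have : Fg u y = (Fg u y - Fg u 0) + Fg u 0 := by abel
  calc ‖Fg u y‖ = ‖(Fg u y - Fg u 0) + Fg u 0‖ := by rw [← this]
    _ ≤ _ := norm_add_le _ _

/-- the height of the working cylinder of a start can be taken `≤ 2/9` -/
theorem kit_hc_le (m : ℕ) : Stm m (fun π => π.hc ≤ 2 / 9) :=
  ⟨0, fun B _ _ => (Ev.hc_lt B (2 / 9) (by norm_num)).mono fun _ _ h => h.le⟩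

namespace Ctx

variable (K : Ctx m n Q π C₀)

theorem norm_ψ_le (y : E m) : ‖K.ψ y‖ ≤ K.r⁻¹ * ‖Fg K.S.N.u y‖ := by
  unfold ψ psiT
  rw [norm_smul, Real.norm_eq_abs, abs_of_pos (inv_pos.2 K.r_pos)]
  refine mul_le_mul_of_nonneg_left ?_ (inv_pos.2 K.r_pos).le
  exact (norm_prH_le _).trans (by rw [LinearIsometryEquiv.norm_map])

theorem norm_smul_G (w : E (m + n)) : ‖K.r⁻¹ • K.G w‖ = K.r⁻¹ * ‖w‖ := by
  rw [norm_smul, Real.norm_eq_abs, abs_of_pos (inv_pos.2 K.r_pos), LinearIsometryEquiv.norm_map]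

theorem T_eq (X : E (m + n)) : K.T X = K.r⁻¹ • K.G X := by
  unfold T simMap
  rw [sub_zero, map_smul]

theorem norm_T (X : E (m + n)) : ‖K.T X‖ = K.r⁻¹ * ‖X‖ := by
  rw [T_eq, norm_smul, Real.norm_eq_abs, abs_of_pos (inv_pos.2 K.r_pos),
    LinearIsometryEquiv.norm_map]

theorem norm_le_of_norm_T {X : E (m + n)} {c : ℝ} (h : ‖K.T X‖ ≤ c) : ‖X‖ ≤ c * K.r := by
  rw [norm_T, inv_mul_le_iff₀ K.r_pos] at h
  linarith

theorem simInv_T (X : E (m + n)) : simInv 0 K.r K.G (K.T X) = X :=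
  Base.simInv_simMap 0 K.G K.r_pos X

theorem T_simInv (Y : E (m + n)) : K.T (simInv 0 K.r K.G Y) = Y :=
  Base.simMap_simInv 0 K.G K.r_pos Y

theorem continuous_T : Continuous K.T := (Base.contDiff_simMap 0 K.G K.r).continuous

theorem mem_V_support {Y : E (m + n)} :
    Y ∈ K.V.support ↔ simInv 0 K.r K.G Y ∈ K.S.N.W.support := by
  unfold V
  rw [SIV.simil_support]
  rfl

theorem T_mem_V_support {X : E (m + n)} : K.T X ∈ K.V.support ↔ X ∈ K.S.N.W.support := by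
  rw [mem_V_support, simInv_T]

theorem V_P_T (X : E (m + n)) :
    K.V.P (K.T X) = (K.G : E (m + n) →L[ℝ] E (m + n)) ∘L K.S.N.W.P X ∘L
      (K.G.symm : E (m + n) →L[ℝ] E (m + n)) := by
  show (K.G : E (m + n) →L[ℝ] E (m + n)) ∘L K.S.N.W.P (simInv 0 K.r K.G (K.T X)) ∘L
      (K.G.symm : E (m + n) →L[ℝ] E (m + n)) = _
  rw [simInv_T]

theorem V_μ : K.V.μ = ENNReal.ofReal ((K.r ^ m)⁻¹) • K.S.N.W.μ.map K.T :=
  SIV.simil_μ _ _ _ _ _

/-- the similarity as a measurable equivalence -/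
noncomputable def Te : E (m + n) ≃ᵐ E (m + n) := (Base.simHomeo 0 K.G K.r_pos).toMeasurableEquiv

theorem V_restrict (A : Set (E (m + n))) :
    K.V.μ.restrict A
      = ENNReal.ofReal ((K.r ^ m)⁻¹) • (K.S.N.W.μ.restrict (K.T ⁻¹' A)).map K.T := by
  rw [V_μ, Measure.restrict_smul]
  congr 1
  exact K.Te.restrict_map _ A

/-- change of variables, `lintegral` -/
theorem lintegral_V (A : Set (E (m + n))) (f : E (m + n) → ℝ≥0∞) :
    ∫⁻ Y in A, f Y ∂K.V.μ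
      = ENNReal.ofReal ((K.r ^ m)⁻¹) * ∫⁻ X in K.T ⁻¹' A, f (K.T X) ∂K.S.N.W.μ := by
  rw [V_restrict, lintegral_smul_measure, smul_eq_mul]
  congr 1
  exact lintegral_map_equiv f K.Te

/-- change of variables, Bochner integral -/
theorem integral_V (A : Set (E (m + n))) (f : E (m + n) → ℝ) :
    ∫ Y in A, f Y ∂K.V.μ = (K.r ^ m)⁻¹ * ∫ X in K.T ⁻¹' A, f (K.T X) ∂K.S.N.W.μ := by
  have hr := K.r_pos
  rw [V_restrict, integral_smul_measure, ENNReal.toReal_ofReal (by positivity), smul_eq_mul]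
  congr 1
  exact integral_map_equiv K.Te f

/-- **pointwise correspondence of the two cylinders** -/
theorem corr_core {κ : ℝ} (hgeo : Geo κ K.S.N.u) (hgeo' : Geo 1 K.ut)
    (hgraph : ∀ y, ‖K.ψ y‖ < 16 → Fg K.ut (K.ψ y) = K.r⁻¹ • K.G (Fg K.S.N.u y))
    (hcont : Continuous K.ψ) (hr : K.r ≤ 1) {X : E (m + n)}
    (hz : ‖zz K.S.N.u X‖ ≤ K.r / 100) (hX : ‖X‖ ≤ 15 * K.r) :
    ‖K.ψ (npr K.S.N.u X)‖ < 16 ∧
    npr K.ut (K.T X) = K.ψ (npr K.S.N.u X) ∧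
    zz K.ut (K.T X) = K.r⁻¹ • K.G (zz K.S.N.u X) ∧
    ∀ P : E (m + n) →L[ℝ] E (m + n),
      tilt K.ut ((K.G : E (m + n) →L[ℝ] E (m + n)) ∘L P ∘L
        (K.G.symm : E (m + n) →L[ℝ] E (m + n))) (K.T X) = tilt K.S.N.u P X := by
  have hr0 := K.r_pos
  have hXe : Fg K.S.N.u (npr K.S.N.u X) + zz K.S.N.u X = X := by
    unfold zz
    abel
  have hF : ‖Fg K.S.N.u (npr K.S.N.u X)‖ ≤ ‖X‖ + ‖zz K.S.N.u X‖ := by
    have h1 : Fg K.S.N.u (npr K.S.N.u X) = X - zz K.S.N.u X := by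
      unfold zz
      abel
    calc ‖Fg K.S.N.u (npr K.S.N.u X)‖ = ‖X - zz K.S.N.u X‖ := by rw [← h1]
      _ ≤ ‖X‖ + ‖zz K.S.N.u X‖ := norm_sub_le _ _
  have hψ : ‖K.ψ (npr K.S.N.u X)‖ < 16 := by
    have h1 := K.norm_ψ_le (npr K.S.N.u X)
    have h2 : K.r⁻¹ * ‖Fg K.S.N.u (npr K.S.N.u X)‖ ≤ K.r⁻¹ * (15 * K.r + K.r / 100) :=
      mul_le_mul_of_nonneg_left (by linarith) (inv_pos.2 hr0).le
    have h3 : K.r⁻¹ * (15 * K.r + K.r / 100) = 15 + 1 / 100 := by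
      field_simp
    linarith
  have hA : IsOpen {y | ‖K.ψ y‖ < 16} := isOpen_lt hcont.norm continuous_const
  obtain ⟨t1, -, -, t4⟩ := transport_aux (ψ := K.ψ) hgeo hgeo' hr0 hA (fun _ => rfl)
    (fun y hy => hgraph y hy) (y := npr K.S.N.u X) hψ
  have hXT : X ∈ Tub K.S.N.u (1 / 4) := by
    refine ⟨npr K.S.N.u X, ?_⟩
    have : ‖X - Fg K.S.N.u (npr K.S.N.u X)‖ = ‖zz K.S.N.u X‖ := rfl
    rw [this]
    linarith
  have hPh : Ph K.S.N.u (npr K.S.N.u X) (zz K.S.N.u X) = 0 :=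
    (tube_unique_of_le hgeo le_rfl hXT).2.2.1
  obtain ⟨t5, t6⟩ := t4 (zz K.S.N.u X) hPh (by linarith)
  rw [hXe, ← K.T_eq] at t5 t6
  refine ⟨hψ, t5, t6, fun P => ?_⟩
  unfold tilt
  rw [t5]
  have hPv : Pv K.ut (K.ψ (npr K.S.N.u X)) = conjL K.G (Pv K.S.N.u (npr K.S.N.u X)) := by
    unfold Pv
    rw [t1, conjL_apply]
    ext1 a
    simp
  rw [hPv]
  have h1 : tdiv ((K.G : E (m + n) →L[ℝ] E (m + n)) ∘L P ∘L
      (K.G.symm : E (m + n) →L[ℝ] E (m + n))) (conjL K.G (Pv K.S.N.u (npr K.S.N.u X)))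
      = trc (conjL K.G (P ∘L Pv K.S.N.u (npr K.S.N.u X))) := by
    unfold tdiv trc
    congr 2
    rw [conjL_apply, conjL_apply]
    ext1 a
    simp
  rw [h1, trc_conjL]
  rfl

/-! ### the two cylinders as measurable sets -/

theorem start_μ : K.S.N.μ = K.S.N.W.μ.restrict (Cyl K.S.N.u (Metric.ball 0 4) π.hc) := by
  unfold NCyl.μ
  rw [K.S.N_Ω, K.S.N_h]
  rfl

theorem isOpen_start {κ : ℝ} (hgeo : Geo κ K.S.N.u) (hπ : π.hc ≤ 2 / 9) :
    IsOpen (Cyl K.S.N.u (Metric.ball 0 4) π.hc) :=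
  brs_isOpen_Cyl hgeo hπ Metric.isOpen_ball

theorem isOpen_Bs {κ : ℝ} {u : E m → E n} (hgeo : Geo κ u) (t : ℝ) : IsOpen (Bs u t) := by
  have hF : Continuous (Fg u) := (contDiff_Fg_of hgeo.smooth).continuous
  exact isOpen_lt (hF.sub continuous_const).norm continuous_const

theorem isOpen_cyl_inter {κ h : ℝ} {u : E m → E n} (hgeo : Geo κ u) (hh : h ≤ 2 / 9)
    {Ω B : Set (E m)} (hΩ : IsOpen Ω) (hB : IsOpen B) :
    IsOpen ({X | npr u X ∈ B} ∩ Cyl u Ω h) := by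
  have hsub : Cyl u Ω h ⊆ Tub u h := fun X hX => ⟨npr u X, hX.2⟩
  rw [Set.inter_comm]
  exact ((tube_deriv_of_le hgeo hh).2.1.continuousOn.mono hsub).isOpen_inter_preimage
    (brs_isOpen_Cyl hgeo hh hΩ) hB

theorem target_μ {R hc : ℝ} {N : NCyl m n} (hN : K.IsCyl R hc N) :
    N.μ = K.V.μ.restrict (Cyl K.ut (Metric.ball 0 R) hc) := by
  unfold NCyl.μ
  rw [hN.W, hN.u, hN.Ω, hN.h]

theorem start_mass_lt_top {c : ℝ} (hc : c * K.r ≤ 2000) :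
    K.S.N.W.μ (Metric.closedBall 0 (c * K.r)) < ⊤ :=
  K.S.N.W.locfin _ (isCompact_closedBall _ _)
    ((Metric.closedBall_subset_closedBall hc).trans K.S.good.dom)

/-- the tilt measure of the start cylinder as an integral -/
theorem start_Dm_apply {κ : ℝ} (hgeo : Geo κ K.S.N.u) (hπ : π.hc ≤ 2 / 9) {B : Set (E m)}
    (hB : MeasurableSet B) :
    K.S.N.Dm B = ∫⁻ X in {X | npr K.S.N.u X ∈ B} ∩ Cyl K.S.N.u (Metric.ball 0 4) π.hc,
      ENNReal.ofReal (tilt K.S.N.u (K.S.N.W.P X) X) ∂K.S.N.W.μ := by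
  have := brs_sigmaFinite K.S.N.W
  unfold NCyl.Dm
  rw [K.start_μ]
  have hae : AEMeasurable (npr K.S.N.u)
      ((K.S.N.W.μ.restrict (Cyl K.S.N.u (Metric.ball 0 4) π.hc)).withDensity
        fun X => ENNReal.ofReal (tilt K.S.N.u (K.S.N.W.P X) X)) :=
    (brs_aemeasurable_npr hgeo hπ _ _).mono_ac (withDensity_absolutelyContinuous _ _)
  rw [Measure.map_apply_of_aemeasurable hae hB, withDensity_apply',
    Measure.restrict_restrict' (K.isOpen_start hgeo hπ).measurableSet]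
  rfl

/-- **core of `tiltT`** -/
theorem tilt_core {κ hc R C : ℝ} {N : NCyl m n} (hN : K.IsCyl R hc N) (hR : R ≤ 12)
    (hgeo : Geo κ K.S.N.u) (hgeo' : Geo 1 K.ut) (hπ : π.hc ≤ 2 / 9) (hhc : hc ≤ 2 / 9)
    (hflat : ∀ Y ∈ K.V.support, Y ∈ Cyl K.ut (Metric.ball 0 12) hc → ‖Y‖ ≤ 14)
    (hcorr : ∀ X ∈ K.S.N.W.support, ‖X‖ ≤ 15 * K.r → K.S.In X ∧
      rho K.S.N.u (npr K.S.N.u X) < 200 * K.r ∧
      ∀ P : E (m + n) →L[ℝ] E (m + n),
        tilt K.ut ((K.G : E (m + n) →L[ℝ] E (m + n)) ∘L P ∘L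
          (K.G.symm : E (m + n) →L[ℝ] E (m + n))) (K.T X) = tilt K.S.N.u P X)
    (hen : K.S.N.Dm (Bs K.S.N.u (200 * K.r)) ≤ ENNReal.ofReal (C * K.a ^ 2 * K.r ^ m)) :
    N.Dm (Metric.ball 0 R) ≤ ENNReal.ofReal (C * K.a ^ 2) := by
  have hr := K.r_pos
  have h1 : N.Dm (Metric.ball 0 R) ≤ ∫⁻ Y in Cyl K.ut (Metric.ball 0 R) hc,
      ENNReal.ofReal (tilt K.ut (K.V.P Y) Y) ∂K.V.μ := by
    unfold NCyl.Dm
    refine (kit_map_apply_le _ _ _).trans ?_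
    rw [withDensity_apply _ MeasurableSet.univ, Measure.restrict_univ, K.target_μ hN, hN.W, hN.u]
  refine h1.trans ?_
  rw [K.lintegral_V]
  have hA : MeasurableSet (K.T ⁻¹' Cyl K.ut (Metric.ball 0 R) hc) :=
    ((brs_isOpen_Cyl hgeo' hhc Metric.isOpen_ball).preimage K.continuous_T).measurableSet
  have h2 : ∫⁻ X in K.T ⁻¹' Cyl K.ut (Metric.ball 0 R) hc,
      ENNReal.ofReal (tilt K.ut (K.V.P (K.T X)) (K.T X)) ∂K.S.N.W.μ
      ≤ K.S.N.Dm (Bs K.S.N.u (200 * K.r)) := by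
    rw [K.start_Dm_apply hgeo hπ (isOpen_Bs hgeo _).measurableSet, ← lintegral_indicator hA]
    refine le_trans (lintegral_mono_ae ?_) (lintegral_indicator_le _ _)
    filter_upwards [kit_ae_support K.S.N.W] with X hX
    by_cases hXA : X ∈ K.T ⁻¹' Cyl K.ut (Metric.ball 0 R) hc
    · have hXA' : K.T X ∈ Cyl K.ut (Metric.ball 0 12) hc :=
        ⟨Metric.ball_subset_ball hR hXA.1, hXA.2⟩
      have h14 := hflat _ (K.T_mem_V_support.2 hX) hXA'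
      have h15 : ‖X‖ ≤ 15 * K.r := (K.norm_le_of_norm_T h14).trans (by linarith)
      obtain ⟨c1, c2, c3⟩ := hcorr X hX h15
      rw [Set.indicator_of_mem hXA, Set.indicator_of_mem
        (show X ∈ {X | npr K.S.N.u X ∈ Bs K.S.N.u (200 * K.r)} ∩
          Cyl K.S.N.u (Metric.ball 0 4) π.hc from ⟨c2, c1.2⟩), K.V_P_T, c3]
    · rw [Set.indicator_of_notMem hXA]
      exact zero_le
  refine (mul_le_mul_right (h2.trans hen) _).trans (le_of_eq ?_)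
  rw [← ENNReal.ofReal_mul (by positivity)]
  congr 1
  field_simp

/-- **core of `mom2T`** -/
theorem mom2_core {κ hc : ℝ} {N : NCyl m n} (hN : K.IsCyl 8 hc N)
    (hgeo : Geo κ K.S.N.u) (hgeo' : Geo 1 K.ut) (hπ : π.hc ≤ 2 / 9) (hhc : hc ≤ 2 / 9)
    (hr1 : K.r ≤ 1)
    (hflat : ∀ Y ∈ K.V.support, Y ∈ Cyl K.ut (Metric.ball 0 12) hc → ‖Y‖ ≤ 14)
    (hsub : ∀ X, K.S.In X → rho K.S.N.u (npr K.S.N.u X) < K.r →
      K.T X ∈ Cyl K.ut (Metric.ball 0 8) hc ∧ npr K.ut (K.T X) ∈ Metric.ball (0 : E m) 3 ∧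
      ‖zz K.ut (K.T X)‖ = K.r⁻¹ * ‖zz K.S.N.u X‖)
    (hen : K.a ^ 2 * K.r ^ (m + 2)
      ≤ 80 * ∫ X in {X | npr K.S.N.u X ∈ Bs K.S.N.u K.r}, ‖zz K.S.N.u X‖ ^ 2 ∂K.S.N.μ) :
    K.a ^ 2 / 80 ≤ ∫ X in {X | npr N.u X ∈ Metric.ball (0 : E m) 3}, ‖zz N.u X‖ ^ 2 ∂N.μ := by
  have hr := K.r_pos
  have hC' : IsOpen (Cyl K.ut (Metric.ball 0 8) hc) := brs_isOpen_Cyl hgeo' hhc Metric.isOpen_ball
  have hC₀ := K.isOpen_start hgeo hπ
  rw [K.target_μ hN, hN.u, Measure.restrict_restrict' hC'.measurableSet, K.integral_V]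
  rw [K.start_μ, Measure.restrict_restrict' hC₀.measurableSet] at hen
  set A : Set (E (m + n)) := K.T ⁻¹' ({X | npr K.ut X ∈ Metric.ball (0 : E m) 3} ∩
    Cyl K.ut (Metric.ball 0 8) hc) with hAd
  set B : Set (E (m + n)) := {X | npr K.S.N.u X ∈ Bs K.S.N.u K.r} ∩
    Cyl K.S.N.u (Metric.ball 0 4) π.hc with hBd
  have hAo : IsOpen A :=
    (isOpen_cyl_inter hgeo' hhc Metric.isOpen_ball Metric.isOpen_ball).preimage K.continuous_T
  have hBo : IsOpen B := isOpen_cyl_inter hgeo hπ Metric.isOpen_ball (isOpen_Bs hgeo _)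
  -- integrability on `A`
  have hfin : K.S.N.W.μ A < ⊤ := by
    refine lt_of_le_of_lt (measure_mono_ae ?_) (K.start_mass_lt_top (c := 14) (by linarith))
    filter_upwards [kit_ae_support K.S.N.W] with X hX hXA
    have hXA' : K.T X ∈ Cyl K.ut (Metric.ball 0 12) hc :=
      ⟨Metric.ball_subset_ball (by norm_num) hXA.2.1, hXA.2.2⟩
    have h14 := hflat _ (K.T_mem_V_support.2 hX) hXA'
    exact mem_closedBall_zero_iff.2 (K.norm_le_of_norm_T h14)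
  have hcont : ContinuousOn (fun X => ‖zz K.ut (K.T X)‖ ^ 2) A := by
    have h1 : ContinuousOn (zz K.ut) (Tub K.ut (2 / 9)) :=
      (tube_deriv_of_le hgeo' le_rfl).2.2.1.continuousOn
    have h2 : Set.MapsTo K.T A (Tub K.ut (2 / 9)) := fun X hX =>
      ⟨npr K.ut (K.T X), lt_of_lt_of_le hX.2.2 hhc⟩
    exact ((h1.comp K.continuous_T.continuousOn h2).norm).pow 2
  have hint : IntegrableOn (fun X => ‖zz K.ut (K.T X)‖ ^ 2) A K.S.N.W.μ := by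
    have : IsFiniteMeasure (K.S.N.W.μ.restrict A) :=
      ⟨by rw [Measure.restrict_apply_univ]; exact hfin⟩
    refine Integrable.of_bound (hcont.aestronglyMeasurable hAo.measurableSet) 1 ?_
    rw [ae_restrict_iff' hAo.measurableSet]
    refine Eventually.of_forall fun X hX => ?_
    have h1 : ‖zz K.ut (K.T X)‖ < hc := hX.2.2
    rw [Real.norm_eq_abs, abs_of_nonneg (by positivity)]
    have h0 := norm_nonneg (zz K.ut (K.T X))
    nlinarith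
  have key : ∫ X in B, ‖zz K.S.N.u X‖ ^ 2 ∂K.S.N.W.μ
      ≤ K.r ^ 2 * ∫ X in A, ‖zz K.ut (K.T X)‖ ^ 2 ∂K.S.N.W.μ := by
    rw [← integral_const_mul, ← integral_indicator hBo.measurableSet,
      ← integral_indicator hAo.measurableSet]
    refine integral_mono_of_nonneg ?_ ?_ ?_
    · exact Eventually.of_forall fun X => Set.indicator_nonneg (fun _ _ => by positivity) X
    · rw [integrable_indicator_iff hAo.measurableSet]
      exact hint.const_mul _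
    · filter_upwards [kit_ae_support K.S.N.W] with X hX
      by_cases hXB : X ∈ B
      · obtain ⟨s1, s2, s3⟩ := hsub X ⟨hX, hXB.2⟩ hXB.1
        rw [Set.indicator_of_mem hXB, Set.indicator_of_mem (show X ∈ A from ⟨s2, s1⟩), s3]
        apply le_of_eq
        field_simp
      · rw [Set.indicator_of_notMem hXB]
        exact Set.indicator_nonneg (fun _ _ => by positivity) X
  have h3 : K.a ^ 2 * K.r ^ (m + 2)
      ≤ 80 * (K.r ^ 2 * ∫ X in A, ‖zz K.ut (K.T X)‖ ^ 2 ∂K.S.N.W.μ) := by linarith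
  have h4 : K.a ^ 2 * K.r ^ (m + 2) = K.a ^ 2 * (K.r ^ m * K.r ^ 2) := by rw [pow_add]
  rw [h4] at h3
  have h5 : 0 < K.r ^ m := pow_pos hr m
  have h6 : 0 < K.r ^ 2 := pow_pos hr 2
  rw [div_le_iff₀ (by norm_num : (0 : ℝ) < 80), ← mul_le_mul_iff_left₀ (mul_pos h5 h6)]
  calc K.a ^ 2 * (K.r ^ m * K.r ^ 2)
      ≤ 80 * (K.r ^ 2 * ∫ X in A, ‖zz K.ut (K.T X)‖ ^ 2 ∂K.S.N.W.μ) := h3
    _ = (K.r ^ m)⁻¹ * (∫ X in A, ‖zz K.ut (K.T X)‖ ^ 2 ∂K.S.N.W.μ) * 80 * (K.r ^ m * K.r ^ 2) := by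
        field_simp

/-- **core of `mom1T`**: the first moment in target units is the first moment in start units -/
theorem mom1_core {κ hc : ℝ} {N : NCyl m n} (hN : K.IsCyl 8 hc N)
    (hgeo : Geo κ K.S.N.u) (hgeo' : Geo 1 K.ut) (hπ : π.hc ≤ 2 / 9) (hhc : hc ≤ 2 / 9)
    (η : E m → E (m + n))
    (h1 : ∀ X ∈ K.S.N.W.support, K.T X ∈ Cyl K.ut (Metric.ball 0 8) hc → K.S.In X ∧
      npr K.ut (K.T X) = K.ψ (npr K.S.N.u X) ∧ zz K.ut (K.T X) = K.r⁻¹ • K.G (zz K.S.N.u X))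
    (h2 : ∀ X, K.S.In X → η (K.ψ (npr K.S.N.u X)) ≠ 0 → K.T X ∈ Cyl K.ut (Metric.ball 0 8) hc) :
    ∫ X, inner ℝ (η (npr N.u X)) (zz N.u X) ∂N.μ
      = (K.r ^ m)⁻¹ * (K.r⁻¹ *
        ∫ X, inner ℝ (K.G.symm (η (K.ψ (npr K.S.N.u X)))) (zz K.S.N.u X) ∂K.S.N.μ) := by
  have hC' : IsOpen (Cyl K.ut (Metric.ball 0 8) hc) := brs_isOpen_Cyl hgeo' hhc Metric.isOpen_ball
  have hC₀ := K.isOpen_start hgeo hπ
  rw [K.target_μ hN, hN.u, K.integral_V, K.start_μ]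
  congr 1
  have hA : MeasurableSet (K.T ⁻¹' Cyl K.ut (Metric.ball 0 8) hc) :=
    (hC'.preimage K.continuous_T).measurableSet
  rw [← integral_const_mul, ← integral_indicator hA, ← integral_indicator hC₀.measurableSet]
  refine integral_congr_ae ?_
  filter_upwards [kit_ae_support K.S.N.W] with X hX
  by_cases hXA : X ∈ K.T ⁻¹' Cyl K.ut (Metric.ball 0 8) hc
  · obtain ⟨a1, a2, a3⟩ := h1 X hX hXA
    rw [Set.indicator_of_mem hXA, Set.indicator_of_mem a1.2, a2, a3, inner_smul_right,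
      LinearIsometryEquiv.inner_map_eq_flip, LinearIsometryEquiv.symm_symm]
  · rw [Set.indicator_of_notMem hXA]
    by_cases hXC : X ∈ Cyl K.S.N.u (Metric.ball 0 4) π.hc
    · have h0 : η (K.ψ (npr K.S.N.u X)) = 0 := by
        by_contra hne
        exact hXA (h2 X ⟨hX, hXC⟩ hne)
      rw [Set.indicator_of_mem hXC, h0, map_zero, inner_zero_left, mul_zero]
    · rw [Set.indicator_of_notMem hXC]

/-- **`mom1T` from `moment_norm`** for one context -/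
theorem mom1_final {κ hc ε' ϑ M C₆ C₇ : ℝ} {N : NCyl m n} (hN : K.IsCyl 8 hc N)
    (hgeo : Geo κ K.S.N.u) (hgeo' : Geo 1 K.ut) (hπ : π.hc ≤ 2 / 9) (hhc : hc ≤ 2 / 9)
    (η : E m → E (m + n)) (hηc : Continuous η) (hηt : tsupport η ⊆ Metric.ball 0 8)
    (hM : 0 < M) (hηM : ∀ x, ‖η x‖ ≤ M)
    (hmod : ∀ p p', ‖p - p'‖ ≤ 2 * ϑ → ‖η p - η p'‖ ≤ M * ε')
    (hψc : Continuous K.ψ) (hR : Regr 1 C₆ K.S.N.u K.G K.r) (hu0 : ‖K.S.N.u 0‖ ≤ K.r / 100)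
    (h1 : ∀ X ∈ K.S.N.W.support, K.T X ∈ Cyl K.ut (Metric.ball 0 8) hc → K.S.In X ∧
      npr K.ut (K.T X) = K.ψ (npr K.S.N.u X) ∧ zz K.ut (K.T X) = K.r⁻¹ • K.G (zz K.S.N.u X))
    (h2 : ∀ X, K.S.In X → η (K.ψ (npr K.S.N.u X)) ≠ 0 → K.T X ∈ Cyl K.ut (Metric.ball 0 8) hc)
    (hmn : ∀ ζ : E m → E (m + n), Continuous ζ → (∀ x, ‖ζ x‖ ≤ 1) →
      (∀ x, 18 ≤ ‖x‖ → ζ x = 0) → (∀ x x', ‖x - x'‖ ≤ ϑ → ‖ζ x - ζ x'‖ ≤ ε') →
      |∫ X, inner ℝ (ζ (K.r⁻¹ • npr K.S.N.u X)) (zz K.S.N.u X) ∂K.S.N.μ|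
        ≤ C₇ * ε' * K.a * K.r ^ (m + 1)) :
    |K.a⁻¹ * ∫ X, inner ℝ (η (npr N.u X)) (zz N.u X) ∂N.μ| ≤ M * C₇ * ε' := by
  have hr := K.r_pos
  have hri := inv_pos.2 hr
  have ha := K.a_pos
  have hMi := inv_pos.2 hM
  have z1 : Continuous fun x : E m => M⁻¹ • K.G.symm (η (K.ψ (K.r • x))) :=
    (K.G.symm.continuous.comp (hηc.comp (hψc.comp (continuous_const_smul K.r)))).const_smul M⁻¹
  have z2 : ∀ x : E m, ‖M⁻¹ • K.G.symm (η (K.ψ (K.r • x)))‖ ≤ 1 := by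
    intro x
    rw [norm_smul, LinearIsometryEquiv.norm_map, Real.norm_eq_abs, abs_of_pos hMi,
      inv_mul_le_iff₀ hM, mul_one]
    exact hηM _
  have hψ0 : ‖K.ψ 0‖ ≤ 1 / 100 := by
    have h3 := K.norm_ψ_le 0
    rw [kit_norm_Fg_zero] at h3
    have h4 : K.r⁻¹ * ‖K.S.N.u 0‖ ≤ K.r⁻¹ * (K.r / 100) := mul_le_mul_of_nonneg_left hu0 hri.le
    have h5 : K.r⁻¹ * (K.r / 100) = 1 / 100 := by field_simp
    linarith
  have z3 : ∀ x : E m, 18 ≤ ‖x‖ → M⁻¹ • K.G.symm (η (K.ψ (K.r • x))) = 0 := by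
    intro x hx
    have h3 : ‖K.r • x - 0‖ ≤ 2 * K.r * ‖K.ψ (K.r • x) - K.ψ 0‖ := hR.lip_lo _ _
    rw [sub_zero, norm_smul, Real.norm_eq_abs, abs_of_pos hr] at h3
    have h4 : ‖K.ψ (K.r • x) - K.ψ 0‖ ≤ ‖K.ψ (K.r • x)‖ + ‖K.ψ 0‖ := norm_sub_le _ _
    have h5 : ‖x‖ ≤ 2 * ‖K.ψ (K.r • x) - K.ψ 0‖ := by
      have : K.r * ‖x‖ ≤ K.r * (2 * ‖K.ψ (K.r • x) - K.ψ 0‖) := by linarith
      exact le_of_mul_le_mul_left this hr
    have h6 : K.ψ (K.r • x) ∉ tsupport η := by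
      intro hmem
      have := mem_ball_zero_iff.1 (hηt hmem)
      linarith
    rw [image_eq_zero_of_notMem_tsupport h6, map_zero, smul_zero]
  have z4 : ∀ x x' : E m, ‖x - x'‖ ≤ ϑ →
      ‖M⁻¹ • K.G.symm (η (K.ψ (K.r • x))) - M⁻¹ • K.G.symm (η (K.ψ (K.r • x')))‖ ≤ ε' := by
    intro x x' hxx
    rw [← smul_sub, ← map_sub, norm_smul, LinearIsometryEquiv.norm_map, Real.norm_eq_abs,
      abs_of_pos hMi, inv_mul_le_iff₀ hM]
    refine hmod _ _ ?_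
    have h3 : K.r * ‖K.ψ (K.r • x) - K.ψ (K.r • x')‖ ≤ 2 * ‖K.r • x - K.r • x'‖ := hR.lip_hi _ _
    rw [← smul_sub, norm_smul, Real.norm_eq_abs, abs_of_pos hr] at h3
    have h4 : K.r * ‖K.ψ (K.r • x) - K.ψ (K.r • x')‖ ≤ K.r * (2 * ϑ) := by nlinarith
    exact le_of_mul_le_mul_left h4 hr
  have I := hmn _ z1 z2 z3 z4
  have e : ∀ X, inner ℝ (K.G.symm (η (K.ψ (npr K.S.N.u X)))) (zz K.S.N.u X)
      = M * inner ℝ (M⁻¹ • K.G.symm (η (K.ψ (K.r • (K.r⁻¹ • npr K.S.N.u X))))) (zz K.S.N.u X) := by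
    intro X
    rw [smul_smul, mul_inv_cancel₀ hr.ne', one_smul, real_inner_smul_left, ← mul_assoc,
      mul_inv_cancel₀ hM.ne', one_mul]
  rw [K.mom1_core hN hgeo hgeo' hπ hhc η h1 h2]
  simp_rw [e]
  rw [integral_const_mul, abs_mul, abs_mul, abs_mul, abs_mul, abs_of_pos (inv_pos.2 ha),
    abs_of_pos (inv_pos.2 (pow_pos hr m)), abs_of_pos hri, abs_of_pos hM]
  calc K.a⁻¹ * ((K.r ^ m)⁻¹ * (K.r⁻¹ * (M * _)))
      ≤ K.a⁻¹ * ((K.r ^ m)⁻¹ * (K.r⁻¹ * (M * (C₇ * ε' * K.a * K.r ^ (m + 1))))) := by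
        gcongr
    _ = M * C₇ * ε' := by
        rw [pow_succ]
        field_simp

end Ctx

end Claimed.Agent.R322.Blow
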