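import Claimed.Agent.R322.Blow.Target

/-!
# CO Proposition 5.1: assembly

`Facts m n Q J₀ h₁ π` bundles the conclusions of the leaves of `Blow/Start.lean`, `Blow/Target.lean` for one parameter tuple;
`center_of_facts` builds `Blow.CenteredData` from `Freq.TargetData`; `center_main : Freq.CenterStmt m n Q`.

The rotation to target coordinates is `G i = (O i)⁻¹`, so that `K.V = D.W.simil 0 (L (φ i)) 1`: the limit plane is horizontal, the centre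
measures of `D` are used unchanged, no subsequence is needed.
-/

set_option autoImplicit false

open scoped ENNReal ContDiff
open MeasureTheory Filter Topology

namespace Claimed.Agent.R322.Blow

open Claimed.Agent.R322.Tube Claimed.Agent.R322.Freq

variable {m n : ℕ}

/-- everything the assembly uses, for one parameter tuple -/
structure Facts (m n Q J₀ : ℕ) (h₁ : ℝ) (π : Par) : Prop where
  a_small : ∀ C₀ : ℝ, ∃ C : ℝ, 0 < C ∧ ∀ K : Ctx m n Q π C₀, K.a ≤ C * qd K.S.N (1000 * K.r)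
  conv : ∀ (C₀ : ℝ) (J : ℕ), J + 1 ≤ π.J → ∀ ε : ℝ, 0 < ε → ∃ δ : ℝ, 0 < δ ∧
    ∀ K : Ctx m n Q π C₀, K.Small δ →
      ContDiff ℝ J K.ut ∧ ∀ j : ℕ, j ≤ J → ∀ x, ‖iteratedFDeriv ℝ j K.ut x‖ ≤ ε
  flat : ∀ (C₀ hc : ℝ), 0 < hc → hc ≤ 1 → ∃ δ : ℝ, 0 < δ ∧ ∀ K : Ctx m n Q π C₀, K.Small δ →
    Cyl K.ut (Metric.ball 0 12) hc ⊆ K.V.U ∧
    (∀ X ∈ K.V.support, X ∈ Cyl K.ut (Metric.ball 0 12) hc → ‖zz K.ut X‖ < hc / 2 ∧ ‖X‖ ≤ 14) ∧
    (∀ X ∈ K.V.support, ‖X‖ ≤ 2 → X ∈ Cyl K.ut (Metric.ball 0 8) hc)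
  height : ∀ (C₀ hc : ℝ), 0 < hc → hc ≤ 1 → ∃ C δ : ℝ, 0 < C ∧ 0 < δ ∧
    ∀ K : Ctx m n Q π C₀, K.Small δ →
      ∀ X ∈ K.V.support, X ∈ Cyl K.ut (Metric.ball 0 12) hc → ‖zz K.ut X‖ ≤ C * K.a
  curv : ∀ (C₀ ε : ℝ), 0 < ε → ∃ δ : ℝ, 0 < δ ∧ ∀ K : Ctx m n Q π C₀, K.Small δ →
    ∀ x ∈ Metric.ball (0 : E m) 12, ‖HS K.ut x‖ + Real.sqrt (DHSsq K.ut x) ≤ ε * K.a
  mass : ∀ (C₀ hc : ℝ) (J : ℕ), J₀ ≤ J → J + 1 ≤ π.J → 0 < hc → hc ≤ h₁ → ∃ C δ : ℝ, 0 < C ∧ 0 < δ ∧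
    ∀ K : Ctx m n Q π C₀, K.Small δ → ∀ N : NCyl m n, K.IsCyl 8 hc N →
      (N.Dm + N.Mabs) (Metric.ball 0 8) ≤ ENNReal.ofReal (C * K.a ^ 2)
  mom2 : ∀ (C₀ hc : ℝ), 0 < hc → hc ≤ h₁ → ∃ δ : ℝ, 0 < δ ∧
    ∀ K : Ctx m n Q π C₀, K.Small δ → ∀ N : NCyl m n, K.IsCyl 8 hc N →
      K.a ^ 2 / 80 ≤ ∫ X in {X | npr N.u X ∈ Metric.ball (0 : E m) 3}, ‖zz N.u X‖ ^ 2 ∂N.μ
  mom1 : ∀ (C₀ hc : ℝ), 0 < hc → hc ≤ h₁ →
    ∀ η : E m → E (m + n), Continuous η → HasCompactSupport η → tsupport η ⊆ Metric.ball 0 8 →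
    ∀ ε : ℝ, 0 < ε → ∃ δ : ℝ, 0 < δ ∧
    ∀ K : Ctx m n Q π C₀, K.Small δ → ∀ N : NCyl m n, K.IsCyl 8 hc N →
      |K.a⁻¹ * ∫ X, inner ℝ (η (npr N.u X)) (zz N.u X) ∂N.μ| ≤ ε

/-- all facts hold for parameters chosen in the right order -/
theorem facts_stm (m n Q : ℕ) (hm : 1 ≤ m) (hn : 1 ≤ n) (hQ : 1 ≤ Q) :
    ∃ (J₀ : ℕ) (h₁ : ℝ), 0 < h₁ ∧ h₁ ≤ 1 ∧ Stm m (Facts m n Q J₀ h₁) := by
  obtain ⟨J₀, h₁, hh₁, hh₁', e₁⟩ := massT m n Q hm hn hQ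
  obtain ⟨h₂, hh₂, e₂⟩ := mom2T m n Q hm hn hQ
  obtain ⟨h₃, hh₃, e₃⟩ := mom1T m n Q hm hn hQ
  refine ⟨J₀, min h₁ (min h₂ h₃), lt_min hh₁ (lt_min hh₂ hh₃), (min_le_left _ _).trans hh₁', ?_⟩
  refine (((((((a_small m n Q hm hn hQ).and (ut_conv m n Q hm hn hQ)).and (flatT m n Q hm hn hQ)).and
    (heightT m n Q hm hn hQ)).and (curvT m n Q hm hn hQ)).and e₁).and e₂).and e₃ |>.mono ?_
  rintro π - ⟨⟨⟨⟨⟨⟨⟨a₁, a₂⟩, a₃⟩, a₄⟩, a₅⟩, a₆⟩, a₇⟩, a₈⟩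
  exact ⟨a₁, a₂, a₃, a₄, a₅,
    fun C₀ hc J h1 h2 h3 h4 => a₆ C₀ hc J h1 h2 h3 (h4.trans (min_le_left _ _)),
    fun C₀ hc h3 h4 => a₇ C₀ hc h3 (h4.trans ((min_le_right _ _).trans (min_le_left _ _))),
    fun C₀ hc h3 h4 => a₈ C₀ hc h3 (h4.trans ((min_le_right _ _).trans (min_le_right _ _)))⟩

section assembly

variable {s : ℝ} {π : Par}

theorem target_r_pos {D : Flat.FlatData m n s} (T : TargetData π D) (i : ℕ) : 0 < T.r i := by
  have h1 := T.r_eq i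
  have h2 := T.R_pos i
  have h3 := D.L_pos (T.φ i)
  by_contra h
  have : T.r i * T.R i ≤ 0 := mul_nonpos_of_nonpos_of_nonneg (not_lt.1 h) h2.le
  linarith

/-- the context of the `i`-th target -/
noncomputable def ctxOf {D : Flat.FlatData m n s} (T : TargetData π D) (i : ℕ) : Ctx m n D.Q π T.C₀ where
  S := T.S i
  r := T.r i
  G := (T.O i).symm
  r_pos := target_r_pos T i
  r_lo := T.r_lo i
  r_hi := T.r_hi i
  H_pos := T.H_pos i (T.r i) le_rfl (by have := target_r_pos T i; linarith)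
  dbl := T.dbl i
  rad := T.rad i

/-- in target coordinates the varifold is the plain dilation of `D.W` -/
theorem ctxOf_V {D : Flat.FlatData m n s} (T : TargetData π D) (i : ℕ) :
    (ctxOf T i).V = D.W.simil 0 (D.L (T.φ i)) (D.L_pos _) (LinearIsometryEquiv.refl ℝ _) := by
  have h1 : (ctxOf T i).V = ((T.S i).N.W).simil 0 (T.r i) (target_r_pos T i) (T.O i).symm := rfl
  rw [h1, T.S_W i, simil_simil]
  have h4 : (T.O i).trans (T.O i).symm = LinearIsometryEquiv.refl ℝ _ := by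
    ext v; simp
  rw [h4]
  exact simil_congr D.W _ _ (by rw [mul_comm]; exact T.r_eq i) _

/-- the contexts become arbitrarily small -/
theorem ctxOf_small (hm : 1 ≤ m) {D : Flat.FlatData m n s} (T : TargetData π D) (δ : ℝ) (hδ : 0 < δ) :
    ∀ᶠ i in atTop, (ctxOf T i).Small δ := by
  have h1 : ∀ᶠ i in atTop, qd (T.S i).N (1000 * T.r i) ≤ δ :=
    (T.small.eventually (gt_mem_nhds hδ)).mono fun i hi => le_of_lt hi
  have h2 := T.φ_mono.tendsto_atTop.eventually (good_of_flat hm D 1 1 δ one_pos hδ)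
  filter_upwards [h1, h2] with i hi1 hi2
  refine ⟨hi1, ?_⟩
  rw [ctxOf_V]
  exact hi2 _ _ (by rw [one_mul]) (by rw [one_mul])

/-- the target cylinder -/
noncomputable def mkCyl {Q : ℕ} {C₀ : ℝ} (K : Ctx m n Q π C₀) (hQ : 1 ≤ Q) (hc : ℝ) (hc0 : 0 < hc)
    (h1 : Cyl K.ut (Metric.ball 0 8) hc ⊆ K.V.U)
    (h2 : ∀ X ∈ K.V.support, X ∈ Cyl K.ut (Metric.ball 0 8) hc → ‖zz K.ut X‖ < hc / 2) : NCyl m n where
  W := K.V
  u := K.ut
  Ω := Metric.ball 0 8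
  h := hc
  h' := hc / 2
  Q := Q
  isOpen_Ω := Metric.isOpen_ball
  h'_pos := by positivity
  h'_lt := by linarith
  Q_pos := hQ
  cyl_sub := h1
  gap := h2

theorem cyl_mono (u : E m → E n) {Ω Ω' : Set (E m)} (h : Ω ⊆ Ω') (hc : ℝ) : Cyl u Ω hc ⊆ Cyl u Ω' hc :=
  fun _ hX => ⟨h hX.1, hX.2⟩

/-- **Assembly of CO Proposition 5.1.** -/
theorem center_of_facts (hm : 1 ≤ m) {J₀ : ℕ} {h₁ : ℝ} (hh₁ : h₁ ≤ 1) (D : Flat.FlatData m n s)
    (hF : Facts m n D.Q J₀ h₁ π) (T : TargetData π D) (J : ℕ) (hc : ℝ) (hJ0 : J₀ ≤ J) (hJ : J + 1 ≤ π.J)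
    (hc0 : 0 < hc) (hc1 : hc ≤ h₁) : Nonempty (CenteredData m n s D.Q J hc) := by
  have hc1' : hc ≤ 1 := hc1.trans hh₁
  obtain ⟨Ca, hCa, ha⟩ := hF.a_small T.C₀
  obtain ⟨δ₁, hδ₁, hflat⟩ := hF.flat T.C₀ hc hc0 hc1'
  obtain ⟨C₂, δ₂, hC₂, hδ₂, hheight⟩ := hF.height T.C₀ hc hc0 hc1'
  obtain ⟨C₃, δ₃, hC₃, hδ₃, hmass⟩ := hF.mass T.C₀ hc J hJ0 hJ hc0 hc1
  obtain ⟨δ₄, hδ₄, hmom2⟩ := hF.mom2 T.C₀ hc hc0 hc1
  obtain ⟨δ₅, hδ₅, hsm⟩ := hF.conv T.C₀ J hJ 1 one_pos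
  set δ := min δ₁ (min δ₂ (min δ₃ (min δ₄ δ₅))) with hδdef
  have hδ : 0 < δ := lt_min hδ₁ (lt_min hδ₂ (lt_min hδ₃ (lt_min hδ₄ hδ₅)))
  obtain ⟨i₀, hi₀⟩ := eventually_atTop.1 (ctxOf_small hm T δ hδ)
  have hS : ∀ i, (ctxOf T (i + i₀)).Small δ := fun i => hi₀ _ (Nat.le_add_left _ _)
  have hS₁ : ∀ i, (ctxOf T (i + i₀)).Small δ₁ := fun i => (hS i).mono (min_le_left _ _)
  have hS₂ : ∀ i, (ctxOf T (i + i₀)).Small δ₂ := fun i =>
    (hS i).mono ((min_le_right _ _).trans (min_le_left _ _))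
  have hS₃ : ∀ i, (ctxOf T (i + i₀)).Small δ₃ := fun i =>
    (hS i).mono ((min_le_right _ _).trans ((min_le_right _ _).trans (min_le_left _ _)))
  have hS₄ : ∀ i, (ctxOf T (i + i₀)).Small δ₄ := fun i =>
    (hS i).mono ((min_le_right _ _).trans ((min_le_right _ _).trans ((min_le_right _ _).trans
      (min_le_left _ _))))
  have hS₅ : ∀ i, (ctxOf T (i + i₀)).Small δ₅ := fun i =>
    (hS i).mono ((min_le_right _ _).trans ((min_le_right _ _).trans ((min_le_right _ _).trans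
      (min_le_right _ _))))
  have hb : Metric.ball (0 : E m) 8 ⊆ Metric.ball 0 12 := Metric.ball_subset_ball (by norm_num)
  -- eventual smallness along the shifted sequence
  have hev : ∀ δ' : ℝ, 0 < δ' → ∀ᶠ i in atTop, (ctxOf T (i + i₀)).Small δ' := fun δ' hδ' =>
    (tendsto_add_atTop_nat i₀).eventually (ctxOf_small hm T δ' hδ')
  let N : ℕ → NCyl m n := fun i => mkCyl (ctxOf T (i + i₀)) D.Q_pos hc hc0
    ((cyl_mono _ hb hc).trans (hflat _ (hS₁ i)).1)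
    (fun X hX hXc => ((hflat _ (hS₁ i)).2.1 X hX (cyl_mono _ hb hc hXc)).1)
  have hN : ∀ i, (ctxOf T (i + i₀)).IsCyl 8 hc (N i) := fun i => ⟨rfl, rfl, rfl, rfl, rfl⟩
  have halim : Tendsto (fun i => (ctxOf T (i + i₀)).a) atTop (𝓝 0) := by
    rw [Metric.tendsto_atTop]
    intro ε hε
    have hε' : 0 < ε / (2 * Ca) := by positivity
    obtain ⟨i₁, hi₁⟩ := eventually_atTop.1 (hev _ hε')
    refine ⟨i₁, fun i hi => ?_⟩
    have h1 := ha (ctxOf T (i + i₀))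
    have h2 := (hi₁ i hi).qd
    have h3 := (ctxOf T (i + i₀)).a_pos
    rw [Real.dist_eq, sub_zero, abs_of_pos h3]
    calc (ctxOf T (i + i₀)).a ≤ Ca * qd (ctxOf T (i + i₀)).S.N (1000 * (ctxOf T (i + i₀)).r) := h1
      _ ≤ Ca * (ε / (2 * Ca)) := mul_le_mul_of_nonneg_left h2 hCa.le
      _ = ε / 2 := by field_simp
      _ < ε := by linarith
  refine ⟨{
    N := N
    N_Q := fun i => rfl
    N_Ω := fun i => rfl
    N_h := fun i => rfl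
    cover := fun i X hX hX2 => (hflat _ (hS₁ i)).2.2 X hX hX2
    u_smooth := fun i => (hsm _ (hS₅ i)).1
    u_conv := fun ε hε => by
      obtain ⟨δ', hδ', h⟩ := hF.conv T.C₀ J hJ ε hε
      filter_upwards [hev δ' hδ'] with i hi
      exact (h _ hi).2
    a := fun i => (ctxOf T (i + i₀)).a
    a_pos := fun i => (ctxOf T (i + i₀)).a_pos
    a_lim := halim
    C := max (max C₂ C₃) D.C
    c := min (1 / 80) D.c
    c_pos := lt_min (by norm_num) D.c_pos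
    mass_bd := fun i => (hmass _ (hS₃ i) (N i) (hN i)).trans (ENNReal.ofReal_le_ofReal
      (mul_le_mul_of_nonneg_right ((le_max_right _ _).trans (le_max_left _ _)) (sq_nonneg _)))
    height_bd := fun i X hX hXc => (hheight _ (hS₂ i) X hX (cyl_mono _ hb hc hXc)).trans
      (mul_le_mul_of_nonneg_right ((le_max_left _ _).trans (le_max_left _ _))
        (ctxOf T (i + i₀)).a_pos.le)
    curv := fun ε hε => by
      obtain ⟨δ', hδ', h⟩ := hF.curv T.C₀ ε hε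
      filter_upwards [hev δ' hδ'] with i hi y hy
      exact h _ hi y (hb hy)
    moment1 := fun η hη hηc hηs => by
      rw [Metric.tendsto_atTop]
      intro ε hε
      obtain ⟨δ', hδ', h⟩ := hF.mom1 T.C₀ hc hc0 hc1 η hη hηc hηs (ε / 2) (by positivity)
      obtain ⟨i₁, hi₁⟩ := eventually_atTop.1 (hev δ' hδ')
      refine ⟨i₁, fun i hi => ?_⟩
      rw [Real.dist_eq, sub_zero]
      exact lt_of_le_of_lt (h _ (hi₁ i hi) (N i) (hN i)) (by linarith)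
    moment2 := fun i => by
      refine le_trans ?_ (hmom2 _ (hS₄ i) (N i) (hN i))
      have h8 : min (1 / 80) D.c * (ctxOf T (i + i₀)).a ^ 2 ≤ 1 / 80 * (ctxOf T (i + i₀)).a ^ 2 :=
        mul_le_mul_of_nonneg_right (min_le_left _ _) (sq_nonneg _)
      calc min (1 / 80) D.c * (ctxOf T (i + i₀)).a ^ 2 ≤ 1 / 80 * (ctxOf T (i + i₀)).a ^ 2 := h8
        _ = (ctxOf T (i + i₀)).a ^ 2 / 80 := by ring
    σ := fun i => D.σ (T.φ (i + i₀))
    σ_supp := fun i => by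
      refine measure_mono_null ?_ (D.σ_supp (T.φ (i + i₀)))
      intro X hX
      simp only [Set.mem_ofPred_eq] at hX ⊢
      intro h
      apply hX
      have hV : (N i).W = D.W.simil 0 (D.L (T.φ (i + i₀))) (D.L_pos _) (LinearIsometryEquiv.refl ℝ _) :=
        ctxOf_V T (i + i₀)
      have hinv : simInv 0 (D.L (T.φ (i + i₀))) (LinearIsometryEquiv.refl ℝ (E (m + n))) X
          = D.L (T.φ (i + i₀)) • X := by
        unfold simInv
        rw [zero_add]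
        rfl
      refine ⟨h.1, ?_, ?_⟩
      · rw [hV, SIV.simil_support, Set.mem_preimage, hinv]
        exact D.K_sub h.2
      · rw [hV, SIV.simil_Θ, hinv]
        exact D.K_dens _ h.2
    σ_ball := fun i X u hu => (D.σ_ball _ X u hu).trans (ENNReal.ofReal_le_ofReal
      (mul_le_mul_of_nonneg_right (le_max_right _ _) (Real.rpow_nonneg hu.le _)))
    σ_lower := fun i => (ENNReal.ofReal_le_ofReal (min_le_right _ _)).trans (D.σ_lower _)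
    σ_upper := fun i => (D.σ_upper _).trans (ENNReal.ofReal_le_ofReal (le_max_right _ _)) }⟩

end assembly

/-- **CO Proposition 5.1.** -/
theorem center_main (m n Q : ℕ) (hm : 1 ≤ m) (hn : 1 ≤ n) (hQ : 1 ≤ Q) : CenterStmt m n Q := by
  obtain ⟨J₀, h₁, hh₁, hh₁', J₁, h⟩ := facts_stm m n Q hm hn hQ
  refine ⟨J₀, J₁, h₁, hh₁, fun B hJ hB => (h B hJ hB).mono fun π hπ hF s D _ hDQ T J hc h1 h2 h3 h4 => ?_⟩
  subst hDQ
  exact center_of_facts hm hh₁' D hF T J hc h1 (by rw [hπ]; exact h2) h3 h4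

end Claimed.Agent.R322.Blow
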