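import Claimed.Agent.R322.Blow.Ctx
import Claimed.Agent.R322.Pack048
import Claimed.Agent.R322.Pack044

/-!
# CO Proposition 5.1: kit for the first height moments (helper203)

`moment_vert_of`, `moment_norm_of`: the leaves `L-Blow-moment-vert`, `L-Blow-moment-norm` of `Blow/Start.lean`, proved from the
statements of `loc`, `energy`, `sup_height`, `moment_smooth` (taken as hypotheses, so that this file does not depend on `Start.lean`).
-/

set_option autoImplicit false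

open scoped ENNReal ContDiff
open MeasureTheory Filter Topology

namespace Claimed.Agent.R322.Blow

open Claimed.Agent.R322.Tube Claimed.Agent.R322.Freq Claimed.Agent.R322.Tool Claimed.Agent.R322.Lin

/-- **Smooth approximation of equicontinuous tests at the scale `r`** (grid partition of unity). -/
theorem mv_approx (m n q : ℕ) (ϑ : ℝ) (hϑ : 0 < ϑ) : ∃ A : ℝ, 0 < A ∧ ∀ (r ε : ℝ), 0 < r →
    ∀ ξ : E m → E n, (∀ x, ‖ξ x‖ ≤ 1) → (∀ x, 20 ≤ ‖x‖ → ξ x = 0) →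
      (∀ x x', ‖x - x'‖ ≤ ϑ → ‖ξ x - ξ x'‖ ≤ ε) →
      ∃ η : E m → E n, ContDiff ℝ ∞ η ∧ tsupport η ⊆ Metric.closedBall 0 (21 * r) ∧
        (∀ j : ℕ, j ≤ q → ∀ y, r ^ j * ‖iteratedFDeriv ℝ j η y‖ ≤ A) ∧
        ∀ y, ‖η y - ξ (r⁻¹ • y)‖ ≤ ε := by
  classical
  obtain ⟨C, Nov, hC, H⟩ := grid_pou m q 1 le_rfl
  set l : ℝ := min ϑ 1 with hl
  have hl0 : 0 < l := lt_min hϑ one_pos
  have hl1 : l ≤ 1 := min_le_right _ _
  obtain ⟨N0, hN0⟩ := gpt_count m (20 / l)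
  have hFfin : {k : Fin m → ℤ | ‖gpt m l k‖ < 20}.Finite := by
    refine (hN0 0).1.subset fun k hk => ?_
    have hk' : ‖gpt m l k‖ < 20 := hk
    rw [gpt_smul, norm_smul, Real.norm_eq_abs, abs_of_pos hl0] at hk'
    show gpt m 1 k ∈ Metric.ball 0 (20 / l)
    rw [mem_ball_zero_iff, lt_div_iff₀ hl0]
    linarith
  set F : Finset (Fin m → ℤ) := hFfin.toFinset with hF
  have hmemF : ∀ k, k ∈ F ↔ ‖gpt m l k‖ < 20 := fun k => by rw [hF, Set.Finite.mem_toFinset]; rfl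
  refine ⟨(F.card + 1) * (C * (l⁻¹) ^ q), by positivity, fun r ε hr ξ hξ1 hξ0 hξe => ?_⟩
  have hL : 0 < l * r := mul_pos hl0 hr
  obtain ⟨χ, hχs, hχ01, hχsupp, hχfin, hχsum, hχd, -, -⟩ := H (l * r) hL
  have hg : ∀ k, gpt m (l * r) k = r • gpt m l k := fun k => by
    rw [gpt_smul m (l * r), gpt_smul m l, smul_smul, mul_comm]
  have hne : ∀ k y, χ k y ≠ 0 → ‖y - gpt m (l * r) k‖ < l * r := fun k y hy => by
    have := hχsupp k (subset_tsupport _ hy)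
    rwa [Metric.mem_ball, dist_eq_norm] at this
  refine ⟨fun y => ∑ k ∈ F, χ k y • ξ (gpt m l k), ?_, ?_, ?_, ?_⟩
  · exact ContDiff.sum fun k _ => (hχs k).smul contDiff_const
  · refine closure_minimal (fun y hy => ?_) Metric.isClosed_closedBall
    obtain ⟨k, hk, hky⟩ := Finset.exists_ne_zero_of_sum_ne_zero hy
    have h1 : χ k y ≠ 0 := fun h => hky (by rw [h, zero_smul])
    have h2 := hne k y h1
    have h3 := (hmemF k).1 hk
    rw [mem_closedBall_zero_iff]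
    have h4 : ‖gpt m (l * r) k‖ < 20 * r := by
      rw [hg, norm_smul, Real.norm_eq_abs, abs_of_pos hr]
      nlinarith
    have h5 : ‖y‖ ≤ ‖y - gpt m (l * r) k‖ + ‖gpt m (l * r) k‖ := by
      have := norm_add_le (y - gpt m (l * r) k) (gpt m (l * r) k)
      rwa [sub_add_cancel] at this
    nlinarith
  · intro j hj y
    have hcd : ∀ k ∈ F, ContDiffAt ℝ j (fun y => χ k y • ξ (gpt m l k)) y := fun k _ =>
      (((hχs k).smul contDiff_const).contDiffAt).of_le (by exact_mod_cast le_top)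
    rw [iteratedFDeriv_fun_sum_apply (f := fun k y => χ k y • ξ (gpt m l k)) hcd]
    have hterm : ∀ k ∈ F, ‖iteratedFDeriv ℝ j (fun y => χ k y • ξ (gpt m l k)) y‖
        ≤ ‖iteratedFDeriv ℝ j (χ k) y‖ := by
      intro k _
      have h1 := ((ContinuousLinearMap.id ℝ ℝ).smulRight (ξ (gpt m l k))).norm_iteratedFDeriv_comp_left
        (f := χ k) (x := y) (N := ∞) (n := j) (hχs k).contDiffAt (by exact_mod_cast le_top)
      have h2 : ((ContinuousLinearMap.id ℝ ℝ).smulRight (ξ (gpt m l k)) : ℝ → E n) ∘ χ k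
          = fun y => χ k y • ξ (gpt m l k) := by
        funext z; simp
      rw [h2] at h1
      refine h1.trans ?_
      have h3 : ‖(ContinuousLinearMap.id ℝ ℝ).smulRight (ξ (gpt m l k))‖ ≤ 1 := by
        rw [ContinuousLinearMap.norm_smulRight_apply]
        calc ‖ContinuousLinearMap.id ℝ ℝ‖ * ‖ξ (gpt m l k)‖ ≤ 1 * 1 :=
              mul_le_mul ContinuousLinearMap.norm_id_le (hξ1 _) (norm_nonneg _) zero_le_one
          _ = 1 := one_mul 1
      calc _ ≤ 1 * ‖iteratedFDeriv ℝ j (χ k) y‖ :=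
            mul_le_mul_of_nonneg_right h3 (norm_nonneg _)
        _ = _ := one_mul _
    have hone : ∀ k, r ^ j * ‖iteratedFDeriv ℝ j (χ k) y‖ ≤ C * (l⁻¹) ^ q := by
      intro k
      have h1 := hχd k j hj y
      rw [mul_pow] at h1
      have h2 : r ^ j * ‖iteratedFDeriv ℝ j (χ k) y‖ ≤ C * (l⁻¹) ^ j := by
        rw [inv_pow, ← div_eq_mul_inv, le_div_iff₀ (pow_pos hl0 j)]
        linarith
      refine h2.trans (mul_le_mul_of_nonneg_left ?_ hC.le)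
      exact pow_le_pow_right₀ ((one_le_inv₀ hl0).2 hl1) hj
    calc r ^ j * ‖∑ k ∈ F, iteratedFDeriv ℝ j (fun y => χ k y • ξ (gpt m l k)) y‖
        ≤ r ^ j * ∑ k ∈ F, ‖iteratedFDeriv ℝ j (χ k) y‖ := by
          refine mul_le_mul_of_nonneg_left ?_ (by positivity)
          exact (norm_sum_le _ _).trans (Finset.sum_le_sum hterm)
      _ = ∑ k ∈ F, r ^ j * ‖iteratedFDeriv ℝ j (χ k) y‖ := Finset.mul_sum _ _ _
      _ ≤ ∑ _k ∈ F, C * (l⁻¹) ^ q := Finset.sum_le_sum fun k _ => hone k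
      _ = F.card * (C * (l⁻¹) ^ q) := by rw [Finset.sum_const, nsmul_eq_mul]
      _ ≤ (F.card + 1) * (C * (l⁻¹) ^ q) := by
          refine mul_le_mul_of_nonneg_right (by linarith) (by positivity)
  · intro y
    set G : Finset (Fin m → ℤ) := (hχfin y).toFinset with hG
    have hmemG : ∀ k, k ∈ G ↔ χ k y ≠ 0 := fun k => by rw [hG, Set.Finite.mem_toFinset]; rfl
    have e1 : ∑ k ∈ F, χ k y • ξ (gpt m l k) = ∑ k ∈ G, χ k y • ξ (gpt m l k) := by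
      have a1 : ∑ k ∈ F, χ k y • ξ (gpt m l k) = ∑ k ∈ F ∪ G, χ k y • ξ (gpt m l k) := by
        refine Finset.sum_subset Finset.subset_union_left fun k _ hk => ?_
        rw [hξ0 _ (not_lt.1 fun h => hk ((hmemF k).2 h)), smul_zero]
      have a2 : ∑ k ∈ G, χ k y • ξ (gpt m l k) = ∑ k ∈ F ∪ G, χ k y • ξ (gpt m l k) := by
        refine Finset.sum_subset Finset.subset_union_right fun k _ hk => ?_
        have : χ k y = 0 := by
          by_contra h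
          exact hk ((hmemG k).2 h)
        rw [this, zero_smul]
      rw [a1, a2]
    have e2 : ∑ k ∈ G, χ k y = 1 := by
      rw [← hχsum y]
      symm
      refine finsum_eq_sum_of_support_subset _ fun k hk => ?_
      exact Finset.mem_coe.2 ((hmemG k).2 hk)
    have e3 : ξ (r⁻¹ • y) = ∑ k ∈ G, χ k y • ξ (r⁻¹ • y) := by
      rw [← Finset.sum_smul, e2, one_smul]
    simp only
    rw [e1, e3, ← Finset.sum_sub_distrib]
    calc ‖∑ k ∈ G, (χ k y • ξ (gpt m l k) - χ k y • ξ (r⁻¹ • y))‖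
        ≤ ∑ k ∈ G, χ k y * ε := by
          refine (norm_sum_le _ _).trans (Finset.sum_le_sum fun k hk => ?_)
          rw [← smul_sub, norm_smul, Real.norm_eq_abs, abs_of_nonneg (hχ01 k y).1]
          refine mul_le_mul_of_nonneg_left (hξe _ _ ?_) (hχ01 k y).1
          have h1 := hne k y ((hmemG k).1 hk)
          rw [hg] at h1
          have h2 : gpt m l k - r⁻¹ • y = - (r⁻¹ • (y - r • gpt m l k)) := by
            rw [smul_sub, smul_smul, inv_mul_cancel₀ hr.ne', one_smul]; abel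
          rw [h2, norm_neg, norm_smul, Real.norm_eq_abs, abs_of_pos (inv_pos.2 hr)]
          have h3 : r⁻¹ * ‖y - r • gpt m l k‖ ≤ l := by
            rw [inv_mul_le_iff₀ hr]; linarith
          exact h3.trans (min_le_left _ _)
      _ = ε := by rw [← Finset.sum_mul, e2, one_mul]

variable {m n : ℕ}

/-- the arithmetic of the exponents in `moment_vert` -/
theorem mv_power {k m : ℕ} (hk : 8 + m < 2 * k) {I C A a r ε : ℝ} (hI : 0 ≤ I)
    (ha : 0 < a) (hr : 0 < r) (hr1 : r ≤ 1) (hε : 0 < ε)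
    (h : I ^ (2 * k + m) ≤ C * (A * r ^ m) ^ (2 * k + m) * (a ^ 2 * r ^ (m + 2)) ^ (2 * k - 1))
    (hsmall : C * A ^ (2 * k + m) * a ^ (2 * k - 2 - m) ≤ ε ^ (2 * k + m)) :
    I ≤ ε * a * r ^ (m + 1) := by
  obtain ⟨d, hd⟩ : ∃ d, 2 * k = d + m + 2 := ⟨2 * k - m - 2, by omega⟩
  have e1 : 2 * k - 1 = d + m + 1 := by omega
  have e2 : 2 * k - 2 - m = d := by omega
  have e3 : 2 * k + m = d + 2 * m + 2 := by omega
  rw [e1, e3] at h
  rw [e2, e3] at hsmall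
  refine (pow_le_pow_iff_left₀ hI (by positivity) (by omega : d + 2 * m + 2 ≠ 0)).1 ?_
  have hrr : r ^ (m * (d + 2 * m + 2) + (m + 2) * (d + m + 1)) ≤ r ^ ((m + 1) * (d + 2 * m + 2)) := by
    refine pow_le_pow_of_le_one hr.le hr1 ?_
    nlinarith
  calc I ^ (d + 2 * m + 2)
      ≤ C * (A * r ^ m) ^ (d + 2 * m + 2) * (a ^ 2 * r ^ (m + 2)) ^ (d + m + 1) := h
    _ = (C * A ^ (d + 2 * m + 2) * a ^ d) * a ^ (d + 2 * m + 2)
          * r ^ (m * (d + 2 * m + 2) + (m + 2) * (d + m + 1)) := by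
        rw [mul_pow, mul_pow, ← pow_mul, ← pow_mul, ← pow_mul, pow_add r]
        have : a ^ (2 * (d + m + 1)) = a ^ d * a ^ (d + 2 * m + 2) := by
          rw [← pow_add]; congr 1; ring
        rw [this]
        ring
    _ ≤ ε ^ (d + 2 * m + 2) * a ^ (d + 2 * m + 2) * r ^ ((m + 1) * (d + 2 * m + 2)) := by
        gcongr
    _ = (ε * a * r ^ (m + 1)) ^ (d + 2 * m + 2) := by
        rw [mul_pow, mul_pow, ← pow_mul]

/-- vertical and horizontal displacement in terms of the normal displacement -/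
theorem mv_vert_le {u : E m → E n} {κ₂ : ℝ} (hG : Geo κ₂ u) (X : E (m + n)) :
    ‖prH m n X - npr u X‖ ≤ ‖zz u X‖ ∧ ‖prV m n X - u (prH m n X)‖ ≤ 2 * ‖zz u X‖ := by
  have hX : X = Fg u (npr u X) + zz u X := by unfold zz; abel
  have h1 : prH m n X = npr u X + prH m n (zz u X) := by
    have := congrArg (prH m n) hX
    rwa [map_add, Fg, prH_mkHV] at this
  have h2 : prV m n X = u (npr u X) + prV m n (zz u X) := by
    have := congrArg (prV m n) hX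
    rwa [map_add, Fg, prV_mkHV] at this
  have h3 : ‖prH m n X - npr u X‖ ≤ ‖zz u X‖ := by
    rw [h1, add_sub_cancel_left]; exact norm_prH_le _
  refine ⟨h3, ?_⟩
  have h4 := one_lip_of_slope hG.differentiable hG.slope (npr u X) (prH m n X)
  rw [norm_sub_rev (npr u X) (prH m n X)] at h4
  have h5 : prV m n X - u (prH m n X) = prV m n (zz u X) + (u (npr u X) - u (prH m n X)) := by
    rw [h2]; abel
  rw [h5]
  have := norm_add_le (prV m n (zz u X)) (u (npr u X) - u (prH m n X))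
  have := norm_prV_le (zz u X)
  have := norm_nonneg (zz u X)
  linarith

/-- integrals of a bounded integrand which is carried by a set of finite mass -/
theorem mv_integral_le {α : Type*} [MeasurableSpace α] (μ : Measure α) {h : α → ℝ} {S : Set α}
    (hS : MeasurableSet S) {M D : ℝ} (hM : 0 ≤ M) (hD : 0 ≤ D) (hμ : μ S ≤ ENNReal.ofReal M)
    (hm : AEStronglyMeasurable h μ) (h0 : ∀ᵐ x ∂μ, x ∉ S → h x = 0)
    (hb : ∀ᵐ x ∂μ, x ∈ S → |h x| ≤ D) :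
    Integrable h μ ∧ |∫ x, h x ∂μ| ≤ D * M := by
  have hfin : μ S ≠ ⊤ := ne_top_of_le_ne_top ENNReal.ofReal_ne_top hμ
  have hi : Integrable (S.indicator fun _ => D) μ :=
    (integrable_indicator_iff hS).2 (integrableOn_const hfin)
  have hle : ∀ᵐ x ∂μ, ‖h x‖ ≤ S.indicator (fun _ => D) x := by
    filter_upwards [hb, h0] with x hx hx0
    by_cases hxS : x ∈ S
    · rw [Set.indicator_of_mem hxS]; exact hx hxS
    · rw [Set.indicator_of_notMem hxS, hx0 hxS, norm_zero]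
  refine ⟨hi.mono' hm hle, ?_⟩
  rw [← Real.norm_eq_abs]
  refine (norm_integral_le_of_norm_le hi hle).trans ?_
  rw [integral_indicator hS, setIntegral_const, smul_eq_mul, mul_comm]
  refine mul_le_mul_of_nonneg_left ?_ hD
  exact ENNReal.toReal_le_of_le_ofReal hM hμ

/-- facts on one target scale which are used for the first moments -/
structure MvCtx {Q : ℕ} {π : Par} {C₀ : ℝ} (K : Ctx m n Q π C₀) (Cs Ce : ℝ) : Prop where
  geo : Geo (π.C * π.m₀) K.S.N.u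
  κ_le : π.C * π.m₀ ≤ 1 / 10
  r_le : K.r ≤ 1 / 1000
  ok : CylOK K.S.N
  ae : ∀ᵐ X ∂K.S.N.μ, (‖prH m n X‖ ≤ 21 * K.r ∨ ‖npr K.S.N.u X‖ ≤ 21 * K.r) →
    ‖zz K.S.N.u X‖ ≤ Cs * K.a * K.r ∧ rho K.S.N.u (npr K.S.N.u X) < 200 * K.r
  mass : K.S.N.μ {X | npr K.S.N.u X ∈ Bs K.S.N.u (200 * K.r)} ≤ ENNReal.ofReal (Ce * K.r ^ m)

theorem mv_ctx (m n Q : ℕ)
    (hloc : Stm m (fun π => ∀ (C₀ : ℝ) (K : Ctx m n Q π C₀),
      Geo (π.C * π.m₀) K.S.N.u ∧ π.C * π.m₀ ≤ 1 / 10 ∧ ‖K.S.N.u 0‖ ≤ K.r / 100 ∧ K.r ≤ 1 / 1000 ∧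
      (∀ X ∈ K.S.N.W.support, ‖X‖ ≤ 60 * K.r → K.S.In X) ∧
      (∀ X, K.S.In X → (‖prH m n X‖ ≤ 41 * K.r ∨ ‖npr K.S.N.u X‖ ≤ 41 * K.r) →
        ‖zz K.S.N.u X‖ ≤ K.r / 100 ∧ ‖prV m n X - K.S.N.u (prH m n X)‖ ≤ K.r / 100 ∧ ‖X‖ ≤ 60 * K.r ∧
        rho K.S.N.u (npr K.S.N.u X) < 200 * K.r ∧
        ‖zz K.S.N.u X‖ ≤ 1000 * K.r * qd K.S.N (1000 * K.r))))
    (hen : Stm m (fun π => ∀ C₀ : ℝ, ∃ C : ℝ, 0 < C ∧ ∀ K : Ctx m n Q π C₀,
      ∫ X in {X | npr K.S.N.u X ∈ Bs K.S.N.u (200 * K.r)}, ‖zz K.S.N.u X‖ ^ 2 ∂K.S.N.μ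
        ≤ C * K.a ^ 2 * K.r ^ (m + 2) ∧
      K.S.N.Dm (Bs K.S.N.u (200 * K.r)) ≤ ENNReal.ofReal (C * K.a ^ 2 * K.r ^ m) ∧
      K.S.N.μ {X | npr K.S.N.u X ∈ Bs K.S.N.u (200 * K.r)} ≤ ENNReal.ofReal (C * K.r ^ m) ∧
      K.a ^ 2 * K.r ^ (m + 2)
        ≤ 80 * ∫ X in {X | npr K.S.N.u X ∈ Bs K.S.N.u K.r}, ‖zz K.S.N.u X‖ ^ 2 ∂K.S.N.μ))
    (hsup : Stm m (fun π => ∀ C₀ : ℝ, ∃ C : ℝ, 0 < C ∧ ∀ K : Ctx m n Q π C₀, K.a ≤ 1 →
      ∀ X ∈ K.S.N.W.support, ‖X‖ ≤ 25 * K.r → ‖zz K.S.N.u X‖ ≤ C * K.a * K.r)) :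
    Stm m (fun π => 8 + m < 2 * π.k ∧ ∀ C₀ : ℝ, ∃ Cs Ce : ℝ, 0 < Cs ∧ 0 < Ce ∧
      ∀ K : Ctx m n Q π C₀, K.a ≤ 1 → MvCtx K Cs Ce) := by
  obtain ⟨h₀, hh₀, Hok⟩ := exists_cylOK m n
  have hhc : Stm m (fun π => π.hc < h₀) := ⟨0, fun B _ _ => Ev.hc_lt B h₀ hh₀⟩
  refine (hloc.and (hen.and (hsup.and hhc))).mono fun π hA h => ?_
  obtain ⟨hloc, hen, hsup, hhc⟩ := h
  refine ⟨hA.k_gt, fun C₀ => ?_⟩
  obtain ⟨Ce, hCe, hen⟩ := hen C₀
  obtain ⟨Cs, hCs, hsup⟩ := hsup C₀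
  refine ⟨Cs, Ce, hCs, hCe, fun K ha => ?_⟩
  obtain ⟨hG, hκ, hu0, hr, -, hpt⟩ := hloc C₀ K
  have ok : CylOK K.S.N := Hok _ K.S.N hG (by rw [K.S.N_h]; exact hhc.le)
  refine ⟨hG, hκ, hr, ok, ?_, (hen K).2.2.1⟩
  have hr0 := K.r_pos
  have hlip : ∀ y, ‖K.S.N.u y‖ ≤ K.r / 100 + 1 / 10 * ‖y‖ := by
    intro y
    have h1 := one_lip_of_slope hG.differentiable (κ := π.C * π.m₀) K.S.ref.slope y 0
    rw [sub_zero] at h1
    have h2 : ‖K.S.N.u y‖ ≤ ‖K.S.N.u y - K.S.N.u 0‖ + ‖K.S.N.u 0‖ := by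
      have := norm_add_le (K.S.N.u y - K.S.N.u 0) (K.S.N.u 0)
      rwa [sub_add_cancel] at this
    have h3 : π.C * π.m₀ * ‖y‖ ≤ 1 / 10 * ‖y‖ := mul_le_mul_of_nonneg_right hκ (norm_nonneg _)
    linarith
  filter_upwards [ok.ae_mem] with X hX hcase
  have hIn : K.S.In X := ⟨hX.1, by have := hX.2.1; rwa [K.S.N_Ω, K.S.N_h] at this⟩
  obtain ⟨p1, p2, -, p4, -⟩ := hpt X hIn (by
    rcases hcase with h | h
    · exact Or.inl (by linarith)
    · exact Or.inr (by linarith))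
  refine ⟨hsup K ha X hX.1 ?_, p4⟩
  rcases hcase with h | h
  · have h1 := norm_le_prH_add_prV X
    have h2 : ‖prV m n X‖ ≤ ‖prV m n X - K.S.N.u (prH m n X)‖ + ‖K.S.N.u (prH m n X)‖ := by
      have := norm_add_le (prV m n X - K.S.N.u (prH m n X)) (K.S.N.u (prH m n X))
      rwa [sub_add_cancel] at this
    have h3 := hlip (prH m n X)
    linarith
  · have hXz : X = Fg K.S.N.u (npr K.S.N.u X) + zz K.S.N.u X := by unfold zz; abel
    have h1 : ‖X‖ ≤ ‖Fg K.S.N.u (npr K.S.N.u X)‖ + ‖zz K.S.N.u X‖ := by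
      conv_lhs => rw [hXz]
      exact norm_add_le _ _
    have h2 := norm_le_prH_add_prV (Fg K.S.N.u (npr K.S.N.u X))
    rw [Fg, prH_mkHV, prV_mkHV] at h2
    have h3 := hlip (npr K.S.N.u X)
    rw [Fg] at h1
    linarith

/-- the horizontal slab over `ball 0 (21 r)` has mass `≤ C r^m` -/
theorem MvCtx.mass_H {Q : ℕ} {π : Par} {C₀ : ℝ} {K : Ctx m n Q π C₀} {Cs Ce : ℝ} (h : MvCtx K Cs Ce) :
    K.S.N.μ {X | ‖prH m n X‖ ≤ 21 * K.r} ≤ ENNReal.ofReal (Ce * K.r ^ m) := by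
  refine le_trans (measure_mono_ae ?_) h.mass
  filter_upwards [h.ae] with X hX hXS
  exact (hX (Or.inl hXS)).2

/-- tests of the horizontal argument against the vertical heights -/
theorem MvCtx.vert_le {Q : ℕ} {π : Par} {C₀ : ℝ} {K : Ctx m n Q π C₀} {Cs Ce : ℝ} (h : MvCtx K Cs Ce)
    (hCs : 0 < Cs) (hCe : 0 < Ce) {g : E m → E n} (hg : Continuous g) {B : ℝ} (hB : 0 ≤ B)
    (hgB : ∀ y, ‖g y‖ ≤ B) (hg0 : ∀ y, 21 * K.r < ‖y‖ → g y = 0) :
    Integrable (fun X => (inner ℝ (prV m n X - K.S.N.u (prH m n X)) (g (prH m n X)) : ℝ)) K.S.N.μ ∧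
    |∫ X, (inner ℝ (prV m n X - K.S.N.u (prH m n X)) (g (prH m n X)) : ℝ) ∂K.S.N.μ|
      ≤ (2 * (Cs * K.a * K.r) * B) * (Ce * K.r ^ m) := by
  have hr := K.r_pos
  have ha := K.a_pos
  have hcu : Continuous K.S.N.u := h.geo.differentiable.continuous
  have hS : MeasurableSet {X : E (m + n) | ‖prH m n X‖ ≤ 21 * K.r} :=
    (isClosed_le (prH m n).continuous.norm continuous_const).measurableSet
  refine mv_integral_le K.S.N.μ hS (by positivity) (by positivity) h.mass_H ?_ ?_ ?_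
  · have : Continuous fun X : E (m + n) =>
        (inner ℝ (prV m n X - K.S.N.u (prH m n X)) (g (prH m n X)) : ℝ) :=
      (((prV m n).continuous.sub (hcu.comp (prH m n).continuous))).inner
        (hg.comp (prH m n).continuous)
    exact this.aestronglyMeasurable
  · refine Eventually.of_forall fun X hX => ?_
    rw [hg0 _ (not_le.1 hX), inner_zero_right]
  · filter_upwards [h.ae] with X hX hXS
    have h1 := (hX (Or.inl hXS)).1
    have h2 := (mv_vert_le h.geo X).2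
    calc |(inner ℝ (prV m n X - K.S.N.u (prH m n X)) (g (prH m n X)) : ℝ)|
        ≤ ‖prV m n X - K.S.N.u (prH m n X)‖ * ‖g (prH m n X)‖ := abs_real_inner_le_norm _ _
      _ ≤ (2 * (Cs * K.a * K.r)) * B :=
          mul_le_mul (by linarith) (hgB _) (norm_nonneg _) (by positivity)

/-- **First moment of the vertical heights, equicontinuous tests** (leaf `L-Blow-moment-vert`). -/
theorem moment_vert_of (m n Q : ℕ)
    (hctx : Stm m (fun π => 8 + m < 2 * π.k ∧ ∀ C₀ : ℝ, ∃ Cs Ce : ℝ, 0 < Cs ∧ 0 < Ce ∧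
      ∀ K : Ctx m n Q π C₀, K.a ≤ 1 → MvCtx K Cs Ce))
    (hsm : Stm m (fun π => ∀ C₀ : ℝ, ∃ C : ℝ, 0 < C ∧ ∀ K : Ctx m n Q π C₀, ∀ (η : E m → E n) (A : ℝ),
      ContDiff ℝ ∞ η → tsupport η ⊆ Metric.ball 0 (25 * K.r) →
      (∀ j : ℕ, j ≤ π.q → ∀ y, K.r ^ j * ‖iteratedFDeriv ℝ j η y‖ ≤ A) →
      |∫ X, inner ℝ (prV m n X - K.S.N.u (prH m n X)) (η (prH m n X)) ∂K.S.N.μ| ^ (2 * π.k + m)
        ≤ C * (A * K.r ^ m) ^ (2 * π.k + m) * (K.a ^ 2 * K.r ^ (m + 2)) ^ (2 * π.k - 1))) :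
    Stm m (fun π => ∀ C₀ : ℝ, ∃ C : ℝ, 0 < C ∧ ∀ ε ϑ : ℝ, 0 < ε → 0 < ϑ → ∃ a₀ : ℝ, 0 < a₀ ∧
      ∀ K : Ctx m n Q π C₀, K.a ≤ a₀ → ∀ ξ : E m → E n, Continuous ξ → (∀ x, ‖ξ x‖ ≤ 1) →
      (∀ x, 20 ≤ ‖x‖ → ξ x = 0) → (∀ x x', ‖x - x'‖ ≤ ϑ → ‖ξ x - ξ x'‖ ≤ ε) →
      |∫ X, inner ℝ (prV m n X - K.S.N.u (prH m n X)) (ξ (K.r⁻¹ • prH m n X)) ∂K.S.N.μ|
        ≤ C * ε * K.a * K.r ^ (m + 1)) := by
  refine (hctx.and hsm).mono fun π _ h C₀ => ?_
  obtain ⟨⟨hk, hctx⟩, hsm⟩ := h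
  obtain ⟨Cs, Ce, hCs, hCe, hctx⟩ := hctx C₀
  obtain ⟨Cm, hCm, hsm⟩ := hsm C₀
  refine ⟨1 + 2 * Cs * Ce, by positivity, fun ε ϑ hε hϑ => ?_⟩
  obtain ⟨A, hA0, Happ⟩ := mv_approx m n π.q ϑ hϑ
  refine ⟨min 1 (ε ^ (2 * π.k + m) / (Cm * A ^ (2 * π.k + m) + 1)), by positivity,
    fun K ha ξ hξc hξ1 hξ0 hξe => ?_⟩
  have ha1 : K.a ≤ 1 := ha.trans (min_le_left _ _)
  have ha2 : K.a ≤ ε ^ (2 * π.k + m) / (Cm * A ^ (2 * π.k + m) + 1) := ha.trans (min_le_right _ _)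
  have M := hctx K ha1
  have hr := K.r_pos
  have ha0 := K.a_pos
  have hr1 : K.r ≤ 1 := M.r_le.trans (by norm_num)
  obtain ⟨η, hηs, hηsupp, hηd, hηe⟩ := Happ K.r ε hr ξ hξ1 hξ0 hξe
  -- the smooth part
  have h1 := hsm K η A hηs (hηsupp.trans (Metric.closedBall_subset_ball (by linarith))) hηd
  have hsmall : Cm * A ^ (2 * π.k + m) * K.a ^ (2 * π.k - 2 - m) ≤ ε ^ (2 * π.k + m) := by
    have h2 : K.a ^ (2 * π.k - 2 - m) ≤ K.a := pow_le_of_le_one ha0.le ha1 (by omega)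
    have h3 : 0 < Cm * A ^ (2 * π.k + m) + 1 := by positivity
    rw [le_div_iff₀ h3] at ha2
    have h4 : 0 ≤ Cm * A ^ (2 * π.k + m) := by positivity
    nlinarith
  have h2 := mv_power hk (abs_nonneg _) ha0 hr hr1 hε h1 hsmall
  -- the remainder
  have hη0 : ∀ y, 21 * K.r < ‖y‖ → η y = 0 := fun y hy =>
    image_eq_zero_of_notMem_tsupport fun hh => by
      have := hηsupp hh
      rw [mem_closedBall_zero_iff] at this
      linarith
  have hξr : Continuous fun y : E m => ξ (K.r⁻¹ • y) := hξc.comp (continuous_const_smul _)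
  have hηB : ∀ y, ‖η y‖ ≤ 1 + ε := fun y => by
    have h3 : ‖η y‖ ≤ ‖η y - ξ (K.r⁻¹ • y)‖ + ‖ξ (K.r⁻¹ • y)‖ := by
      have := norm_add_le (η y - ξ (K.r⁻¹ • y)) (ξ (K.r⁻¹ • y))
      rwa [sub_add_cancel] at this
    linarith [hηe y, hξ1 (K.r⁻¹ • y)]
  obtain ⟨i1, -⟩ := M.vert_le hCs hCe hηs.continuous (B := 1 + ε) (by positivity) hηB hη0
  obtain ⟨i2, b2⟩ := M.vert_le hCs hCe (g := fun y => ξ (K.r⁻¹ • y) - η y) (hξr.sub hηs.continuous)
    hε.le (fun y => by rw [norm_sub_rev]; exact hηe y) (fun y hy => by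
      rw [hη0 y hy, sub_zero]
      refine hξ0 _ ?_
      rw [norm_smul, Real.norm_eq_abs, abs_of_pos (inv_pos.2 hr), le_inv_mul_iff₀ hr]
      linarith)
  have e : ∫ X, (inner ℝ (prV m n X - K.S.N.u (prH m n X)) (ξ (K.r⁻¹ • prH m n X)) : ℝ) ∂K.S.N.μ
      = ∫ X, (inner ℝ (prV m n X - K.S.N.u (prH m n X)) (η (prH m n X)) : ℝ) ∂K.S.N.μ
        + ∫ X, (inner ℝ (prV m n X - K.S.N.u (prH m n X))
            (ξ (K.r⁻¹ • prH m n X) - η (prH m n X)) : ℝ) ∂K.S.N.μ := by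
    rw [← integral_add i1 i2]
    refine integral_congr_ae (Eventually.of_forall fun X => ?_)
    simp only
    rw [← inner_add_right, add_sub_cancel]
  rw [e]
  refine (abs_add_le _ _).trans ?_
  calc _ ≤ ε * K.a * K.r ^ (m + 1) + (2 * (Cs * K.a * K.r) * ε) * (Ce * K.r ^ m) := add_le_add h2 b2
    _ = (1 + 2 * Cs * Ce) * ε * K.a * K.r ^ (m + 1) := by ring

/-- the vertical projection field is Lipschitz -/
theorem mv_Pv_lip {u : E m → E n} {κ₂ : ℝ} (hG : Geo κ₂ u) (y y' : E m) :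
    ‖Pv u y - Pv u y'‖ ≤ 3 * κ₂ * ‖y - y'‖ := by
  have h1 : ∀ y, ‖fderiv ℝ (Ph u) y‖ ≤ 3 * κ₂ := fun y =>
    ContinuousLinearMap.opNorm_le_bound _ (by have := hG.nonneg; positivity)
      fun α => hG.norm_dPh_le y α
  have h2 := one_lip_of_fderiv (fun y => (hasFDerivAt_Ph hG.c2 y).differentiableAt) h1 y y'
  have e : Pv u y - Pv u y' = - (Ph u y - Ph u y') := by unfold Pv; abel
  rw [e, norm_neg]
  exact h2

/-- decomposition of the normal height -/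
theorem mv_zz_eq {u : E m → E n} (X : E (m + n)) (hz : Ph u (npr u X) (zz u X) = 0) :
    zz u X = Pv u (npr u X) (inV m n (prV m n X - u (prH m n X)))
      + Pv u (npr u X) (inV m n (u (prH m n X) - u (npr u X)
          - fderiv ℝ u (npr u X) (prH m n X - npr u X))) := by
  have h1 : Pv u (npr u X) (zz u X) = zz u X := by
    unfold Pv
    rw [sub_apply, hz, sub_zero]
    rfl
  have h2 : X = Fg u (prH m n X) + inV m n (prV m n X - u (prH m n X)) := by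
    rw [Fg_eq, add_assoc, ← map_add, add_sub_cancel, inH_prH_add_inV_prV]
  have h3 : zz u X = dF (fderiv ℝ u (npr u X)) (prH m n X - npr u X)
      + inV m n (u (prH m n X) - u (npr u X) - fderiv ℝ u (npr u X) (prH m n X - npr u X))
      + inV m n (prV m n X - u (prH m n X)) := by
    rw [← Fg_sub]
    have h2' : X - Fg u (prH m n X) = inV m n (prV m n X - u (prH m n X)) := by
      rw [sub_eq_iff_eq_add']; exact h2
    rw [← h2']
    unfold zz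
    abel
  have h4 : Pv u (npr u X) (dF (fderiv ℝ u (npr u X)) (prH m n X - npr u X)) = 0 := by
    have := congrArg (fun T : E m →L[ℝ] E (m + n) => T (prH m n X - npr u X))
      (Pv_comp_dF u (npr u X))
    simpa using this
  conv_lhs => rw [← h1, h3]
  rw [map_add, map_add, h4, zero_add]
  exact add_comm _ _

/-- **First moment of the normal heights** (leaf `L-Blow-moment-norm`). -/
theorem moment_norm_of (m n Q : ℕ)
    (hctx : Stm m (fun π => 8 + m < 2 * π.k ∧ ∀ C₀ : ℝ, ∃ Cs Ce : ℝ, 0 < Cs ∧ 0 < Ce ∧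
      ∀ K : Ctx m n Q π C₀, K.a ≤ 1 → MvCtx K Cs Ce))
    (hv : Stm m (fun π => ∀ C₀ : ℝ, ∃ C : ℝ, 0 < C ∧ ∀ ε ϑ : ℝ, 0 < ε → 0 < ϑ → ∃ a₀ : ℝ, 0 < a₀ ∧
      ∀ K : Ctx m n Q π C₀, K.a ≤ a₀ → ∀ ξ : E m → E n, Continuous ξ → (∀ x, ‖ξ x‖ ≤ 1) →
      (∀ x, 20 ≤ ‖x‖ → ξ x = 0) → (∀ x x', ‖x - x'‖ ≤ ϑ → ‖ξ x - ξ x'‖ ≤ ε) →
      |∫ X, inner ℝ (prV m n X - K.S.N.u (prH m n X)) (ξ (K.r⁻¹ • prH m n X)) ∂K.S.N.μ|
        ≤ C * ε * K.a * K.r ^ (m + 1))) :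
    Stm m (fun π => ∀ C₀ : ℝ, ∃ C : ℝ, 0 < C ∧ ∀ ε ϑ : ℝ, 0 < ε → 0 < ϑ → ∃ a₀ : ℝ, 0 < a₀ ∧
      ∀ K : Ctx m n Q π C₀, K.a ≤ a₀ → ∀ ζ : E m → E (m + n), Continuous ζ → (∀ x, ‖ζ x‖ ≤ 1) →
      (∀ x, 18 ≤ ‖x‖ → ζ x = 0) → (∀ x x', ‖x - x'‖ ≤ ϑ → ‖ζ x - ζ x'‖ ≤ ε) →
      |∫ X, inner ℝ (ζ (K.r⁻¹ • npr K.S.N.u X)) (zz K.S.N.u X) ∂K.S.N.μ|
        ≤ C * ε * K.a * K.r ^ (m + 1)) := by
  refine (hctx.and hv).mono fun π _ h C₀ => ?_
  obtain ⟨⟨-, hctx⟩, hv⟩ := h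
  obtain ⟨Cs, Ce, hCs, hCe, hctx⟩ := hctx C₀
  obtain ⟨Cv, hCv, hv⟩ := hv C₀
  refine ⟨2 * Cv + (4 * Cs + Cs ^ 2) * Ce, by positivity, fun ε ϑ hε hϑ => ?_⟩
  obtain ⟨a₁, ha₁, hv⟩ := hv (2 * ε) (min ϑ ε) (by positivity) (lt_min hϑ hε)
  refine ⟨min (min 1 a₁) (min (min ϑ ε / Cs) (min ε (1 / Cs))), by positivity,
    fun K ha ζ hζc hζ1 hζ0 hζe => ?_⟩
  have ha1 : K.a ≤ 1 := ha.trans ((min_le_left _ _).trans (min_le_left _ _))
  have ha2 : K.a ≤ a₁ := ha.trans ((min_le_left _ _).trans (min_le_right _ _))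
  have ha3 : Cs * K.a ≤ min ϑ ε := by
    have := ha.trans ((min_le_right _ _).trans (min_le_left _ _))
    rw [le_div_iff₀ hCs] at this
    linarith
  have ha4 : K.a ≤ ε := ha.trans ((min_le_right _ _).trans ((min_le_right _ _).trans (min_le_left _ _)))
  have ha5 : Cs * K.a ≤ 1 := by
    have := ha.trans ((min_le_right _ _).trans ((min_le_right _ _).trans (min_le_right _ _)))
    rw [le_div_iff₀ hCs] at this
    linarith
  have M := hctx K ha1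
  have hr := K.r_pos
  have ha0 := K.a_pos
  have hr1 : K.r ≤ 1 := M.r_le.trans (by norm_num)
  have hκ0 := M.geo.nonneg
  have hκ := M.κ_le
  -- the vertical test
  obtain ⟨ξ, hξ⟩ : ∃ ξ : E m → E n, ξ = fun x => prV m n (Pv K.S.N.u (K.r • x) (ζ x)) := ⟨_, rfl⟩
  have hξc : Continuous ξ := by
    rw [hξ]
    exact (prV m n).continuous.comp
      ((M.ok.continuous_Pv.comp (continuous_const_smul K.r)).clm_apply hζc)
  have hξ1 : ∀ x, ‖ξ x‖ ≤ 1 := fun x => by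
    rw [hξ]
    exact (norm_prV_le _).trans ((norm_Pv_apply_le _ _ _).trans (hζ1 x))
  have hξ0 : ∀ x, 18 ≤ ‖x‖ → ξ x = 0 := fun x hx => by
    rw [hξ]
    simp only
    rw [hζ0 x hx, map_zero, map_zero]
  have hξe : ∀ x x', ‖x - x'‖ ≤ min ϑ ε → ‖ξ x - ξ x'‖ ≤ 2 * ε := by
    intro x x' hxx
    rw [hξ]
    simp only
    have e : prV m n (Pv K.S.N.u (K.r • x) (ζ x)) - prV m n (Pv K.S.N.u (K.r • x') (ζ x'))
        = prV m n (Pv K.S.N.u (K.r • x) (ζ x - ζ x')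
          + (Pv K.S.N.u (K.r • x) - Pv K.S.N.u (K.r • x')) (ζ x')) := by
      rw [← map_sub, map_sub (Pv K.S.N.u (K.r • x)), sub_apply]
      congr 1
      abel
    rw [e]
    refine (norm_prV_le _).trans ((norm_add_le _ _).trans ?_)
    have h1 : ‖Pv K.S.N.u (K.r • x) (ζ x - ζ x')‖ ≤ ε :=
      (norm_Pv_apply_le _ _ _).trans (hζe x x' (hxx.trans (min_le_left _ _)))
    have h2 : ‖(Pv K.S.N.u (K.r • x) - Pv K.S.N.u (K.r • x')) (ζ x')‖ ≤ ε := by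
      refine (ContinuousLinearMap.le_opNorm _ _).trans ?_
      have h3 := mv_Pv_lip M.geo (K.r • x) (K.r • x')
      rw [← smul_sub, norm_smul, Real.norm_eq_abs, abs_of_pos hr] at h3
      have h4 : 3 * (π.C * π.m₀) * (K.r * ‖x - x'‖) ≤ ‖x - x'‖ := by
        have := norm_nonneg (x - x')
        have h5 : 3 * (π.C * π.m₀) * K.r ≤ 1 := by nlinarith
        nlinarith
      calc _ ≤ ‖x - x'‖ * 1 :=
            mul_le_mul (h3.trans h4) (hζ1 x') (norm_nonneg _) (norm_nonneg _)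
        _ ≤ ε := by rw [mul_one]; exact hxx.trans (min_le_right _ _)
    linarith
  have hξr : Continuous fun y : E m => ξ (K.r⁻¹ • y) := hξc.comp (continuous_const_smul _)
  have hbig : ∀ y : E m, ∀ c : ℝ, c * K.r ≤ ‖y‖ → c ≤ ‖K.r⁻¹ • y‖ := fun y c hy => by
    rw [norm_smul, Real.norm_eq_abs, abs_of_pos (inv_pos.2 hr), le_inv_mul_iff₀ hr]
    linarith
  obtain ⟨i1, -⟩ := M.vert_le hCs hCe hξr (B := 1) zero_le_one (fun y => hξ1 _)
    (fun y hy => hξ0 _ (hbig y 18 (by linarith)))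
  have b1 := hv K ha2 ξ hξc hξ1 (fun x hx => hξ0 x (by linarith)) hξe
  -- the remainder
  have hS : MeasurableSet {X : E (m + n) | ‖prH m n X‖ ≤ 21 * K.r} :=
    (isClosed_le (prH m n).continuous.norm continuous_const).measurableSet
  have hfm : AEStronglyMeasurable
      (fun X => (inner ℝ (ζ (K.r⁻¹ • npr K.S.N.u X)) (zz K.S.N.u X) : ℝ)) K.S.N.μ :=
    M.ok.aesm (((hζc.comp (continuous_const_smul _)).comp_continuousOn M.ok.cont_npr).inner
      M.ok.cont_zz)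
  obtain ⟨i2, b2⟩ := mv_integral_le K.S.N.μ
    (h := fun X => (inner ℝ (ζ (K.r⁻¹ • npr K.S.N.u X)) (zz K.S.N.u X) : ℝ)
      - inner ℝ (prV m n X - K.S.N.u (prH m n X)) (ξ (K.r⁻¹ • prH m n X)))
    hS (M := Ce * K.r ^ m) (D := (4 * Cs + Cs ^ 2) * ε * K.a * K.r) (by positivity) (by positivity)
    M.mass_H (hfm.sub i1.aestronglyMeasurable)
    (by
      filter_upwards [M.ae] with X hX hXS
      have hw : 21 * K.r < ‖prH m n X‖ := not_le.1 hXS
      rw [hξ0 _ (hbig _ 18 (by linarith)), inner_zero_right, sub_zero]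
      by_cases hy : ‖npr K.S.N.u X‖ < 18 * K.r
      · exfalso
        have h1 := (hX (Or.inr (by linarith))).1
        have h2 := (mv_vert_le M.geo X).1
        have h3 : ‖prH m n X‖ ≤ ‖prH m n X - npr K.S.N.u X‖ + ‖npr K.S.N.u X‖ := by
          have := norm_add_le (prH m n X - npr K.S.N.u X) (npr K.S.N.u X)
          rwa [sub_add_cancel] at this
        have h4 : Cs * K.a * K.r ≤ 1 * K.r := mul_le_mul_of_nonneg_right ha5 hr.le
        linarith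
      · rw [hζ0 _ (hbig _ 18 (not_lt.1 hy)), inner_zero_left])
    (by
      filter_upwards [M.ae, M.ok.ae_cyl] with X hX hXc hXS
      have hz := (hX (Or.inl hXS)).1
      obtain ⟨g1, g2⟩ := mv_vert_le M.geo X
      have hdec := mv_zz_eq X (M.ok.normal X hXc)
      have hy : K.r • (K.r⁻¹ • npr K.S.N.u X) = npr K.S.N.u X := by
        rw [smul_smul, mul_inv_cancel₀ hr.ne', one_smul]
      have e1 : (inner ℝ (ζ (K.r⁻¹ • npr K.S.N.u X))
          (Pv K.S.N.u (npr K.S.N.u X) (inV m n (prV m n X - K.S.N.u (prH m n X)))) : ℝ)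
          = inner ℝ (prV m n X - K.S.N.u (prH m n X)) (ξ (K.r⁻¹ • npr K.S.N.u X)) := by
        rw [hξ]
        simp only
        rw [hy, ← inner_Pv_left, real_inner_comm, inner_inV_left]
      have e2 : (inner ℝ (ζ (K.r⁻¹ • npr K.S.N.u X)) (zz K.S.N.u X) : ℝ)
          - inner ℝ (prV m n X - K.S.N.u (prH m n X)) (ξ (K.r⁻¹ • prH m n X))
          = inner ℝ (prV m n X - K.S.N.u (prH m n X))
              (ξ (K.r⁻¹ • npr K.S.N.u X) - ξ (K.r⁻¹ • prH m n X))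
            + inner ℝ (ζ (K.r⁻¹ • npr K.S.N.u X)) (Pv K.S.N.u (npr K.S.N.u X)
                (inV m n (K.S.N.u (prH m n X) - K.S.N.u (npr K.S.N.u X)
                  - fderiv ℝ K.S.N.u (npr K.S.N.u X) (prH m n X - npr K.S.N.u X)))) := by
        conv_lhs => rw [hdec]
        rw [inner_add_right, e1, inner_sub_right]
        ring
      rw [e2]
      refine (abs_add_le _ _).trans ?_
      have hρ : 0 ≤ Cs * K.a * K.r := by positivity
      have t1 : |(inner ℝ (prV m n X - K.S.N.u (prH m n X))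
              (ξ (K.r⁻¹ • npr K.S.N.u X) - ξ (K.r⁻¹ • prH m n X)) : ℝ)|
          ≤ (2 * (Cs * K.a * K.r)) * (2 * ε) := by
        refine (abs_real_inner_le_norm _ _).trans
          (mul_le_mul (by linarith) (hξe _ _ ?_) (norm_nonneg _) (by positivity))
        rw [← smul_sub, norm_smul, Real.norm_eq_abs, abs_of_pos (inv_pos.2 hr),
          inv_mul_le_iff₀ hr, norm_sub_rev]
        calc ‖prH m n X - npr K.S.N.u X‖ ≤ Cs * K.a * K.r := g1.trans hz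
          _ ≤ K.r * min ϑ ε := by
              rw [mul_comm K.r]; exact mul_le_mul_of_nonneg_right ha3 hr.le
      have t2 : |(inner ℝ (ζ (K.r⁻¹ • npr K.S.N.u X)) (Pv K.S.N.u (npr K.S.N.u X)
                (inV m n (K.S.N.u (prH m n X) - K.S.N.u (npr K.S.N.u X)
                  - fderiv ℝ K.S.N.u (npr K.S.N.u X) (prH m n X - npr K.S.N.u X)))) : ℝ)|
          ≤ (Cs * K.a * K.r) ^ 2 := by
        refine (abs_real_inner_le_norm _ _).trans ?_
        have s1 := M.geo.taylor (npr K.S.N.u X) (prH m n X)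
        have s2 : ‖prH m n X - npr K.S.N.u X‖ ^ 2 ≤ (Cs * K.a * K.r) ^ 2 :=
          pow_le_pow_left₀ (norm_nonneg _) (g1.trans hz) 2
        have s3 : π.C * π.m₀ * ‖prH m n X - npr K.S.N.u X‖ ^ 2 ≤ 1 * (Cs * K.a * K.r) ^ 2 :=
          mul_le_mul (by linarith) s2 (by positivity) zero_le_one
        calc _ ≤ 1 * ‖K.S.N.u (prH m n X) - K.S.N.u (npr K.S.N.u X)
                  - fderiv ℝ K.S.N.u (npr K.S.N.u X) (prH m n X - npr K.S.N.u X)‖ := by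
              refine mul_le_mul (hζ1 _) ?_ (norm_nonneg _) zero_le_one
              exact (norm_Pv_apply_le _ _ _).trans (le_of_eq (norm_inV _))
          _ ≤ (Cs * K.a * K.r) ^ 2 := by linarith
      have t3 : (Cs * K.a * K.r) ^ 2 ≤ Cs ^ 2 * ε * K.a * K.r := by
        have : K.a * K.r ≤ ε * 1 := mul_le_mul ha4 hr1 hr.le hε.le
        have h5 : 0 ≤ Cs ^ 2 * (K.a * K.r) := by positivity
        nlinarith
      calc _ ≤ (2 * (Cs * K.a * K.r)) * (2 * ε) + Cs ^ 2 * ε * K.a * K.r :=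
            add_le_add t1 (t2.trans t3)
        _ = (4 * Cs + Cs ^ 2) * ε * K.a * K.r := by ring)
  have e : ∫ X, (inner ℝ (ζ (K.r⁻¹ • npr K.S.N.u X)) (zz K.S.N.u X) : ℝ) ∂K.S.N.μ
      = ∫ X, (inner ℝ (prV m n X - K.S.N.u (prH m n X)) (ξ (K.r⁻¹ • prH m n X)) : ℝ) ∂K.S.N.μ
        + ∫ X, ((inner ℝ (ζ (K.r⁻¹ • npr K.S.N.u X)) (zz K.S.N.u X) : ℝ)
          - inner ℝ (prV m n X - K.S.N.u (prH m n X)) (ξ (K.r⁻¹ • prH m n X))) ∂K.S.N.μ := by
    rw [← integral_add i1 i2]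
    refine integral_congr_ae (Eventually.of_forall fun X => ?_)
    simp only
    ring
  rw [e]
  refine (abs_add_le _ _).trans ?_
  calc _ ≤ Cv * (2 * ε) * K.a * K.r ^ (m + 1)
        + ((4 * Cs + Cs ^ 2) * ε * K.a * K.r) * (Ce * K.r ^ m) := add_le_add b1 b2
    _ = (2 * Cv + (4 * Cs + Cs ^ 2) * Ce) * ε * K.a * K.r ^ (m + 1) := by ring

end Claimed.Agent.R322.Blow
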