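import Claimed.Agent.R322.Blow.Ctx
import Claimed.Agent.R322.Blow.MomKit

/-!
# CO Proposition 5.1: estimates in START units and START coordinates (no rotation)

Package BP-CO5-blow.  Notation: `S = K.S`, `N = S.N`, `u = N.u`, `r = K.r`, `a = K.a` (`a² r² = H(r)`, `Ctx.a_sq`), `t = tent S.ℓ`,
`k = π.k`, `2 k > m + 8` (`FitBase.Adm.k_gt`), `b = S.b ≤ r / 100`, `r ≤ r_* / 1000`.

* `loc`            localisation: which support points are in the cylinder, crude height bounds;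
* `energy`         CO (5.3) and the converse lower bound;
* `a_small`        `a ≤ C δ(1000 r)`;
* `tent_bd`        CO (5.5) witness normalisation, written without witnesses: `c t(y)^{2k+m} ≤ a² r^{m+2}` for `|y| ≤ 40 r`;
* `curv_start`     CO (5.4) in start units;
* `sup_height`     CO (5.6);
* `moment_smooth`  first moment of the VERTICAL heights against smooth tests at the scale `r` (Whitney partition);
* `moment_vert`    the same against equicontinuous tests;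
* `moment_norm`    first moment of the NORMAL heights against equicontinuous tests of the projected argument.
-/

set_option autoImplicit false

open scoped ENNReal ContDiff
open MeasureTheory Filter Topology

namespace Claimed.Agent.R322.Blow

open Claimed.Agent.R322.Tube Claimed.Agent.R322.Freq

theorem bs_rho_le {m n : ℕ} {u : E m → E n} {κ : ℝ} (hu : Differentiable ℝ u)
    (hs : ∀ y, ‖fderiv ℝ u y‖ ≤ κ) (y : E m) : rho u y ≤ (1 + κ) * ‖y‖ := by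
  unfold rho Fg
  rw [← mkHV_sub]
  refine (norm_le_prH_add_prV _).trans ?_
  rw [prH_mkHV, prV_mkHV, sub_zero]
  have := one_lip_of_slope hu hs y 0
  rw [sub_zero] at this
  linarith

theorem bs_prH_eq {m n : ℕ} (u : E m → E n) (X : E (m + n)) :
    prH m n X = npr u X + prH m n (zz u X) := by
  unfold zz Fg
  rw [map_sub, prH_mkHV]
  abel

section bsHelpers

variable {m n : ℕ}

/-- what is used about one radius of a start -/
structure Kit (π : Par) (N : NCyl m n) (r : ℝ) : Prop where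
  ok : ∃ κ' : ℝ, FrOK κ' N
  wts : Wts π N r
  E_nonneg : 0 ≤ qE N r
  zphi : qZφ N r ≤ π.C₁ * (qH N r + qd N r ^ 2 * qE N r)

theorem bs_kit (m n Q : ℕ) (hm : 1 ≤ m) (hn : 1 ≤ n) (hQ : 1 ≤ Q) :
    Stm m (fun π => ∀ (S : Start m n Q π) (r : ℝ), S.Rg r → Kit π S.N r) := by
  have U : Unif₀ m n Q (fun N _ => ∃ κ' : ℝ, FrOK κ' N) := by
    obtain ⟨κ₀, hκ₀, H⟩ := exists_frOK m n
    exact ⟨4, κ₀, hκ₀, fun J k κ Ca N r hJ hκ h => ⟨κ, H Q J k κ Ca N r hJ hκ h⟩⟩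
  obtain ⟨J₁, h₁⟩ := (U.toUnif.pair (signs m n Q).toUnif).ev hm
  obtain ⟨J₂, h₂⟩ := weights m n Q hm hn hQ
  obtain ⟨J₃, h₃⟩ := wcomp m n Q hm hn hQ
  refine ⟨max J₁ (max J₂ J₃), fun B hJ hB => ((h₁ B ((le_max_left _ _).trans hJ) hB).and
    ((h₂ B (((le_max_left _ _).trans (le_max_right _ _)).trans hJ) hB).and
      (h₃ B (((le_max_right _ _).trans (le_max_right _ _)).trans hJ) hB))).mono ?_⟩
  rintro π - ⟨a₁, a₂, a₃⟩ S r hr
  obtain ⟨-, C, -, -, C1, C2, -, -, hok, hs⟩ := a₁ S r hr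
  exact ⟨hok, a₂ S r hr.1 hr.2.1 hr.2.2, hs.2.1, (a₃ S r hr.1 hr.2.1 hr.2.2).1⟩

theorem bs_dep_nonneg (u : E m → E n) (r : ℝ) (y : E m) : 0 ≤ dep u r y := le_max_left _ _

theorem bs_dep_le_one (u : E m → E n) (r : ℝ) (y : E m) : dep u r y ≤ 1 := by
  have : 0 ≤ rho u y ^ 2 / r ^ 2 := by positivity
  exact max_le zero_le_one (by linarith)

theorem bs_dep_eq_zero (u : E m → E n) {r : ℝ} (hr : 0 < r) {y : E m} (hy : y ∉ Bs u r) :
    dep u r y = 0 := by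
  have hy' : r ≤ rho u y := not_lt.1 hy
  unfold dep
  apply max_eq_left
  have : 1 ≤ rho u y ^ 2 / r ^ 2 := by
    rw [le_div_iff₀ (by positivity)]
    nlinarith
  linarith

theorem bs_dep_ge (u : E m → E n) {r : ℝ} (hr : 0 < r) {y : E m} (hy : rho u y ≤ r / 2) :
    3 / 4 ≤ dep u r y := by
  refine le_trans ?_ (le_max_right _ _)
  have h0 := rho_nonneg u y
  have : rho u y ^ 2 / r ^ 2 ≤ 1 / 4 := by
    rw [div_le_iff₀ (by positivity)]
    nlinarith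
  linarith

theorem bs_continuous_rho {u : E m → E n} (hu : Continuous u) : Continuous (rho u) := by
  unfold rho Fg
  simp only [mkHV_eq]
  fun_prop

theorem bs_continuous_dep {u : E m → E n} (hu : Continuous u) (r : ℝ) : Continuous (dep u r) := by
  unfold dep
  exact continuous_const.max (continuous_const.sub (((bs_continuous_rho hu).pow 2).div_const _))

theorem bs_integrable {N : NCyl m n} {A : Set (E (m + n))} (hA : N.μ A < ⊤) {f : E (m + n) → ℝ}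
    (hf : AEStronglyMeasurable f N.μ) {b : ℝ} (hb : ∀ᵐ X ∂N.μ, ‖f X‖ ≤ b)
    (h0 : ∀ X, X ∉ A → f X = 0) : Integrable f N.μ := by
  have hsupp : Function.support f ⊆ A := fun X hX => by_contra fun hn => hX (h0 X hn)
  rw [← integrableOn_iff_integrable_of_support_subset hsupp]
  exact Measure.integrableOn_of_bounded (M := b) hA.ne hf (ae_restrict_of_ae hb)

theorem bs_ae_zz {κ' : ℝ} {N : NCyl m n} (hok : FrOK κ' N) :
    ∀ᵐ X ∂N.μ, ‖zz N.u X‖ ^ 2 ≤ N.h ^ 2 :=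
  hok.ok.ae_cyl.mono fun X hX => pow_le_pow_left₀ (norm_nonneg _) hX.2.le 2

theorem bs_null {κ' : ℝ} {N : NCyl m n} (hok : FrOK κ' N) (ρ : ℝ) :
    NullMeasurableSet {X | npr N.u X ∈ Bs N.u ρ} N.μ :=
  hok.ok.aemeasurable_npr.nullMeasurableSet_preimage
    (cov_Bs_measurable hok.geo.smooth.continuous ρ)

/-- the height integral over a disc against the weighted height at the double radius -/
theorem bs_height_le {κ' : ℝ} {N : NCyl m n} (hok : FrOK κ' N) {ρ r' : ℝ} (hr' : 0 < r')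
    (hρ : ρ ≤ r' / 2) (hfin : N.μ {X | npr N.u X ∈ Bs N.u r'} < ⊤) :
    ∫ X in {X | npr N.u X ∈ Bs N.u ρ}, ‖zz N.u X‖ ^ 2 ∂N.μ
      ≤ (4 / 3) ^ 10 * (r' ^ m * qZφ N r') := by
  have hc := hok.geo.smooth.continuous
  have hint : Integrable (fun X => phiR N.u r' (npr N.u X) * ‖zz N.u X‖ ^ 2) N.μ := by
    refine bs_integrable hfin (b := N.h ^ 2) ?_ ?_ ?_
    · exact (hok.ok.aesm_comp_npr ((bs_continuous_dep hc r').pow 10)).mul
        (hok.meas.mZz.norm.pow 2)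
    · filter_upwards [bs_ae_zz hok] with X hX
      rw [Real.norm_eq_abs, abs_mul, abs_of_nonneg (sq_nonneg ‖zz N.u X‖)]
      have := (cov_phiR_bd N.u hr' (npr N.u X)).1
      calc |phiR N.u r' (npr N.u X)| * ‖zz N.u X‖ ^ 2 ≤ 1 * N.h ^ 2 :=
            mul_le_mul this hX (sq_nonneg _) zero_le_one
        _ = N.h ^ 2 := one_mul _
    · intro X hX
      rw [(cov_phiR_bd N.u hr' (npr N.u X)).2 hX, zero_mul]
  have e : r' ^ m * qZφ N r' = ∫ X, phiR N.u r' (npr N.u X) * ‖zz N.u X‖ ^ 2 ∂N.μ := by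
    unfold qZφ
    rw [← mul_assoc, mul_inv_cancel₀ (by positivity), one_mul]
  rw [e, ← integral_const_mul]
  have hnn : ∀ X, 0 ≤ (4 / 3 : ℝ) ^ 10 * (phiR N.u r' (npr N.u X) * ‖zz N.u X‖ ^ 2) := by
    intro X
    have : 0 ≤ phiR N.u r' (npr N.u X) := pow_nonneg (bs_dep_nonneg _ _ _) _
    positivity
  refine le_trans ?_ (setIntegral_le_integral (s := {X | npr N.u X ∈ Bs N.u ρ})
    (hint.const_mul _) (Eventually.of_forall hnn))
  refine integral_mono_of_nonneg (Eventually.of_forall fun X => sq_nonneg _)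
    (hint.const_mul _).integrableOn ?_
  refine (ae_restrict_iff'₀ (bs_null hok ρ)).2 (Eventually.of_forall fun X hX => ?_)
  have hX' : rho N.u (npr N.u X) < ρ := hX
  have h1 : (3 / 4 : ℝ) ^ 10 ≤ phiR N.u r' (npr N.u X) :=
    pow_le_pow_left₀ (by norm_num) (bs_dep_ge N.u hr' (by linarith)) 10
  have h2 : (1 : ℝ) ≤ (4 / 3) ^ 10 * phiR N.u r' (npr N.u X) := by
    calc (1 : ℝ) = (4 / 3) ^ 10 * (3 / 4) ^ 10 := by norm_num
      _ ≤ _ := by gcongr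
  show ‖zz N.u X‖ ^ 2 ≤ (4 / 3 : ℝ) ^ 10 * (phiR N.u r' (npr N.u X) * ‖zz N.u X‖ ^ 2)
  nlinarith [sq_nonneg ‖zz N.u X‖]

/-- the tilt of a disc against the weighted tilt at the double radius -/
theorem bs_tilt_le {κ' : ℝ} {N : NCyl m n} (hok : FrOK κ' N) {ρ r' : ℝ} (hr' : 0 < r')
    (hρ : ρ ≤ r' / 2) (hfin : N.μ {X | npr N.u X ∈ Bs N.u r'} < ⊤) :
    N.Dm (Bs N.u ρ) ≤ ENNReal.ofReal ((4 / 3) ^ 10 * (r' ^ m / r' ^ 2 * qE N r')) := by
  have hc := hok.geo.smooth.continuous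
  have ht0 : ∀ X, 0 ≤ tilt N.u (N.W.P X) X := fun X => tilt_nonneg N.u (N.W.P_proj X) X
  have hφ0 : ∀ y, 0 ≤ phiR N.u r' y := fun y => pow_nonneg (bs_dep_nonneg _ _ _) _
  have hint : Integrable (fun X => phiR N.u r' (npr N.u X) * tilt N.u (N.W.P X) X) N.μ := by
    refine bs_integrable hfin (b := m) ?_ ?_ ?_
    · exact (hok.ok.aesm_comp_npr ((bs_continuous_dep hc r').pow 10)).mul hok.ok.aesm_tilt
    · refine Eventually.of_forall fun X => ?_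
      rw [Real.norm_eq_abs, abs_mul, abs_of_nonneg (ht0 X)]
      have := (cov_phiR_bd N.u hr' (npr N.u X)).1
      calc |phiR N.u r' (npr N.u X)| * tilt N.u (N.W.P X) X ≤ 1 * m :=
            mul_le_mul this (tilt_le _ (N.W.P_proj X) _) (ht0 X) zero_le_one
        _ = m := one_mul _
    · intro X hX
      rw [(cov_phiR_bd N.u hr' (npr N.u X)).2 hX, zero_mul]
  have e : r' ^ m / r' ^ 2 * qE N r' = ∫ X, phiR N.u r' (npr N.u X) * tilt N.u (N.W.P X) X ∂N.μ := by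
    have hmeas : Measurable (phiR N.u r') := ((bs_continuous_dep hc r').pow 10).measurable
    rw [← hok.integral_push hok.ok.aesm_tilt ht0 hmeas]
    unfold qE NCyl.Dm
    have h1 : r' ^ m ≠ 0 := by positivity
    have h2 : r' ^ 2 ≠ 0 := by positivity
    field_simp
  rw [e, ← integral_const_mul, ofReal_integral_eq_lintegral_ofReal (hint.const_mul _)
    (Eventually.of_forall fun X => mul_nonneg (by positivity) (mul_nonneg (hφ0 _) (ht0 X)))]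
  have hD : N.Dm (Bs N.u ρ) = ∫⁻ X in {X | npr N.u X ∈ Bs N.u ρ},
      ENNReal.ofReal (tilt N.u (N.W.P X) X) ∂N.μ :=
    hok.push_apply _ (cov_Bs_measurable hc ρ)
  rw [hD]
  refine le_trans ?_ (setLIntegral_le_lintegral {X | npr N.u X ∈ Bs N.u ρ} _)
  refine lintegral_mono_ae ?_
  refine (ae_restrict_iff'₀ (bs_null hok ρ)).2 (Eventually.of_forall fun X hX => ?_)
  have hX' : rho N.u (npr N.u X) < ρ := hX
  have h1 : (3 / 4 : ℝ) ^ 10 ≤ phiR N.u r' (npr N.u X) :=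
    pow_le_pow_left₀ (by norm_num) (bs_dep_ge N.u hr' (by linarith)) 10
  have h2 : (1 : ℝ) ≤ (4 / 3) ^ 10 * phiR N.u r' (npr N.u X) := by
    calc (1 : ℝ) = (4 / 3) ^ 10 * (3 / 4) ^ 10 := by norm_num
      _ ≤ _ := by gcongr
  refine ENNReal.ofReal_le_ofReal ?_
  nlinarith [ht0 X]

/-- the weighted height against the height integral over the disc -/
theorem bs_height_ge {κ' : ℝ} {N : NCyl m n} (hok : FrOK κ' N) {r : ℝ} (hr : 0 < r)
    (hfin : N.μ {X | npr N.u X ∈ Bs N.u r} < ⊤) :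
    r ^ m * qH N r ≤ 80 * ∫ X in {X | npr N.u X ∈ Bs N.u r}, ‖zz N.u X‖ ^ 2 ∂N.μ := by
  have e : r ^ m * qH N r
      = ∫ X, psiR N.u r (npr N.u X) * ‖zz N.u X‖ ^ 2 * hwt N.u (N.W.P X) X ∂N.μ := by
    unfold qH
    rw [← mul_assoc, mul_inv_cancel₀ (by positivity), one_mul]
  have hψ0 : ∀ y, 0 ≤ psiR N.u r y := fun y =>
    mul_nonneg (by norm_num) (pow_nonneg (bs_dep_nonneg _ _ _) _)
  have hh0 : ∀ X, 0 ≤ hwt N.u (N.W.P X) X := fun X => by unfold hwt; positivity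
  have hion : IntegrableOn (fun X => 80 * ‖zz N.u X‖ ^ 2) {X | npr N.u X ∈ Bs N.u r} N.μ := by
    refine Measure.integrableOn_of_bounded (M := 80 * N.h ^ 2) hfin.ne
      ((hok.meas.mZz.norm.pow 2).const_mul 80) (ae_restrict_of_ae ?_)
    filter_upwards [bs_ae_zz hok] with X hX
    rw [Real.norm_eq_abs, abs_of_nonneg (by positivity)]
    linarith
  rw [e, ← integral_const_mul, ← integral_indicator₀ (bs_null hok r)]
  refine integral_mono_of_nonneg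
    (Eventually.of_forall fun X => mul_nonneg (mul_nonneg (hψ0 _) (sq_nonneg _)) (hh0 X))
    (hion.integrable_indicator₀ (bs_null hok r)) ?_
  filter_upwards [hok.ok.ae_cyl] with X hXc
  by_cases hX : npr N.u X ∈ Bs N.u r
  · rw [Set.indicator_of_mem (show X ∈ {X | npr N.u X ∈ Bs N.u r} from hX)]
    have h4 : hwt N.u (N.W.P X) X ≤ 4 :=
      (proj_facts_of_le hok.geo (hok.tub hXc) (N.W.P_proj X)).2.2.2.2.1
    have h20 : psiR N.u r (npr N.u X) ≤ 20 := by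
      unfold psiR
      have := pow_le_one₀ (n := 9) (bs_dep_nonneg N.u r (npr N.u X)) (bs_dep_le_one N.u r (npr N.u X))
      linarith
    calc psiR N.u r (npr N.u X) * ‖zz N.u X‖ ^ 2 * hwt N.u (N.W.P X) X
        ≤ 20 * ‖zz N.u X‖ ^ 2 * 4 := by
          refine mul_le_mul (mul_le_mul_of_nonneg_right h20 (sq_nonneg _)) h4 (hh0 X) (by positivity)
      _ = 80 * ‖zz N.u X‖ ^ 2 := by ring
  · rw [Set.indicator_of_notMem (show X ∉ {X | npr N.u X ∈ Bs N.u r} from hX)]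
    unfold psiR
    rw [bs_dep_eq_zero N.u hr hX]
    simp

end bsHelpers

/-- **Localisation** (leaf `L-Blow-loc`).
PLAN.  `start_geo` (bounded geometry, `|u 0| ≤ C m₀ b^k`), `S.cover`, `S.height_h`, `S.height_p`, `S.height_v`, `tent_le_add`
(`t(w) ≤ b + |w| ≤ 42 r`), `C m₀ 43^k r^{k-1} ≤ 1/100` (`Ev.rs_lt` or `Ev.m₀_lt`), `C m₀ ≤ 1/10` (`Ev.m₀_lt`).
`X = F y + z`: `|prH X - y| ≤ |z|`, `|y| ≤ |F y| ≤ |X| + |z|`.  `ρ(y) = |F y - F 0| ≤ |z| + |X| + |u 0|`.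
Last item: `le_csSup` in the definition of `supz` (bounded by `π.hc`), `qd = (1000 r)⁻¹ supz`. -/
theorem loc (m n Q : ℕ) (hm : 1 ≤ m) (hn : 1 ≤ n) (hQ : 1 ≤ Q) :
    Stm m (fun π => ∀ (C₀ : ℝ) (K : Ctx m n Q π C₀),
      Geo (π.C * π.m₀) K.S.N.u ∧ π.C * π.m₀ ≤ 1 / 10 ∧ ‖K.S.N.u 0‖ ≤ K.r / 100 ∧ K.r ≤ 1 / 1000 ∧
      (∀ X ∈ K.S.N.W.support, ‖X‖ ≤ 60 * K.r → K.S.In X) ∧
      (∀ X, K.S.In X → (‖prH m n X‖ ≤ 41 * K.r ∨ ‖npr K.S.N.u X‖ ≤ 41 * K.r) →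
        ‖zz K.S.N.u X‖ ≤ K.r / 100 ∧ ‖prV m n X - K.S.N.u (prH m n X)‖ ≤ K.r / 100 ∧ ‖X‖ ≤ 60 * K.r ∧
        rho K.S.N.u (npr K.S.N.u X) < 200 * K.r ∧
        ‖zz K.S.N.u X‖ ≤ 1000 * K.r * qd K.S.N (1000 * K.r))) := by
  refine ⟨4, fun B hJ hB => ?_⟩
  have hCpos : 0 < B.C := lt_of_lt_of_le one_pos hB.C_ge
  have e1 := start_geo (n := n) (Q := Q) hm B hB hJ
  have e2 := Ev.m₀_lt B (fun _ => 1 / (10 * B.C)) (fun _ => by positivity)
  refine ((e1.and e2).and (Ev.pos B)).mono ?_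
  rintro π hπ ⟨⟨g, hsm⟩, hpos⟩ C₀ K
  obtain ⟨-, -, hm0, -, -, hrs0, hrs1, -, -, hlm0, hlm1, -, -⟩ := hpos
  have hA : π.toFitBase.Adm m := hπ ▸ hB
  obtain ⟨hgeo, -, hu0, hnear, -⟩ := g K.S
  have hC0 : 0 < π.C := lt_of_lt_of_le one_pos hA.C_ge
  have hκ : π.C * π.m₀ ≤ 1 / 10 := by
    have e : π.m₀ < 1 / (10 * π.C) := by
      have : B.C = π.C := by rw [← hπ]
      rw [this] at hsm
      exact hsm
    rw [lt_div_iff₀ (by positivity)] at e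
    nlinarith
  have hκ0 : 0 < π.C * π.m₀ := mul_pos hC0 hm0
  have hr0 := K.r_pos
  have hr : K.r ≤ 1 / 1000 := by
    have := K.r_hi
    linarith
  have hF := K.S.isFail
  have hb0 : 0 ≤ K.S.b := bpar_nonneg hF
  have hb : K.S.b ≤ K.r / 100 := by
    have := K.r_lo
    linarith
  have hk5 : 5 ≤ π.k := by
    have := hA.k_gt
    omega
  have hk : π.k ≠ 0 := by omega
  have hpow : ∀ t : ℝ, 0 ≤ t → t ≤ 42 * K.r → π.C * π.m₀ * t ^ π.k ≤ K.r / 100 := by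
    intro t ht ht2
    have h1 := one_pow_le_lin hk ht ht2
    have h2 : (42 * K.r) ^ (π.k - 1) ≤ (42 * K.r) ^ 2 :=
      pow_le_pow_of_le_one (by positivity) (by linarith) (by omega)
    have h3 : (42 * K.r) ^ 2 ≤ 2 / 1000 := by nlinarith
    have h4 : t ^ π.k ≤ 2 / 1000 * (42 * K.r) := by
      refine h1.trans ?_
      exact mul_le_mul (h2.trans h3) ht2 ht (by norm_num)
    have h5 : π.C * π.m₀ * t ^ π.k ≤ 1 / 10 * (2 / 1000 * (42 * K.r)) :=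
      mul_le_mul hκ h4 (by positivity) (by norm_num)
    linarith
  have hu0' : ‖K.S.N.u 0‖ ≤ K.r / 100 :=
    hu0.trans (hpow _ hb0 (by linarith))
  have hslope : ∀ y, ‖fderiv ℝ K.S.N.u y‖ ≤ π.C * π.m₀ := K.S.ref.slope
  have hdiff : Differentiable ℝ K.S.N.u := hgeo.differentiable
  refine ⟨hgeo, hκ, hu0', hr, ?_, ?_⟩
  · intro X hX hX60
    exact (hnear X hX (by linarith)).1
  · intro X hIn halt
    have hwy := bs_prH_eq K.S.N.u X
    have hpz := norm_prH_le (m := m) (n := n) (zz K.S.N.u X)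
    have hz : ‖zz K.S.N.u X‖ ≤ K.r / 100 := by
      rcases halt with h | h
      · refine (K.S.height_h X hIn.1 hIn.2).trans (hpow _ (tent_nonneg hF _) ?_)
        have := tent_le_add hF (prH m n X)
        have hb' : bpar K.S.ℓ ≤ K.r / 100 := hb
        linarith
      · refine (K.S.height_p X hIn.1 hIn.2).trans (hpow _ (tent_nonneg hF _) ?_)
        have := tent_le_add hF (npr K.S.N.u X)
        have hb' : bpar K.S.ℓ ≤ K.r / 100 := hb
        linarith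
    have hw : ‖prH m n X‖ ≤ 41 * K.r + K.r / 100 := by
      rcases halt with h | h
      · linarith
      · rw [hwy]
        exact (norm_add_le _ _).trans (by linarith)
    have hy : ‖npr K.S.N.u X‖ ≤ 41 * K.r + K.r / 100 := by
      rcases halt with h | h
      · have : npr K.S.N.u X = prH m n X - prH m n (zz K.S.N.u X) := by rw [hwy]; abel
        rw [this]
        exact (norm_sub_le _ _).trans (by linarith)
      · linarith
    have hv : ‖prV m n X - K.S.N.u (prH m n X)‖ ≤ K.r / 100 := by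
      refine (K.S.height_v X hIn.1 hIn.2).trans (hpow _ (tent_nonneg hF _) ?_)
      have := tent_le_add hF (prH m n X)
      have hb' : bpar K.S.ℓ ≤ K.r / 100 := hb
      linarith
    have huw : ‖K.S.N.u (prH m n X)‖ ≤ K.r / 100 + 1 / 10 * (41 * K.r + K.r / 100) := by
      have h1 := one_lip_of_slope hdiff hslope (prH m n X) 0
      rw [sub_zero] at h1
      have h2 : ‖K.S.N.u (prH m n X)‖ ≤ ‖K.S.N.u (prH m n X) - K.S.N.u 0‖ + ‖K.S.N.u 0‖ := by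
        simpa using norm_add_le (K.S.N.u (prH m n X) - K.S.N.u 0) (K.S.N.u 0)
      have h3 : π.C * π.m₀ * ‖prH m n X‖ ≤ 1 / 10 * (41 * K.r + K.r / 100) :=
        mul_le_mul hκ hw (norm_nonneg _) (by norm_num)
      linarith
    have hX60 : ‖X‖ ≤ 60 * K.r := by
      have h1 := norm_le_prH_add_prV X
      have h2 : ‖prV m n X‖ ≤ ‖prV m n X - K.S.N.u (prH m n X)‖ + ‖K.S.N.u (prH m n X)‖ := by
        simpa using norm_add_le (prV m n X - K.S.N.u (prH m n X)) (K.S.N.u (prH m n X))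
      linarith
    have hrho : rho K.S.N.u (npr K.S.N.u X) < 200 * K.r := by
      have h1 := bs_rho_le hdiff hslope (npr K.S.N.u X)
      have h2 : (1 + π.C * π.m₀) * ‖npr K.S.N.u X‖ ≤ (1 + 1 / 10) * (41 * K.r + K.r / 100) :=
        mul_le_mul (by linarith) hy (norm_nonneg _) (by norm_num)
      linarith
    refine ⟨hz, hv, hX60, hrho, ?_⟩
    have e : 1000 * K.r * qd K.S.N (1000 * K.r) = K.S.N.supz (Bs K.S.N.u (1000 * K.r)) := by
      unfold qd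
      rw [← mul_assoc, mul_inv_cancel₀ (by positivity), one_mul]
    rw [e]
    unfold NCyl.supz
    refine le_csSup ⟨K.S.N.h, ?_⟩ ⟨X, hIn.1, ?_, ?_, rfl⟩
    · rintro t ⟨Y, -, hYc, -, rfl⟩
      exact hYc.2.le
    · rw [K.S.N_Ω, K.S.N_h]
      exact hIn.2
    · show rho K.S.N.u (npr K.S.N.u X) < 1000 * K.r
      linarith

/-- **CO (5.3): integral normalisation** (leaf `L-Blow-energy`).
PLAN.  `K.rad` gives `r' ∈ [400 r, 600 r]`; `phiR u r' ≥ (3/4)^10` on `Bs u (200 r)`.  Tilt: `Dm (Bs) ≤ (4/3)^10 ∫ phiR dDm =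
(4/3)^10 r'^{m-2} qE(r') ≤ C C₀ qH(r') r^{m-2} ≤ C C₀² qH(r) r^{m-2}` (`K.dbl`).  Height: `wcomp` (first item) at `r'`,
`Wts.d_le` (`qd ≤ C₁`).  Mass: `Wts.mass` at `200 r`.  Lower bound: `psiR ≤ 20`, `psiR = 0` off `Bs u r`, `hwt ≤ 4` (`Freq.proj_facts`).
(helper109 09:30Z: kernel exponent `p = 10` and weight `hwt` of `qH`, see `Freq/Quant.lean`; hence the constant `80`.)
Integrability: bounded measurable integrands on sets of finite mass (`cyl_carrier`, `tube_deriv` for continuity of `npr`, `zz`);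
the integrand of `qH` is integrable because `qH > 0`. -/
theorem energy (m n Q : ℕ) (hm : 1 ≤ m) (hn : 1 ≤ n) (hQ : 1 ≤ Q) :
    Stm m (fun π => ∀ C₀ : ℝ, ∃ C : ℝ, 0 < C ∧ ∀ K : Ctx m n Q π C₀,
      ∫ X in {X | npr K.S.N.u X ∈ Bs K.S.N.u (200 * K.r)}, ‖zz K.S.N.u X‖ ^ 2 ∂K.S.N.μ
        ≤ C * K.a ^ 2 * K.r ^ (m + 2) ∧
      K.S.N.Dm (Bs K.S.N.u (200 * K.r)) ≤ ENNReal.ofReal (C * K.a ^ 2 * K.r ^ m) ∧
      K.S.N.μ {X | npr K.S.N.u X ∈ Bs K.S.N.u (200 * K.r)} ≤ ENNReal.ofReal (C * K.r ^ m) ∧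
      K.a ^ 2 * K.r ^ (m + 2)
        ≤ 80 * ∫ X in {X | npr K.S.N.u X ∈ Bs K.S.N.u K.r}, ‖zz K.S.N.u X‖ ^ 2 ∂K.S.N.μ) := by
  have hP : Stm m (fun π => 1 ≤ π.C₁ ∧ 0 < π.rs ∧ π.rs ≤ 1) :=
    ⟨0, fun B _ _ => (Ev.pos B).mono fun π _ h => ⟨h.2.2.2.2.1, h.2.2.2.2.2.1, h.2.2.2.2.2.2.1⟩⟩
  refine ((bs_kit m n Q hm hn hQ).and hP).mono ?_
  rintro π - ⟨kit, hC1, hrs0, hrs1⟩ C₀
  set A : ℝ := max C₀ 1 with hA
  have hA1 : 1 ≤ A := le_max_right _ _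
  set c1 : ℝ := (4 / 3) ^ 10 * 600 ^ m * (π.C₁ * (A + π.C₁ ^ 2 * A ^ 2)) with hc1
  set c2 : ℝ := (4 / 3) ^ 10 * 600 ^ m * A ^ 2 with hc2
  set c3 : ℝ := π.C₁ * 200 ^ m with hc3
  have hc1p : 0 < c1 := by positivity
  have hc2p : 0 < c2 := by positivity
  have hc3p : 0 < c3 := by positivity
  refine ⟨c1 + c2 + c3, by positivity, fun K => ?_⟩
  have hr0 := K.r_pos
  have hH := K.H_pos
  have hC0 : 1 ≤ C₀ := by
    have := K.dbl K.r le_rfl (by linarith)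
    by_contra hlt
    push Not at hlt
    nlinarith
  have hAe : A = C₀ := max_eq_left hC0
  obtain ⟨r', h400, h600, hE, -⟩ := K.rad
  have hr'0 : 0 < r' := by linarith
  have hhi := K.r_hi
  have hlo := K.r_lo
  have hr'1 : r' ≤ 1 := by linarith
  have R1 : K.S.Rg K.r := ⟨hr0, hlo, by linarith⟩
  have R2 : K.S.Rg (200 * K.r) := ⟨by linarith, by linarith, by linarith⟩
  have R3 : K.S.Rg r' := ⟨hr'0, by linarith, by linarith⟩
  have k1 := kit K.S _ R1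
  have k2 := kit K.S _ R2
  have k3 := kit K.S _ R3
  obtain ⟨κ', hok⟩ := k1.ok
  have f1 : K.S.N.μ {X | npr K.S.N.u X ∈ Bs K.S.N.u K.r} < ⊤ :=
    lt_of_le_of_lt k1.wts.mass ENNReal.ofReal_lt_top
  have f3 : K.S.N.μ {X | npr K.S.N.u X ∈ Bs K.S.N.u r'} < ⊤ :=
    lt_of_le_of_lt k3.wts.mass ENNReal.ofReal_lt_top
  have hHr' : qH K.S.N r' ≤ A * qH K.S.N K.r := by
    rw [hAe]; exact K.dbl r' (by linarith) (by linarith)
  have hEr' : qE K.S.N r' ≤ A ^ 2 * qH K.S.N K.r := by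
    calc qE K.S.N r' ≤ A * qH K.S.N r' := by rw [hAe]; exact hE
      _ ≤ A * (A * qH K.S.N K.r) := by gcongr
      _ = A ^ 2 * qH K.S.N K.r := by ring
  have hd : qd K.S.N r' ^ 2 ≤ π.C₁ ^ 2 := by
    have h1 := k3.wts.d_le
    have h2 : r' ^ (π.k - 1) ≤ 1 := pow_le_one₀ hr'0.le hr'1
    have h3 : qd K.S.N r' ≤ π.C₁ := by nlinarith
    exact pow_le_pow_left₀ k3.wts.d_pos.le h3 2
  have hZ : qZφ K.S.N r' ≤ π.C₁ * (A + π.C₁ ^ 2 * A ^ 2) * qH K.S.N K.r := by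
    calc qZφ K.S.N r' ≤ π.C₁ * (qH K.S.N r' + qd K.S.N r' ^ 2 * qE K.S.N r') := k3.zphi
      _ ≤ π.C₁ * (A * qH K.S.N K.r + π.C₁ ^ 2 * (A ^ 2 * qH K.S.N K.r)) := by
          have := k3.E_nonneg
          gcongr
      _ = _ := by ring
  have hpow : r' ^ m ≤ 600 ^ m * K.r ^ m := by
    rw [← mul_pow]; exact pow_le_pow_left₀ hr'0.le h600 m
  have ha := K.a_sq
  have ha0 : 0 ≤ K.a ^ 2 := sq_nonneg _
  have hrm : 0 < K.r ^ m := by positivity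
  refine ⟨?_, ?_, ?_, ?_⟩
  · refine (bs_height_le hok hr'0 (by linarith) f3).trans ?_
    have hZ0 : 0 ≤ π.C₁ * (A + π.C₁ ^ 2 * A ^ 2) * qH K.S.N K.r := by positivity
    calc (4 / 3 : ℝ) ^ 10 * (r' ^ m * qZφ K.S.N r')
        ≤ (4 / 3 : ℝ) ^ 10 * ((600 ^ m * K.r ^ m) * (π.C₁ * (A + π.C₁ ^ 2 * A ^ 2) * qH K.S.N K.r)) := by
          have : r' ^ m * qZφ K.S.N r' ≤ r' ^ m * (π.C₁ * (A + π.C₁ ^ 2 * A ^ 2) * qH K.S.N K.r) :=
            mul_le_mul_of_nonneg_left hZ (by positivity)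
          have h2 : r' ^ m * (π.C₁ * (A + π.C₁ ^ 2 * A ^ 2) * qH K.S.N K.r)
              ≤ (600 ^ m * K.r ^ m) * (π.C₁ * (A + π.C₁ ^ 2 * A ^ 2) * qH K.S.N K.r) :=
            mul_le_mul_of_nonneg_right hpow hZ0
          exact mul_le_mul_of_nonneg_left (this.trans h2) (by positivity)
      _ = c1 * K.a ^ 2 * K.r ^ (m + 2) := by rw [← ha, hc1]; ring
      _ ≤ (c1 + c2 + c3) * K.a ^ 2 * K.r ^ (m + 2) := by
          have : 0 ≤ K.r ^ (m + 2) := by positivity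
          gcongr
          linarith
  · refine (bs_tilt_le hok hr'0 (by linarith) f3).trans (ENNReal.ofReal_le_ofReal ?_)
    have hq : r' ^ m / r' ^ 2 ≤ 600 ^ m * K.r ^ m / K.r ^ 2 := by
      have : K.r ^ 2 ≤ r' ^ 2 := pow_le_pow_left₀ hr0.le (by linarith) 2
      gcongr
    calc (4 / 3 : ℝ) ^ 10 * (r' ^ m / r' ^ 2 * qE K.S.N r')
        ≤ (4 / 3 : ℝ) ^ 10 * (600 ^ m * K.r ^ m / K.r ^ 2 * (A ^ 2 * qH K.S.N K.r)) := by
          have := k3.E_nonneg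
          gcongr
      _ = c2 * K.a ^ 2 * K.r ^ m := by
          rw [← ha, hc2]
          field_simp
      _ ≤ (c1 + c2 + c3) * K.a ^ 2 * K.r ^ m := by
          gcongr
          linarith
  · refine k2.wts.mass.trans (ENNReal.ofReal_le_ofReal ?_)
    calc π.C₁ * (200 * K.r) ^ m = c3 * K.r ^ m := by rw [hc3, mul_pow]; ring
      _ ≤ (c1 + c2 + c3) * K.r ^ m := by
          gcongr
          linarith
  · refine le_trans (le_of_eq ?_) (bs_height_ge hok hr0 f1)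
    rw [← ha]; ring

/-- **`a → 0`** (leaf `L-Blow-a-small`): `a² = H(r)/r² ≤ C₁ δ(r)²` (`Wts.H_hi`), `δ(r) ≤ 1000 δ(1000 r)` (monotonicity of `supz`). -/
theorem a_small (m n Q : ℕ) (hm : 1 ≤ m) (hn : 1 ≤ n) (hQ : 1 ≤ Q) :
    Stm m (fun π => ∀ C₀ : ℝ, ∃ C : ℝ, 0 < C ∧ ∀ K : Ctx m n Q π C₀,
      K.a ≤ C * qd K.S.N (1000 * K.r)) := by
  refine ⟨4, fun B hJ hB => ?_⟩
  refine ((wt_Hhi (n := n) (Q := Q) hm B hB hJ).and (wt_height (n := n) (Q := Q) hm B hB hJ)).mono ?_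
  rintro π hπ ⟨h₁, h₂⟩ C₀
  have hCm := Cmass_nonneg m Q
  refine ⟨1000 * Real.sqrt (80 * Cmass m Q) + 1, by positivity, fun K => ?_⟩
  have hr0 := K.r_pos
  have hrg : K.S.Rg K.r := ⟨K.r_pos, K.r_lo, by linarith [K.r_hi]⟩
  have hrg' : K.S.Rg (1000 * K.r) := ⟨by positivity, by linarith [K.r_lo], by linarith [K.r_hi]⟩
  have e1 := h₁ K.S K.r hrg
  have hd0 := (h₂ K.S K.r hrg).2.1
  have hd0' := (h₂ K.S (1000 * K.r) hrg').2.1
  have e2 : qd K.S.N K.r ≤ 1000 * qd K.S.N (1000 * K.r) := by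
    have hsup : K.S.N.supz (Bs K.S.N.u K.r) ≤ K.S.N.supz (Bs K.S.N.u (1000 * K.r)) := by
      unfold NCyl.supz
      refine Real.sSup_le ?_ (Real.sSup_nonneg ?_)
      · rintro t ⟨X, hXs, hXc, hXb, rfl⟩
        refine le_csSup ⟨K.S.N.h, ?_⟩ ⟨X, hXs, hXc, ?_, rfl⟩
        · rintro t ⟨X, -, hX, -, rfl⟩
          exact hX.2.le
        · have : rho K.S.N.u (npr K.S.N.u X) < K.r := hXb
          show rho K.S.N.u (npr K.S.N.u X) < 1000 * K.r
          linarith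
      · rintro t ⟨X, -, -, -, rfl⟩
        exact norm_nonneg _
    unfold qd
    calc K.r⁻¹ * K.S.N.supz (Bs K.S.N.u K.r) ≤ K.r⁻¹ * K.S.N.supz (Bs K.S.N.u (1000 * K.r)) := by gcongr
      _ = 1000 * ((1000 * K.r)⁻¹ * K.S.N.supz (Bs K.S.N.u (1000 * K.r))) := by field_simp
  have e3 : K.a ^ 2 = qH K.S.N K.r / K.r ^ 2 := by
    rw [← K.a_sq]; field_simp
  have e4 : K.a ≤ Real.sqrt (80 * Cmass m Q) * qd K.S.N K.r := by
    rw [← pow_le_pow_iff_left₀ K.a_pos.le (by positivity) two_ne_zero, mul_pow,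
      Real.sq_sqrt (by positivity), e3]
    exact e1
  calc K.a ≤ Real.sqrt (80 * Cmass m Q) * qd K.S.N K.r := e4
    _ ≤ Real.sqrt (80 * Cmass m Q) * (1000 * qd K.S.N (1000 * K.r)) := by gcongr
    _ ≤ (1000 * Real.sqrt (80 * Cmass m Q) + 1) * qd K.S.N (1000 * K.r) := by nlinarith

/-- **CO (5.5): witness normalisation** (leaf `L-Blow-tent`).
PLAN.  `t(y) = 0`: trivial.  `t(y) > 0`: `tent_witness` gives `x`, `ℓ = S.ℓ x`, `|y - x| < ℓ`, `t(y) < 2 ℓ`; `witness_size`: `ℓ ≤ 3 r`.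
`S.sep x _ _ y _ (gr u) _` (`ConeSet π.ε₁ (gr u)` from `start_geo` and `C m₀ ≤ ε₁`) gives mass `≥ c ℓ^m` of points `X` with
`|prH X - y| < c₀ ℓ`, `|prV X| ≤ 1`, distance `≥ c m₀ ℓ^k` from the graph.  Almost all of them are support points
(`W.μ_compl_support`), they are in the cylinder (`S.cover`), `|zz X| ≥ c m₀ ℓ^k`, `ρ(npr X) < 200 r` (`loc`).
Chebyshev against the first item of `energy`: `c ℓ^m (c m₀ ℓ^k)² ≤ C a² r^{m+2}`. -/
theorem tent_bd (m n Q : ℕ) (hm : 1 ≤ m) (hn : 1 ≤ n) (hQ : 1 ≤ Q) :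
    Stm m (fun π => ∀ C₀ : ℝ, ∃ c : ℝ, 0 < c ∧ ∀ K : Ctx m n Q π C₀, ∀ y : E m, ‖y‖ ≤ 40 * K.r →
      c * tent K.S.ℓ y ^ (2 * π.k + m) ≤ K.a ^ 2 * K.r ^ (m + 2)) := by
  obtain ⟨J₁, h₁⟩ := energy m n Q hm hn hQ
  refine ⟨J₁ + 4, fun B hJ hB => ?_⟩
  have hJ4 : 4 ≤ B.J := by omega
  refine ((((h₁ B (by omega) hB).and (wtk_frOK (n := n) (Q := Q) hm B hB hJ4)).and
    (paying m n Q hm B hB hJ4)).and (Ev.pos B)).mono ?_
  rintro π hπ ⟨⟨⟨a₁, a₂⟩, a₃⟩, a₄⟩ C₀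
  subst hπ
  obtain ⟨C, hC, hE⟩ := a₁ C₀
  have hm₀ : 0 < π.m₀ := a₄.2.2.1
  have hc : 0 < π.c := hB.c_pos
  have hk : 8 + m < 2 * π.k := hB.k_gt
  refine ⟨π.c ^ 3 * π.m₀ ^ 2 / (C * 2 ^ (2 * π.k + m)), by positivity, fun K y hy => ?_⟩
  obtain ⟨e1, -, e3, -⟩ := hE K
  have hok := a₂ K.S
  have hr0 := K.r_pos
  have ha0 := K.a_pos
  rcases (tent_nonneg K.S.isFail y).eq_or_lt with ht | ht
  · rw [← ht, zero_pow (by omega), mul_zero]
    positivity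
  obtain ⟨x, hx5, hx⟩ := tent_witness K.S.isFail ht
  have hwit : K.S.Wit y x := ⟨hx5, ht, hx⟩
  have hrg : K.S.Rg (200 * K.r) := ⟨by positivity, by linarith [K.r_lo], by linarith [K.r_hi]⟩
  have hyB : y ∈ Bs K.S.N.u (200 * K.r) := by
    show rho K.S.N.u y < 200 * K.r
    have := ((rho_facts hok.geo).2.1 y).2
    linarith
  obtain ⟨A, hA, hA'⟩ := a₃ K.S (200 * K.r) y x hrg hyB hwit
  obtain ⟨l, hl⟩ : ∃ l, l = K.S.ℓ x := ⟨_, rfl⟩
  rw [← hl] at hA hA' hx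
  have hl0 : 0 < l := by linarith [norm_nonneg (y - x)]
  have ht2 : tent K.S.ℓ y ≤ 2 * l := by linarith [norm_nonneg (y - x)]
  have hAs : A ⊆ {X | npr K.S.N.u X ∈ Bs K.S.N.u (200 * K.r)} := fun X hX => (hA' X hX).2.1
  haveI : IsFiniteMeasure (K.S.N.μ.restrict {X | npr K.S.N.u X ∈ Bs K.S.N.u (200 * K.r)}) :=
    ⟨by rw [Measure.restrict_apply MeasurableSet.univ, Set.univ_inter]
        exact lt_of_le_of_lt e3 ENNReal.ofReal_lt_top⟩
  have hint : Integrable (fun X => ‖zz K.S.N.u X‖ ^ 2)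
      (K.S.N.μ.restrict {X | npr K.S.N.u X ∈ Bs K.S.N.u (200 * K.r)}) := by
    refine Integrable.mono' (integrable_const (K.S.N.h ^ 2)) (hok.meas.mZz.norm.pow 2).restrict ?_
    filter_upwards [ae_restrict_of_ae hok.ok.ae_cyl] with X hX
    rw [Real.norm_of_nonneg (by positivity)]
    have := hX.2.le
    gcongr
  have e2 : (π.c * π.m₀ * l ^ π.k) ^ 2 * (π.c * l ^ m)
      ≤ ∫ X in {X | npr K.S.N.u X ∈ Bs K.S.N.u (200 * K.r)}, ‖zz K.S.N.u X‖ ^ 2 ∂K.S.N.μ := by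
    refine wt_integral_ge hint (fun _ => sq_nonneg _) A _ _ (by positivity)
      (by rw [Measure.restrict_eq_self _ hAs]; exact hA) fun X hX => ?_
    have := (hA' X hX).2.2.2.2.2.1
    gcongr
  have e4 : tent K.S.ℓ y ^ (2 * π.k + m) ≤ (2 * l) ^ (2 * π.k + m) := by gcongr
  calc π.c ^ 3 * π.m₀ ^ 2 / (C * 2 ^ (2 * π.k + m)) * tent K.S.ℓ y ^ (2 * π.k + m)
      ≤ π.c ^ 3 * π.m₀ ^ 2 / (C * 2 ^ (2 * π.k + m)) * (2 * l) ^ (2 * π.k + m) := by gcongr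
    _ = ((π.c * π.m₀ * l ^ π.k) ^ 2 * (π.c * l ^ m)) / C := by
        rw [mul_pow 2 l, pow_add l, mul_comm 2 π.k, pow_mul l π.k 2]
        field_simp
    _ ≤ (C * K.a ^ 2 * K.r ^ (m + 2)) / C :=
        div_le_div_of_nonneg_right (e2.trans e1) hC.le
    _ = K.a ^ 2 * K.r ^ (m + 2) := by field_simp

/-- **CO (5.4) in start units** (leaf `L-Blow-curv-start`): `S.curv`, `(t^{2k-4})^{2k+m} = (t^{2k+m})^{2k-4}`, `tent_bd`, `r ≤ 1`. -/
theorem curv_start (m n Q : ℕ) (hm : 1 ≤ m) (hn : 1 ≤ n) (hQ : 1 ≤ Q) :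
    Stm m (fun π => ∀ C₀ : ℝ, ∃ C : ℝ, 0 < C ∧ ∀ K : Ctx m n Q π C₀, ∀ y : E m, ‖y‖ ≤ 40 * K.r →
      (‖HS K.S.N.u y‖ + Real.sqrt (DHSsq K.S.N.u y)) ^ (2 * π.k + m) ≤ C * (K.a ^ 2) ^ (2 * π.k - 4)) := by
  obtain ⟨J₁, h₁⟩ := tent_bd m n Q hm hn hQ
  refine ⟨J₁, fun B hJ hB => ?_⟩
  refine ((h₁ B hJ hB).and (Ev.pos B)).mono ?_
  rintro π hπ ⟨a₁, a₄⟩ C₀
  subst hπ
  obtain ⟨c, hc, hT⟩ := a₁ C₀
  have hm₀ : 0 < π.m₀ := a₄.2.2.1
  have hrs1 : π.rs ≤ 1 := a₄.2.2.2.2.2.2.1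
  have hC : 1 ≤ π.C := hB.C_ge
  have hk : 8 + m < 2 * π.k := hB.k_gt
  refine ⟨(π.C * π.m₀ ^ 2) ^ (2 * π.k + m) / c ^ (2 * π.k - 4), by positivity, fun K y hy => ?_⟩
  have hr0 := K.r_pos
  have ha0 := K.a_pos
  have hr1 : K.r ≤ 1 := by linarith [K.r_hi]
  have hy4 : y ∈ Metric.ball (0 : E m) 4 := by
    rw [Metric.mem_ball, dist_zero_right]
    linarith [K.r_hi]
  have hcurv : ‖HS K.S.N.u y‖ + Real.sqrt (DHSsq K.S.N.u y)
      ≤ π.C * π.m₀ ^ 2 * tent K.S.ℓ y ^ (2 * π.k - 4) := K.S.curv y hy4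
  have ht0 := tent_nonneg K.S.isFail y
  have e1 : tent K.S.ℓ y ^ (2 * π.k + m) ≤ K.a ^ 2 / c := by
    rw [le_div_iff₀ hc, mul_comm]
    refine (hT K y hy).trans ?_
    have : K.r ^ (m + 2) ≤ 1 := pow_le_one₀ hr0.le hr1
    nlinarith [sq_nonneg K.a]
  have h0 : 0 ≤ ‖HS K.S.N.u y‖ + Real.sqrt (DHSsq K.S.N.u y) := by positivity
  calc (‖HS K.S.N.u y‖ + Real.sqrt (DHSsq K.S.N.u y)) ^ (2 * π.k + m)
      ≤ (π.C * π.m₀ ^ 2 * tent K.S.ℓ y ^ (2 * π.k - 4)) ^ (2 * π.k + m) := by gcongr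
    _ = (π.C * π.m₀ ^ 2) ^ (2 * π.k + m) * (tent K.S.ℓ y ^ (2 * π.k + m)) ^ (2 * π.k - 4) := by
        rw [mul_pow, ← pow_mul, ← pow_mul, mul_comm (2 * π.k - 4)]
    _ ≤ (π.C * π.m₀ ^ 2) ^ (2 * π.k + m) * (K.a ^ 2 / c) ^ (2 * π.k - 4) := by gcongr
    _ = (π.C * π.m₀ ^ 2) ^ (2 * π.k + m) / c ^ (2 * π.k - 4) * (K.a ^ 2) ^ (2 * π.k - 4) := by
        rw [div_pow]; ring

/-- `D (|z|² + c) = 2 ⟨z, ·⟩` in the tube -/
theorem blsh_hasFDerivAt {m n : ℕ} {κ₂ : ℝ} {u : E m → E n} (hu : Geo κ₂ u) {X : E (m + n)}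
    (hX : X ∈ Tub u (2 / 9)) (c : ℝ) :
    HasFDerivAt (fun Y => ‖zz u Y‖ ^ 2 + c) ((2 : ℝ) • innerSL ℝ (zz u X)) X := by
  have h1 := (zz_local hu le_rfl hX).2
  have h2 := (h1.norm_sq).add_const c
  refine h2.congr_fderiv ?_
  have hA := hu.norm_Shp_zz_le_half le_rfl hX
  have hz : Ph u (npr u X) (zz u X) = 0 :=
    (tube_unique_of_le hu (by norm_num : (2 / 9 : ℝ) ≤ 1 / 4) hX).2.2.1
  have hcomm := Ph_comp_Kw (y := npr u X) (w := zz u X) hu.c2 hA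
  refine ContinuousLinearMap.ext fun v => ?_
  have h3 : Kz u X (Ph u (npr u X) v) = Ph u (npr u X) (Kz u X v) := by
    rw [Kz_eq]
    exact (congrArg (fun T : E (m + n) →L[ℝ] E (m + n) => T v) hcomm).symm
  have h4 : inner ℝ (zz u X) (Kz u X (Ph u (npr u X) v)) = 0 := by
    rw [h3, ← (isProj_Ph u (npr u X)).symm, hz, inner_zero_left]
  simp only [ContinuousLinearMap.comp_apply, innerSL_apply_apply, _root_.sub_apply,
    ContinuousLinearMap.id_apply, inner_sub_right, _root_.smul_apply, h4, sub_zero, smul_eq_mul,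
    nsmul_eq_mul]
  norm_num

/-- `tr (P D² (|z|² + c)) = 2 tr (P Dz)` in the tube -/
theorem blsh_tlap {m n : ℕ} {κ₂ : ℝ} {u : E m → E n} (hu : Geo κ₂ u) {X : E (m + n)}
    (hX : X ∈ Tub u (2 / 9)) {P : E (m + n) →L[ℝ] E (m + n)} (hP : IsProj m P) (c : ℝ) :
    tlap P (fun Y => ‖zz u Y‖ ^ 2 + c) X = 2 * tdiv P (fderiv ℝ (zz u) X) := by
  have hcd : ContDiffAt ℝ 2 (fun Y => ‖zz u Y‖ ^ 2 + c) X :=
    (((zz_local hu le_rfl hX).1.of_le (by norm_num)).norm_sq ℝ).add contDiffAt_const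
  rw [tlap_eq_tdiv hP hcd]
  have hgr : gradient (fun Y => ‖zz u Y‖ ^ 2 + c) =ᶠ[𝓝 X] fun Y => (2 : ℝ) • zz u Y := by
    filter_upwards [(isOpen_Tub u (2 / 9)).mem_nhds hX] with Y hY
    refine ext_inner_left ℝ fun w => ?_
    rw [inner_gradient, (blsh_hasFDerivAt hu hY c).fderiv]
    simp only [_root_.smul_apply, innerSL_apply_apply, inner_smul_right, smul_eq_mul]
    rw [real_inner_comm]
  rw [hgr.fderiv_eq, fderiv_fun_const_smul (zz_local hu le_rfl hX).2.differentiableAt, tdiv_smul]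

/-- the scalar inequality behind the differential inequality for `|z|² + a² r²` -/
theorem blsh_ineq {CN C' a z e T κ ip r : ℝ} (hr : 0 < r) (hr1 : r ≤ 1) (hCN : 0 < CN)
    (hC' : 1 ≤ C') (ha : 0 ≤ a) (hz0 : 0 ≤ z) (hz : z ≤ r / 100) (hrCN : CN * r ≤ 1) (hκ0 : 0 ≤ κ)
    (hκ : κ ≤ 1 / 10) (he : 0 ≤ e) (hnt : |T - (e - ip)| ≤ CN * (κ ^ 2 * z ^ 2 + κ * e * z))
    (hip : |ip| ≤ C' * a * z) :
    -((C' + 2 * CN) / r ^ 2) * (z ^ 2 + a ^ 2 * r ^ 2) ≤ 2 * T := by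
  have h1 := (abs_le.1 hnt).1
  have h2 := (abs_le.1 hip).2
  have h3 : CN * (κ * e * z) ≤ e := by
    have h3a : CN * z ≤ 1 := by nlinarith
    have h3b : 0 ≤ CN * z := by positivity
    have h4 : κ * (CN * z) ≤ 1 := by nlinarith
    calc CN * (κ * e * z) = e * (κ * (CN * z)) := by ring
      _ ≤ e * 1 := by gcongr
      _ = e := mul_one _
  have hz2 : 0 ≤ z ^ 2 := by positivity
  have h5 : CN * (κ ^ 2 * z ^ 2) ≤ CN * z ^ 2 := by
    have : κ ^ 2 ≤ 1 := by nlinarith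
    have : κ ^ 2 * z ^ 2 ≤ 1 * z ^ 2 := by gcongr
    nlinarith
  have hT : -(C' * a * z) - CN * z ^ 2 ≤ T := by
    have : CN * (κ ^ 2 * z ^ 2 + κ * e * z) = CN * (κ ^ 2 * z ^ 2) + CN * (κ * e * z) := by ring
    linarith
  have hr2 : 0 < r ^ 2 := by positivity
  have e1 : -((C' + 2 * CN) / r ^ 2) * (z ^ 2 + a ^ 2 * r ^ 2)
      = -((C' + 2 * CN) * (z ^ 2 / r ^ 2) + (C' + 2 * CN) * a ^ 2) := by
    field_simp
  rw [e1]
  have h6 : z ^ 2 ≤ z ^ 2 / r ^ 2 := by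
    rw [le_div_iff₀ hr2]
    have : r ^ 2 ≤ 1 := by nlinarith
    nlinarith
  have h7 : 2 * (a * z) ≤ a ^ 2 + z ^ 2 := by nlinarith [sq_nonneg (a - z)]
  have h8 : 2 * (C' * a * z) ≤ C' * a ^ 2 + C' * (z ^ 2 / r ^ 2) := by
    have : C' * (2 * (a * z)) ≤ C' * (a ^ 2 + z ^ 2 / r ^ 2) := by
      gcongr
      linarith
    linarith
  have h9 : CN * z ^ 2 ≤ CN * (z ^ 2 / r ^ 2) := by gcongr
  have h10 : 0 ≤ CN * a ^ 2 := by positivity
  linarith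

/-- mean value inequality for `|z|² + a² r²` -/
theorem blsh_mean {m n : ℕ} (hm : 1 ≤ m) (W : SIV m n) {κ₂ : ℝ} {u : E m → E n} (hu : Geo κ₂ u)
    (hκ : κ₂ ≤ 1 / 10) {p : E (m + n)} (hp : p ∈ W.support) {r a C' : ℝ} (hr : 0 < r)
    (hr1 : r ≤ 1 / 1000) (ha : 0 ≤ a) (hC' : 1 ≤ C')
    (hrCN : (11 * ((m + n : ℕ) : ℝ) + 3) * r ≤ 1)
    (hU : Metric.closedBall p r ⊆ W.U) (hzp : ‖zz u p‖ ≤ r / 100)
    (hx : ∀ x ∈ W.support, x ∈ Metric.ball p r →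
      ‖zz u x‖ ≤ r / 100 ∧ ‖HS u (npr u x)‖ ≤ C' * a) :
    ‖zz u p‖ ^ 2 + a ^ 2 * r ^ 2 ≤ Real.exp ((C' + 2 * (11 * ((m + n : ℕ) : ℝ) + 3)) / 4) *
      ((kap m * r ^ m)⁻¹ * ∫ x in Metric.ball p r, (‖zz u x‖ ^ 2 + a ^ 2 * r ^ 2) ∂W.μ) := by
  have hCN : (0 : ℝ) < 11 * ((m + n : ℕ) : ℝ) + 3 := by positivity
  have hballT : Metric.closedBall p r ⊆ Tub u (2 / 9) := by
    intro X hX
    rw [Metric.mem_closedBall, dist_eq_norm] at hX
    refine ⟨npr u p, ?_⟩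
    calc ‖X - Fg u (npr u p)‖ = ‖(X - p) + zz u p‖ := by
          unfold zz
          congr 1
          abel
      _ ≤ ‖X - p‖ + ‖zz u p‖ := norm_add_le _ _
      _ < 2 / 9 := by linarith
  have hgC : ContDiffOn ℝ 2 (fun Y => ‖zz u Y‖ ^ 2 + a ^ 2 * r ^ 2) (Tub u (2 / 9)) := fun Y hY =>
    ((((zz_local hu le_rfl hY).1.of_le (by norm_num)).norm_sq ℝ).add
      contDiffAt_const).contDiffWithinAt
  have hsupp : ∀ᵐ x ∂W.μ, x ∈ W.support := by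
    have := measure_eq_zero_iff_ae_notMem.1 W.μ_compl_support
    filter_upwards [this] with x hx
    exact not_not.1 hx
  have hsub : ∀ᵐ x ∂W.μ, x ∈ Metric.ball p r →
      -((C' + 2 * (11 * ((m + n : ℕ) : ℝ) + 3)) / r ^ 2) * (‖zz u x‖ ^ 2 + a ^ 2 * r ^ 2)
        ≤ tlap (W.P x) (fun Y => ‖zz u Y‖ ^ 2 + a ^ 2 * r ^ 2) x := by
    filter_upwards [hsupp] with x hxs hxb
    obtain ⟨hz, hH⟩ := hx x hxs hxb
    have hxT := hballT (Metric.ball_subset_closedBall hxb)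
    have hP := W.P_proj x
    rw [blsh_tlap hu hxT hP]
    exact blsh_ineq hr (by linarith) hCN hC' ha (norm_nonneg _) hz hrCN hu.nonneg hκ
      (tilt_nonneg u hP x) (normal_trace_of_le hu le_rfl hxT hP).2
      ((abs_real_inner_le_norm _ _).trans (by gcongr))
  have hmv := W.mean_value hm hp hr hU (isOpen_Tub u (2 / 9)) hballT hgC
    (fun x _ => by positivity) (c := (C' + 2 * (11 * ((m + n : ℕ) : ℝ) + 3)) / r ^ 2)
    (by positivity) hsub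
  have e2 : (C' + 2 * (11 * ((m + n : ℕ) : ℝ) + 3)) / r ^ 2 * r ^ 2 / 4
      = (C' + 2 * (11 * ((m + n : ℕ) : ℝ) + 3)) / 4 := by field_simp
  rw [e2] at hmv
  exact hmv

/-- the weight of a set of support points is dominated by the restricted weight -/
theorem blsh_restrict_le {m n : ℕ} (W : SIV m n) {B Cy S₁ : Set (E (m + n))}
    (h : ∀ X ∈ W.support, X ∈ B → X ∈ Cy ∧ X ∈ S₁) :
    W.μ.restrict B ≤ (W.μ.restrict Cy).restrict S₁ := by
  refine Measure.le_iff.2 fun D hD => ?_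
  rw [Measure.restrict_apply hD, Measure.restrict_apply hD]
  refine le_trans ?_ (Measure.le_restrict_apply _ _)
  have hsubset : D ∩ B ⊆ (D ∩ S₁ ∩ Cy) ∪ W.supportᶜ := by
    rintro X ⟨hXD, hXB⟩
    by_cases hXs : X ∈ W.support
    · obtain ⟨h1, h3⟩ := h X hXs hXB
      exact Or.inl ⟨⟨hXD, h3⟩, h1⟩
    · exact Or.inr hXs
  calc W.μ (D ∩ B) ≤ W.μ ((D ∩ S₁ ∩ Cy) ∪ W.supportᶜ) := measure_mono hsubset
    _ ≤ W.μ (D ∩ S₁ ∩ Cy) + W.μ W.supportᶜ := measure_union_le _ _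
    _ = W.μ (D ∩ S₁ ∩ Cy) := by rw [W.μ_compl_support, add_zero]

/-- integral of `|z|² + c` over a ball against the energy in the cylinder -/
theorem blsh_int {m n : ℕ} (W : SIV m n) {κ₂ : ℝ} {u : E m → E n} (hu : Geo κ₂ u) {h : ℝ}
    (hh : h ≤ 2 / 9) {Ω : Set (E m)} (hΩ : IsOpen Ω) {B S₁ : Set (E (m + n))} {c M₁ M₂ : ℝ}
    (hc : 0 ≤ c) (hM₂ : 0 ≤ M₂)
    (hB : ∀ X ∈ W.support, X ∈ B → X ∈ Cyl u Ω h ∧ X ∈ S₁)
    (h1 : ∫ X in S₁, ‖zz u X‖ ^ 2 ∂(W.μ.restrict (Cyl u Ω h)) ≤ M₁)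
    (h2 : (W.μ.restrict (Cyl u Ω h)) S₁ ≤ ENNReal.ofReal M₂) :
    ∫ x in B, (‖zz u x‖ ^ 2 + c) ∂W.μ ≤ M₁ + M₂ * c := by
  set ν : Measure (E (m + n)) := (W.μ.restrict (Cyl u Ω h)).restrict S₁ with hν
  have hle : W.μ.restrict B ≤ ν := blsh_restrict_le W hB
  have hCylO : IsOpen (Cyl u Ω h) := cyla_isOpen hu hΩ hh
  have hνuniv : ν Set.univ ≤ ENNReal.ofReal M₂ := by
    rw [hν, Measure.restrict_apply_univ]
    exact h2
  have hνfin : IsFiniteMeasure ν := ⟨lt_of_le_of_lt hνuniv ENNReal.ofReal_lt_top⟩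
  have hνle : ν ≤ W.μ.restrict (Cyl u Ω h) := Measure.restrict_le_self
  have hCylT : Cyl u Ω h ⊆ Tub u (2 / 9) := fun X hX => ⟨npr u X, lt_of_lt_of_le hX.2 hh⟩
  have hzmeas : AEStronglyMeasurable (fun X => ‖zz u X‖ ^ 2) ν := by
    have h1 : ContinuousOn (fun X => ‖zz u X‖ ^ 2) (Tub u (2 / 9)) :=
      ((tube_deriv_of_le hu le_rfl).2.2.1.continuousOn.norm).pow 2
    have h2 := h1.aestronglyMeasurable (μ := W.μ) (isOpen_Tub u (2 / 9)).measurableSet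
    exact h2.mono_measure (hνle.trans (Measure.restrict_mono hCylT le_rfl))
  have hzint : Integrable (fun X => ‖zz u X‖ ^ 2) ν := by
    refine Integrable.of_bound hzmeas (h ^ 2) ?_
    have h1 : ∀ᵐ X ∂(W.μ.restrict (Cyl u Ω h)), X ∈ Cyl u Ω h :=
      ae_restrict_mem hCylO.measurableSet
    filter_upwards [ae_mono hνle h1] with X hX
    rw [Real.norm_of_nonneg (by positivity)]
    have := hX.2
    gcongr
  calc ∫ x in B, (‖zz u x‖ ^ 2 + c) ∂W.μ ≤ ∫ x, (‖zz u x‖ ^ 2 + c) ∂ν :=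
        integral_mono_measure hle (Eventually.of_forall fun x => by positivity)
          (hzint.add (integrable_const _))
    _ = ∫ x, ‖zz u x‖ ^ 2 ∂ν + ∫ _x, c ∂ν := integral_add hzint (integrable_const _)
    _ ≤ M₁ + M₂ * c := by
        refine add_le_add h1 ?_
        rw [integral_const, smul_eq_mul]
        gcongr
        exact ENNReal.toReal_le_of_le_ofReal hM₂ hνuniv

/-- **CO (5.6): uniform bound for the support height** (leaf `L-Blow-sup-height`).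
PLAN.  `p ∈ support`, `|p| ≤ 25 r`.  `g X = |zz u X|² + a² r²` is `C²` on `O = Tub u h₀ ⊇ closedBall p r` (`tube_deriv`; `hc + r ≤ h₀`).
`∇ |z|² = 2 z` (because `(Dz)ᵀ z = z`), so `tlap P g = 2 tdiv P (D zz)`; `normal_trace`:
`tlap P g ≥ 2 e (1 - C κ₂ |z|) - 2 |H_S| |z| - C κ₂² |z|² ≥ - 2 |H_S| |z| - C |z|²`.  For support points `X ∈ ball p r`: `|X| ≤ 26 r`,
`|npr X| ≤ 27 r`, `curv_start` and `a ≤ 1`, `4 k - 8 ≥ 2 k + m`: `|H_S| ≤ C a`.  `2 C a |z| ≤ (C / r)(a² r² + |z|²) ≤ (C / r²) g`.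
`W.mean_value` with `R = r`, `c = C / r²`: `g p ≤ e^{C/4} (kap r^m)⁻¹ ∫_{ball p r} g dμ`; `energy` (items 1 and 3), `loc`. -/
theorem sup_height (m n Q : ℕ) (hm : 1 ≤ m) (hn : 1 ≤ n) (hQ : 1 ≤ Q) :
    Stm m (fun π => ∀ C₀ : ℝ, ∃ C : ℝ, 0 < C ∧ ∀ K : Ctx m n Q π C₀, K.a ≤ 1 →
      ∀ X ∈ K.S.N.W.support, ‖X‖ ≤ 25 * K.r → ‖zz K.S.N.u X‖ ≤ C * K.a * K.r) := by
  have hCN : (0 : ℝ) < 11 * ((m + n : ℕ) : ℝ) + 3 := by positivity
  have hS : Stm m (fun π => π.rs < 1 / (11 * ((m + n : ℕ) : ℝ) + 3) ∧ π.hc < 2 / 9) :=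
    ⟨0, fun B _ _ => (Ev.rs_lt B (fun _ _ _ _ => 1 / (11 * ((m + n : ℕ) : ℝ) + 3))
      (fun _ _ _ _ => by positivity)).and (Ev.hc_lt B (2 / 9) (by norm_num))⟩
  refine ((((loc m n Q hm hn hQ).and (energy m n Q hm hn hQ)).and
    (curv_start m n Q hm hn hQ)).and hS).mono fun π hπ H C₀ => ?_
  obtain ⟨⟨⟨hL, hE⟩, hC⟩, hrs, hhc⟩ := H
  obtain ⟨CE, hCE, hE⟩ := hE C₀
  obtain ⟨Cc, hCc, hC⟩ := hC C₀
  have hC'1 : 1 ≤ max Cc 1 := le_max_right _ _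
  have hkap := kap_pos m
  obtain ⟨A, hAdef⟩ : ∃ A : ℝ, A = Real.exp ((max Cc 1 + 2 * (11 * ((m + n : ℕ) : ℝ) + 3)) / 4)
      * (2 * CE) / kap m := ⟨_, rfl⟩
  have hA : 0 < A := by rw [hAdef]; positivity
  refine ⟨1 + A, by positivity, fun K ha p hp hp25 => ?_⟩
  obtain ⟨hgeo, hκ, -, hr1, hin, hloc⟩ := hL C₀ K
  obtain ⟨hE1, -, hE3, -⟩ := hE K
  have hr := K.r_pos
  have ha0 := K.a_pos
  have hrCN : (11 * ((m + n : ℕ) : ℝ) + 3) * K.r ≤ 1 := by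
    have h1 := K.r_hi
    have h2 : K.r ≤ 1 / (11 * ((m + n : ℕ) : ℝ) + 3) := by linarith
    calc (11 * ((m + n : ℕ) : ℝ) + 3) * K.r
        ≤ (11 * ((m + n : ℕ) : ℝ) + 3) * (1 / (11 * ((m + n : ℕ) : ℝ) + 3)) := by gcongr
      _ = 1 := by field_simp
  -- facts on support points near `p`
  have hfacts : ∀ X ∈ K.S.N.W.support, ‖X‖ ≤ 26 * K.r →
      X ∈ Cyl K.S.N.u (Metric.ball 0 4) π.hc ∧ ‖zz K.S.N.u X‖ ≤ K.r / 100 ∧
        rho K.S.N.u (npr K.S.N.u X) < 200 * K.r ∧ ‖npr K.S.N.u X‖ ≤ 40 * K.r := by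
    intro X hX hX26
    have hIn := hin X hX (by linarith)
    obtain ⟨h1, -, -, h4, -⟩ := hloc X hIn (Or.inl ((norm_prH_le X).trans (by linarith)))
    refine ⟨hIn.2, h1, h4, ?_⟩
    have e : npr K.S.N.u X = prH m n X - prH m n (zz K.S.N.u X) := by
      unfold zz Fg
      rw [map_sub, prH_mkHV]
      abel
    rw [e]
    calc ‖prH m n X - prH m n (zz K.S.N.u X)‖
        ≤ ‖prH m n X‖ + ‖prH m n (zz K.S.N.u X)‖ := norm_sub_le _ _
      _ ≤ ‖X‖ + ‖zz K.S.N.u X‖ := add_le_add (norm_prH_le _) (norm_prH_le _)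
      _ ≤ 40 * K.r := by linarith
  obtain ⟨-, hzp, -, -⟩ := hfacts p hp (by linarith)
  have hnorm_ball : ∀ X ∈ Metric.closedBall p K.r, ‖X‖ ≤ 26 * K.r := by
    intro X hX
    rw [Metric.mem_closedBall, dist_eq_norm] at hX
    calc ‖X‖ = ‖(X - p) + p‖ := by rw [sub_add_cancel]
      _ ≤ ‖X - p‖ + ‖p‖ := norm_add_le _ _
      _ ≤ 26 * K.r := by linarith
  have hballU : Metric.closedBall p K.r ⊆ K.S.N.W.U := by
    intro X hX
    apply K.S.good.dom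
    rw [Metric.mem_closedBall, dist_zero_right]
    have := hnorm_ball X hX
    linarith
  -- curvature
  have hH : ∀ y : E m, ‖y‖ ≤ 40 * K.r → ‖HS K.S.N.u y‖ ≤ max Cc 1 * K.a := by
    intro y hy
    have h1 := hC K y hy
    have hk := hπ.k_gt
    have h2 : (K.a ^ 2) ^ (2 * π.k - 4) ≤ K.a ^ (2 * π.k + m) := by
      rw [← pow_mul]
      exact pow_le_pow_of_le_one ha0.le ha (by omega)
    have h3 : ‖HS K.S.N.u y‖ ^ (2 * π.k + m) ≤ (max Cc 1 * K.a) ^ (2 * π.k + m) := by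
      calc ‖HS K.S.N.u y‖ ^ (2 * π.k + m)
          ≤ (‖HS K.S.N.u y‖ + Real.sqrt (DHSsq K.S.N.u y)) ^ (2 * π.k + m) := by
            gcongr
            linarith [Real.sqrt_nonneg (DHSsq K.S.N.u y)]
        _ ≤ Cc * (K.a ^ 2) ^ (2 * π.k - 4) := h1
        _ ≤ max Cc 1 * K.a ^ (2 * π.k + m) := by
            gcongr
            exact le_max_left _ _
        _ ≤ max Cc 1 ^ (2 * π.k + m) * K.a ^ (2 * π.k + m) := by
            gcongr
            exact le_self_pow₀ hC'1 (by omega)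
        _ = (max Cc 1 * K.a) ^ (2 * π.k + m) := (mul_pow _ _ _).symm
    exact (pow_le_pow_iff_left₀ (norm_nonneg _) (by positivity) (by omega)).1 h3
  have hmv := blsh_mean hm K.S.N.W hgeo hκ hp hr hr1 ha0.le hC'1 hrCN hballU hzp
    (fun x hx hxb => by
      obtain ⟨-, h2, -, h4⟩ := hfacts x hx (hnorm_ball x (Metric.ball_subset_closedBall hxb))
      exact ⟨h2, hH _ h4⟩)
  have hNμ : K.S.N.μ = K.S.N.W.μ.restrict (Cyl K.S.N.u (Metric.ball 0 4) π.hc) := by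
    unfold NCyl.μ
    rw [K.S.N_Ω, K.S.N_h]
    rfl
  rw [hNμ] at hE1 hE3
  have hint := blsh_int K.S.N.W hgeo hhc.le Metric.isOpen_ball (B := Metric.ball p K.r)
    (S₁ := {X | npr K.S.N.u X ∈ Bs K.S.N.u (200 * K.r)}) (c := K.a ^ 2 * K.r ^ 2)
    (by positivity) (by positivity : 0 ≤ CE * K.r ^ m)
    (fun X hX hXb => by
      obtain ⟨h1, -, h3, -⟩ := hfacts X hX (hnorm_ball X (Metric.ball_subset_closedBall hXb))
      exact ⟨h1, h3⟩) hE1 hE3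
  have hfinal : ‖zz K.S.N.u p‖ ^ 2 ≤ ((1 + A) * K.a * K.r) ^ 2 := by
    calc ‖zz K.S.N.u p‖ ^ 2 ≤ ‖zz K.S.N.u p‖ ^ 2 + K.a ^ 2 * K.r ^ 2 := by
          have : 0 ≤ K.a ^ 2 * K.r ^ 2 := by positivity
          linarith
      _ ≤ _ := hmv
      _ ≤ Real.exp ((max Cc 1 + 2 * (11 * ((m + n : ℕ) : ℝ) + 3)) / 4) * ((kap m * K.r ^ m)⁻¹ *
            (CE * K.a ^ 2 * K.r ^ (m + 2) + CE * K.r ^ m * (K.a ^ 2 * K.r ^ 2))) := by gcongr
      _ = A * (K.a * K.r) ^ 2 := by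
          rw [hAdef]
          field_simp
          ring
      _ ≤ (1 + A) ^ 2 * (K.a * K.r) ^ 2 := by
          gcongr
          nlinarith
      _ = ((1 + A) * K.a * K.r) ^ 2 := by ring
  exact (pow_le_pow_iff_left₀ (norm_nonneg _) (by positivity) (by norm_num)).1 hfinal

/-- summation of an integral against a locally finite partition of unity -/
theorem blms_sum {α : Type*} [MeasurableSpace α] {μ : Measure α} {f : α → ℝ} (hf : Integrable f μ)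
    {φ : ℕ → α → ℝ} (hφm : ∀ k, AEStronglyMeasurable (φ k) μ) (hφ0 : ∀ k x, 0 ≤ φ k x)
    (hφ1 : ∀ k x, φ k x ≤ 1)
    (hfin : ∀ x, {k | φ k x ≠ 0}.Finite) (hle : ∀ x, ∑ᶠ k, φ k x ≤ 1)
    (hae : ∀ᵐ x ∂μ, f x = 0 ∨ ∑ᶠ k, φ k x = 1)
    {w : ℕ → ℝ} (hw : Summable w) (hb : ∀ k, |∫ x, φ k x * f x ∂μ| ≤ w k) :
    |∫ x, f x ∂μ| ≤ ∑' k, w k := by
  have hsφ : ∀ x, Summable fun k => φ k x := fun x => summable_of_hasFiniteSupport (hfin x)
  have htsum : ∀ x, ∑' k, φ k x = ∑ᶠ k, φ k x := fun x => tsum_eq_finsum (hfin x)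
  have hFint : ∀ k, Integrable (fun x => φ k x * f x) μ := fun k =>
    hf.bdd_mul (c := 1) (hφm k) (Eventually.of_forall fun x => by
      rw [Real.norm_of_nonneg (hφ0 k x)]; exact hφ1 k x)
  have hFsum : Summable fun k => ∫ x, ‖φ k x * f x‖ ∂μ := by
    refine summable_of_sum_le (c := ∫ x, ‖f x‖ ∂μ)
      (fun k => integral_nonneg fun x => norm_nonneg _) fun s => ?_
    rw [← integral_finsetSum s fun k _ => (hFint k).norm]
    refine integral_mono (integrable_finsetSum s fun k _ => (hFint k).norm) hf.norm fun x => ?_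
    have h1 : ∑ k ∈ s, ‖φ k x * f x‖ = (∑ k ∈ s, φ k x) * ‖f x‖ := by
      rw [Finset.sum_mul]
      refine Finset.sum_congr rfl fun k _ => ?_
      rw [norm_mul, Real.norm_of_nonneg (hφ0 k x)]
    have h2 : ∑ k ∈ s, φ k x ≤ 1 :=
      ((hsφ x).sum_le_tsum s fun k _ => hφ0 k x).trans (by rw [htsum]; exact hle x)
    show ∑ k ∈ s, ‖φ k x * f x‖ ≤ ‖f x‖
    rw [h1]
    exact mul_le_of_le_one_left (norm_nonneg _) h2
  have hhs := hasSum_integral_of_summable_integral_norm hFint hFsum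
  have heq : ∫ x, ∑' k, φ k x * f x ∂μ = ∫ x, f x ∂μ := by
    refine integral_congr_ae ?_
    filter_upwards [hae] with x hx
    rw [tsum_mul_right, htsum]
    rcases hx with h | h
    · rw [h, mul_zero]
    · rw [h, one_mul]
  rw [heq] at hhs
  rw [← hhs.tsum_eq]
  have hsn : Summable fun k => ‖∫ x, φ k x * f x ∂μ‖ :=
    Summable.of_nonneg_of_le (fun k => norm_nonneg _) (fun k => hb k) hw
  calc |∑' k, ∫ x, φ k x * f x ∂μ| ≤ ∑' k, ‖∫ x, φ k x * f x ∂μ‖ := norm_tsum_le_tsum_norm hsn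
    _ ≤ ∑' k, w k := hsn.tsum_le_tsum (fun k => hb k) hw

/-- Leibniz bound for a cell function times a test function at a larger scale -/
theorem blms_leibniz {m n q : ℕ} {χ : E m → ℝ}
    {η : E m → E n} (hχ : ContDiff ℝ ∞ χ)
    (hη : ContDiff ℝ ∞ η) {t₀ r CW A : ℝ} (ht₀ : 0 ≤ t₀) (ht : t₀ ≤ 29 * r)
    (hCW : 0 ≤ CW) (hA : 0 ≤ A)
    (h1 : ∀ j : ℕ, j ≤ q → ∀ y, t₀ ^ j * ‖iteratedFDeriv ℝ j χ y‖ ≤ CW)
    (h2 : ∀ j : ℕ, j ≤ q → ∀ y, r ^ j * ‖iteratedFDeriv ℝ j η y‖ ≤ A) :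
    ∀ j : ℕ, j ≤ q → ∀ y, t₀ ^ j * ‖iteratedFDeriv ℝ j (fun y => χ y • η y) y‖
      ≤ 58 ^ q * CW * A := by
  intro j hj y
  have hL := norm_iteratedFDeriv_smul_le (𝕜 := ℝ) hχ hη y (n := j) (by exact_mod_cast le_top)
  calc t₀ ^ j * ‖iteratedFDeriv ℝ j (fun y => χ y • η y) y‖
      ≤ t₀ ^ j * ∑ i ∈ Finset.range (j + 1), (j.choose i : ℝ) * ‖iteratedFDeriv ℝ i χ y‖ *
          ‖iteratedFDeriv ℝ (j - i) η y‖ := by gcongr
    _ = ∑ i ∈ Finset.range (j + 1), (j.choose i : ℝ) * (t₀ ^ i * ‖iteratedFDeriv ℝ i χ y‖) *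
          (t₀ ^ (j - i) * ‖iteratedFDeriv ℝ (j - i) η y‖) := by
        rw [Finset.mul_sum]
        refine Finset.sum_congr rfl fun i hi => ?_
        have hi' : i ≤ j := Nat.lt_succ_iff.1 (Finset.mem_range.1 hi)
        have : t₀ ^ j = t₀ ^ i * t₀ ^ (j - i) := by rw [← pow_add, Nat.add_sub_cancel' hi']
        rw [this]
        ring
    _ ≤ ∑ i ∈ Finset.range (j + 1), (j.choose i : ℝ) * CW * (29 ^ j * A) := by
        refine Finset.sum_le_sum fun i hi => ?_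
        have hi' : i ≤ j := Nat.lt_succ_iff.1 (Finset.mem_range.1 hi)
        have h3 : t₀ ^ (j - i) * ‖iteratedFDeriv ℝ (j - i) η y‖ ≤ 29 ^ j * A := by
          calc t₀ ^ (j - i) * ‖iteratedFDeriv ℝ (j - i) η y‖
              ≤ (29 * r) ^ (j - i) * ‖iteratedFDeriv ℝ (j - i) η y‖ := by gcongr
            _ = 29 ^ (j - i) * (r ^ (j - i) * ‖iteratedFDeriv ℝ (j - i) η y‖) := by
                rw [mul_pow]; ring
            _ ≤ 29 ^ (j - i) * A := by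
                gcongr
                exact h2 _ ((Nat.sub_le _ _).trans hj) y
            _ ≤ 29 ^ j * A := by
                gcongr
                · norm_num
                · exact Nat.sub_le _ _
        have h4 := h1 i (hi'.trans hj) y
        gcongr
    _ = 58 ^ j * CW * A := by
        rw [← Finset.sum_mul, ← Finset.sum_mul]
        have : ∑ i ∈ Finset.range (j + 1), (j.choose i : ℝ) = 2 ^ j := by
          exact_mod_cast Nat.sum_range_choose j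
        rw [this]
        have : (58 : ℝ) ^ j = 2 ^ j * 29 ^ j := by rw [← mul_pow]; norm_num
        rw [this]
        ring
    _ ≤ 58 ^ q * CW * A := by
        gcongr
        norm_num

/-- geometry of a Whitney cell which meets `ball 0 (25 r)` -/
theorem blms_cell {m : ℕ} {t : E m → ℝ} {b r c : ℝ} (htb : ∀ y, t y ≤ b + ‖y‖)
    (hb : 100 * b ≤ r) (hr : 0 < r) (hc : 0 < c) (hc1 : c ≤ 1 / 100) {p y : E m}
    (hy : y ∈ Metric.ball p (c * t p)) (hy' : y ∈ Metric.ball (0 : E m) (25 * r)) :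
    0 < t p ∧ t p ≤ 29 * r ∧ ‖p‖ ≤ 28 * r ∧ Metric.ball p (c * t p) ⊆ Metric.ball 0 (30 * r) := by
  rw [Metric.mem_ball, dist_eq_norm] at hy
  rw [Metric.mem_ball, dist_zero_right] at hy'
  have h0 : 0 < c * t p := lt_of_le_of_lt (norm_nonneg _) hy
  have ht : 0 < t p := by
    by_contra h
    push Not at h
    nlinarith
  have h1 : c * t p ≤ t p / 100 := by nlinarith
  have hp : ‖p‖ ≤ ‖y‖ + ‖y - p‖ := by
    have : p = y - (y - p) := by abel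
    calc ‖p‖ = ‖y - (y - p)‖ := by rw [← this]
      _ ≤ ‖y‖ + ‖y - p‖ := norm_sub_le _ _
  have h2 := htb p
  have h3 : t p ≤ 29 * r := by linarith
  have h4 : ‖p‖ ≤ 28 * r := by linarith
  refine ⟨ht, h3, h4, fun x hx => ?_⟩
  rw [Metric.mem_ball, dist_eq_norm] at hx
  rw [Metric.mem_ball, dist_zero_right]
  calc ‖x‖ = ‖(x - p) + p‖ := by rw [sub_add_cancel]
    _ ≤ ‖x - p‖ + ‖p‖ := norm_add_le _ _
    _ < 30 * r := by linarith

/-- integrability of the first moment integrand -/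
theorem blms_integrable {m n : ℕ} {μ : Measure (E (m + n))} {u : E m → E n} {η : E m → E n}
    (hu : Continuous u) (hη : Continuous η) {R D A : ℝ}
    (hsupp : ∀ y, η y ≠ 0 → ‖y‖ < R) (hfin : μ {X | ‖prH m n X‖ < R} < ⊤)
    (hD : ∀ᵐ X ∂μ, ‖prH m n X‖ < R → ‖prV m n X - u (prH m n X)‖ ≤ D) (hA : ∀ y, ‖η y‖ ≤ A) :
    Integrable (fun X => inner ℝ (prV m n X - u (prH m n X)) (η (prH m n X))) μ := by
  have hA0 : 0 ≤ A := (norm_nonneg _).trans (hA 0)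
  have hcont : Continuous fun X : E (m + n) =>
      (inner ℝ (prV m n X - u (prH m n X)) (η (prH m n X)) : ℝ) :=
    (((prV m n).continuous.sub (hu.comp (prH m n).continuous))).inner
      (hη.comp (prH m n).continuous)
  have hopen : IsOpen {X : E (m + n) | ‖prH m n X‖ < R} :=
    isOpen_lt (prH m n).continuous.norm continuous_const
  rw [← integrableOn_iff_integrable_of_support_subset (s := {X | ‖prH m n X‖ < R})]
  · refine Measure.integrableOn_of_bounded (M := D * A) hfin.ne hcont.aestronglyMeasurable ?_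
    filter_upwards [ae_restrict_of_ae hD, ae_restrict_mem hopen.measurableSet] with X h1 h2
    calc ‖(inner ℝ (prV m n X - u (prH m n X)) (η (prH m n X)) : ℝ)‖
        ≤ ‖prV m n X - u (prH m n X)‖ * ‖η (prH m n X)‖ := norm_inner_le_norm _ _
      _ ≤ D * A := mul_le_mul (h1 h2) (hA _) (norm_nonneg _) ((norm_nonneg _).trans (h1 h2))
  · intro X hX
    apply hsupp
    intro h0
    apply hX
    show (inner ℝ (prV m n X - u (prH m n X)) (η (prH m n X)) : ℝ) = 0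
    rw [h0, inner_zero_right]

/-- the Whitney summation of the cell-wise first moment estimates -/
theorem blms_core {m n q e Nov : ℕ} {μ : Measure (E (m + n))} {u : E m → E n}
    (hu : Continuous u) {t : E m → ℝ} {b r c₁ CW Cm D T : ℝ} (ht0 : ∀ y, 0 ≤ t y)
    (htl : ∀ y y', |t y - t y'| ≤ ‖y - y'‖) (htb : ∀ y, t y ≤ b + ‖y‖) (hb : 100 * b ≤ r)
    (hr : 0 < r) (hr1 : r ≤ 1 / 1000) (hc₁ : 0 < c₁) (hc₁' : c₁ ≤ 1 / 100) (hCW : 0 ≤ CW)
    (hCm : 0 ≤ Cm) (hT : 0 ≤ T)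
    {p : ℕ → E m} {χ : ℕ → E m → ℝ} (hχs : ∀ k, ContDiff ℝ ∞ (χ k))
    (hχ01 : ∀ k y, 0 ≤ χ k y ∧ χ k y ≤ 1)
    (hχsupp : ∀ k, tsupport (χ k) ⊆ Metric.ball (p k) (c₁ * t (p k)))
    (hχfin : ∀ y, {k | χ k y ≠ 0}.Finite) (hχsum : ∀ y, 0 < t y → ∑ᶠ k, χ k y = 1)
    (hχd : ∀ k (j : ℕ), j ≤ q → ∀ y, t (p k) ^ j * ‖iteratedFDeriv ℝ j (χ k) y‖ ≤ CW)
    (hχov : ∀ (ρ : Measure (E m)) (A : Set (E m)), MeasurableSet A →
      ∑' k : ℕ, ρ (Metric.ball (p k) (c₁ * t (p k)) ∩ A) ≤ (Nov : ℝ≥0∞) * ρ A)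
    (hzero : ∀ᵐ X ∂μ, t (prH m n X) = 0 → prV m n X - u (prH m n X) = 0)
    (hD : ∀ᵐ X ∂μ, ‖prH m n X‖ < 25 * r → ‖prV m n X - u (prH m n X)‖ ≤ D)
    (hfin : μ {X | ‖prH m n X‖ < 25 * r} < ⊤)
    (hmom : ∀ y₀ : E m, ‖y₀‖ < 3 → 0 < t y₀ → ∀ (η : E m → E n) (A : ℝ), ContDiff ℝ ∞ η →
      tsupport η ⊆ Metric.ball y₀ (c₁ * t y₀) →
      (∀ j : ℕ, j ≤ q → ∀ y, t y₀ ^ j * ‖iteratedFDeriv ℝ j η y‖ ≤ A) →
      |∫ X, inner ℝ (prV m n X - u (prH m n X)) (η (prH m n X)) ∂μ| ≤ Cm * A * t y₀ ^ (m + e))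
    (hTt : ∀ y, ‖y‖ ≤ 40 * r → t y ≤ T)
    {η : E m → E n} {A : ℝ} (hη : ContDiff ℝ ∞ η) (hηs : tsupport η ⊆ Metric.ball 0 (25 * r))
    (hηd : ∀ j : ℕ, j ≤ q → ∀ y, r ^ j * ‖iteratedFDeriv ℝ j η y‖ ≤ A) :
    |∫ X, inner ℝ (prV m n X - u (prH m n X)) (η (prH m n X)) ∂μ|
      ≤ Cm * (58 ^ q * CW * A) * T ^ e / (kap m * c₁ ^ m) * (Nov * (kap m * (30 * r) ^ m)) := by
  have hkap := kap_pos m
  have hηA : ∀ y, ‖η y‖ ≤ A := fun y => by
    have := hηd 0 (Nat.zero_le _) y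
    simpa using this
  have hA0 : 0 ≤ A := (norm_nonneg _).trans (hηA 0)
  have hηsupp : ∀ y, η y ≠ 0 → y ∈ Metric.ball (0 : E m) (25 * r) := fun y hy =>
    hηs (subset_tsupport _ hy)
  have hχmem : ∀ k y, χ k y ≠ 0 → y ∈ Metric.ball (p k) (c₁ * t (p k)) := fun k y hy =>
    hχsupp k (subset_tsupport _ hy)
  -- `χ k y ≠ 0` forces `t y > 0`
  have htpos : ∀ k y, χ k y ≠ 0 → 0 < t y := by
    intro k y hy
    have h1 := hχmem k y hy
    rw [Metric.mem_ball, dist_eq_norm] at h1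
    have h2 : 0 < c₁ * t (p k) := lt_of_le_of_lt (norm_nonneg _) h1
    have h3 : 0 < t (p k) := by
      by_contra h
      push Not at h
      nlinarith
    have h4 := (abs_le.1 (htl y (p k))).1
    nlinarith
  have hle : ∀ y, ∑ᶠ k, χ k y ≤ 1 := by
    intro y
    by_cases hy : 0 < t y
    · exact (hχsum y hy).le
    · have : ∀ k, χ k y = 0 := fun k => by
        by_contra h
        exact hy (htpos k y h)
      simp [this]
  set f : E (m + n) → ℝ := fun X => inner ℝ (prV m n X - u (prH m n X)) (η (prH m n X)) with hf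
  have hfint : Integrable f μ :=
    blms_integrable hu hη.continuous (R := 25 * r) (D := D) (A := A)
      (fun y hy => by simpa using hηsupp y hy) hfin hD hηA
  set B₁ : ℝ := Cm * (58 ^ q * CW * A) * T ^ e / (kap m * c₁ ^ m) with hB₁
  have hB₁0 : 0 ≤ B₁ := by positivity
  set A₀ : Set (E m) := Metric.ball 0 (30 * r) with hA₀
  set v : ℕ → ℝ≥0∞ := fun k =>
    (μH[(m : ℝ)] : Measure (E m)) (Metric.ball (p k) (c₁ * t (p k)) ∩ A₀) with hv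
  have hvsum : ∑' k, v k ≤ (Nov : ℝ≥0∞) * ENNReal.ofReal (kap m * (30 * r) ^ m) := by
    have := hχov (μH[(m : ℝ)] : Measure (E m)) A₀ Metric.isOpen_ball.measurableSet
    rwa [hA₀, hausdorff_ball m 0 (by positivity : 0 < 30 * r)] at this
  have hvfin : ∑' k, v k ≠ ⊤ :=
    (lt_of_le_of_lt hvsum (ENNReal.mul_lt_top (ENNReal.natCast_lt_top _)
      ENNReal.ofReal_lt_top)).ne
  have hvs : Summable fun k => (v k).toReal := ENNReal.summable_toReal hvfin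
  have hvt : ∑' k, (v k).toReal ≤ Nov * (kap m * (30 * r) ^ m) := by
    rw [← ENNReal.tsum_toReal_eq fun k => ENNReal.ne_top_of_tsum_ne_top hvfin k]
    have h1 := ENNReal.toReal_mono (ENNReal.mul_lt_top (ENNReal.natCast_lt_top Nov)
      (ENNReal.ofReal_lt_top (r := kap m * (30 * r) ^ m))).ne hvsum
    rwa [ENNReal.toReal_mul, ENNReal.toReal_natCast, ENNReal.toReal_ofReal (by positivity)] at h1
  have hmain := blms_sum (μ := μ) (f := f) hfint (φ := fun k X => χ k (prH m n X))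
    (fun k => ((hχs k).continuous.comp (prH m n).continuous).aestronglyMeasurable)
    (fun k X => (hχ01 k _).1) (fun k X => (hχ01 k _).2) (fun X => hχfin _) (fun X => hle _)
    (by
      filter_upwards [hzero] with X hX
      by_cases hy : 0 < t (prH m n X)
      · exact Or.inr (hχsum _ hy)
      · left
        have h0 : t (prH m n X) = 0 := le_antisymm (not_lt.1 hy) (ht0 _)
        rw [hf]
        show (inner ℝ (prV m n X - u (prH m n X)) (η (prH m n X)) : ℝ) = 0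
        rw [hX h0, inner_zero_left])
    (w := fun k => B₁ * (v k).toReal) (hvs.mul_left B₁) (fun k => ?_)
  · refine hmain.trans ?_
    rw [tsum_mul_left]
    exact mul_le_mul_of_nonneg_left hvt hB₁0
  · -- one cell
    by_cases hrel : ∃ y, χ k y ≠ 0 ∧ η y ≠ 0
    · obtain ⟨y, hy1, hy2⟩ := hrel
      obtain ⟨h1, h2, h3, h4⟩ := blms_cell htb hb hr hc₁ hc₁' (hχmem k y hy1) (hηsupp y hy2)
      have hmk := hmom (p k) (by linarith) h1 (fun y => χ k y • η y) (58 ^ q * CW * A)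
        ((hχs k).smul hη) ((tsupport_smul_subset_left _ _).trans (hχsupp k))
        (blms_leibniz (hχs k) hη h1.le h2 hCW hA0 (hχd k) hηd)
      have e1 : (fun X => χ k (prH m n X) * f X)
          = fun X => inner ℝ (prV m n X - u (prH m n X)) (χ k (prH m n X) • η (prH m n X)) := by
        funext X
        rw [inner_smul_right]
      rw [e1]
      refine hmk.trans ?_
      have hvk : (v k).toReal = kap m * (c₁ * t (p k)) ^ m := by
        rw [hv]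
        simp only
        rw [Set.inter_eq_left.2 h4, hausdorff_ball m _ (by positivity),
          ENNReal.toReal_ofReal (by positivity)]
      rw [hvk, hB₁]
      have h5 : t (p k) ^ e ≤ T ^ e := pow_le_pow_left₀ h1.le (hTt _ (by linarith)) _
      calc Cm * (58 ^ q * CW * A) * t (p k) ^ (m + e)
          = Cm * (58 ^ q * CW * A) * t (p k) ^ e * t (p k) ^ m := by rw [pow_add]; ring
        _ ≤ Cm * (58 ^ q * CW * A) * T ^ e * t (p k) ^ m := by gcongr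
        _ = Cm * (58 ^ q * CW * A) * T ^ e / (kap m * c₁ ^ m) * (kap m * (c₁ * t (p k)) ^ m) := by
            rw [mul_pow]
            field_simp
    · have e1 : (fun X => χ k (prH m n X) * f X) = fun _ => 0 := by
        funext X
        by_cases h1 : χ k (prH m n X) = 0
        · rw [h1, zero_mul]
        · have h2 : η (prH m n X) = 0 := by
            by_contra h2
            exact hrel ⟨_, h1, h2⟩
          rw [hf]
          show χ k (prH m n X) * (inner ℝ (prV m n X - u (prH m n X)) (η (prH m n X)) : ℝ) = 0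
          rw [h2, inner_zero_right, mul_zero]
      rw [e1]
      simp only [integral_zero, abs_zero]
      positivity

/-- **First moment of the vertical heights, smooth tests at the scale `r`** (leaf `L-Blow-moment-smooth`; CO "Vanishing of the first
height moment", first half).
PLAN.  `Tool.whitney_pou m π.q hm π.c₁` for `t = tent S.ℓ` (`tent_lip`, `tent_nonneg`).  On the support `d = prV X - u (prH X)` vanishes
where `t (prH X) = 0` (`S.height_v`, `k ≥ 1`), so `∫ ⟨d, η⟩ = Σ_k ∫ ⟨d, χ_k η⟩` (`hasSum_integral_of_summable_norm`).  A cell meeting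
`ball 0 (25 r)` has `|p_k| ≤ 25 r + c₁ (b + |p_k|)`, so `|p_k| ≤ 28 r`, `t_k = t(p_k) ≤ 29 r`.  `S.moment p_k _ _ (χ_k η) (C A)`:
`t_k^j |D^j (χ_k η)| ≤ 2^j C_W 29^j A` (`norm_iteratedFDeriv_mul_le`-type bound for `smul`).  Sum: `Σ t_k^m ≤ C r^m` (last item of
`whitney_pou` with `ρ = μH[m]`, `A = ball 0 (30 r)`), `t_k^{2k-1} ≤ τ^{2k-1}`, `τ^{2k+m} ≤ a² r^{m+2} / c` (`tent_bd`). -/
theorem moment_smooth (m n Q : ℕ) (hm : 1 ≤ m) (hn : 1 ≤ n) (hQ : 1 ≤ Q) :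
    Stm m (fun π => ∀ C₀ : ℝ, ∃ C : ℝ, 0 < C ∧ ∀ K : Ctx m n Q π C₀, ∀ (η : E m → E n) (A : ℝ),
      ContDiff ℝ ∞ η → tsupport η ⊆ Metric.ball 0 (25 * K.r) →
      (∀ j : ℕ, j ≤ π.q → ∀ y, K.r ^ j * ‖iteratedFDeriv ℝ j η y‖ ≤ A) →
      |∫ X, inner ℝ (prV m n X - K.S.N.u (prH m n X)) (η (prH m n X)) ∂K.S.N.μ| ^ (2 * π.k + m)
        ≤ C * (A * K.r ^ m) ^ (2 * π.k + m) * (K.a ^ 2 * K.r ^ (m + 2)) ^ (2 * π.k - 1)) := by
  have hS : Stm m (fun π => 0 < π.m₀ ∧ π.hc < 2 / 9) :=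
    ⟨0, fun B _ _ => ((Ev.pos B).and (Ev.hc_lt B (2 / 9) (by norm_num))).mono
      fun π _ h => ⟨h.1.2.2.1, h.2⟩⟩
  refine ((((loc m n Q hm hn hQ).and (energy m n Q hm hn hQ)).and
    (tent_bd m n Q hm hn hQ)).and hS).mono fun π hπ H C₀ => ?_
  obtain ⟨⟨⟨hL, hE⟩, hTB⟩, hm₀, hhc⟩ := H
  obtain ⟨CE, hCE, hE⟩ := hE C₀
  obtain ⟨cT, hcT, hTB⟩ := hTB C₀
  obtain ⟨CW, Nov, hCW, hW⟩ :=
    Tool.whitney_pou m π.q hm π.c₁ hπ.c₁_pos (hπ.c₁_le.trans (by norm_num))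
  have hkap := kap_pos m
  have hC0 : 0 < π.C := lt_of_lt_of_le one_pos hπ.C_ge
  have hc₁ := hπ.c₁_pos
  have hk := hπ.k_gt
  obtain ⟨C₁, hC₁def⟩ : ∃ C₁ : ℝ, C₁ = π.C * π.m₀ ^ 2 * (58 ^ π.q * CW) / (kap m * π.c₁ ^ m) *
      (Nov * (kap m * 30 ^ m)) + 1 := ⟨_, rfl⟩
  have hC₁ : 0 < C₁ := by rw [hC₁def]; positivity
  refine ⟨C₁ ^ (2 * π.k + m) / cT ^ (2 * π.k - 1), by positivity, fun K η A hη hηs hηd => ?_⟩
  obtain ⟨hgeo, -, -, hr1, -, hloc⟩ := hL C₀ K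
  obtain ⟨-, -, hE3, -⟩ := hE K
  have hr := K.r_pos
  have ha0 := K.a_pos
  have hfail := K.S.isFail
  obtain ⟨p, χ, h1, h2, h3, h4, h5, h6, -, h8⟩ :=
    hW (tent K.S.ℓ) (tent_nonneg hfail) (tent_lip hfail)
  have hA0 : 0 ≤ A := by
    have := hηd 0 (Nat.zero_le _) 0
    simp only [pow_zero, one_mul] at this
    exact (norm_nonneg _).trans this
  -- the bound `T` for the tents
  have hM0 : 0 ≤ K.a ^ 2 * K.r ^ (m + 2) / cT := by positivity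
  obtain ⟨T, hT0, hTpow⟩ : ∃ T : ℝ, 0 ≤ T ∧ T ^ (2 * π.k + m) = K.a ^ 2 * K.r ^ (m + 2) / cT :=
    ⟨(K.a ^ 2 * K.r ^ (m + 2) / cT) ^ (((2 * π.k + m : ℕ) : ℝ)⁻¹), Real.rpow_nonneg hM0 _,
      Real.rpow_inv_natCast_pow hM0 (by omega)⟩
  have hTt : ∀ y, ‖y‖ ≤ 40 * K.r → tent K.S.ℓ y ≤ T := by
    intro y hy
    have h9 := hTB K y hy
    have h10 : tent K.S.ℓ y ^ (2 * π.k + m) ≤ T ^ (2 * π.k + m) := by
      rw [hTpow, le_div_iff₀ hcT]
      linarith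
    exact (pow_le_pow_iff_left₀ (tent_nonneg hfail y) hT0 (by omega)).1 h10
  -- almost every point is a support point of the cylinder
  have hNμ : K.S.N.μ = K.S.N.W.μ.restrict (Cyl K.S.N.u (Metric.ball 0 4) π.hc) := by
    unfold NCyl.μ
    rw [K.S.N_Ω, K.S.N_h]
    rfl
  have hCylO : IsOpen (Cyl K.S.N.u (Metric.ball 0 4) π.hc) :=
    cyla_isOpen hgeo Metric.isOpen_ball hhc.le
  have hae : ∀ᵐ X ∂K.S.N.μ, K.S.In X := by
    rw [hNμ]
    have hs : ∀ᵐ x ∂K.S.N.W.μ, x ∈ K.S.N.W.support := by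
      have := measure_eq_zero_iff_ae_notMem.1 K.S.N.W.μ_compl_support
      filter_upwards [this] with x hx
      exact not_not.1 hx
    filter_upwards [ae_restrict_of_ae hs, ae_restrict_mem hCylO.measurableSet] with X hX1 hX2
    exact ⟨hX1, hX2⟩
  have hfin : K.S.N.μ {X | ‖prH m n X‖ < 25 * K.r} < ⊤ := by
    refine lt_of_le_of_lt (le_trans (measure_mono_ae ?_) hE3) ENNReal.ofReal_lt_top
    filter_upwards [hae] with X hX hX25
    exact (hloc X hX (Or.inl (by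
      have : ‖prH m n X‖ < 25 * K.r := hX25
      linarith))).2.2.2.1
  have hcore := blms_core (μ := K.S.N.μ) (u := K.S.N.u) (q := π.q) (e := 2 * π.k - 1) (Nov := Nov)
    hgeo.differentiable.continuous (t := tent K.S.ℓ) (b := K.S.b) (r := K.r) (c₁ := π.c₁)
    (CW := CW) (Cm := π.C * π.m₀ ^ 2) (D := K.r / 100) (T := T) (tent_nonneg hfail)
    (tent_lip hfail) (tent_le_add hfail) K.r_lo hr hr1 hc₁ hπ.c₁_le hCW.le (by positivity) hT0
    h1 h2 h3 h4 h5 h6 h8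
    (by
      filter_upwards [hae] with X hX h0
      have h9 := K.S.height_v X hX.1 hX.2
      rw [h0, zero_pow (by show π.k ≠ 0; omega), mul_zero] at h9
      exact norm_le_zero_iff.1 h9)
    (by
      filter_upwards [hae] with X hX hX25
      exact (hloc X hX (Or.inl (by linarith))).2.1)
    hfin
    (by
      intro y₀ hy₀ ht₀ η' A' hη' hs' hd'
      have h9 := K.S.moment y₀ hy₀ ht₀ η' A' hη' hs' hd'
      have e1 : m + 2 * π.k - 1 = m + (2 * π.k - 1) := by omega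
      have h10 : |∫ X, inner ℝ (prV m n X - K.S.N.u (prH m n X)) (η' (prH m n X)) ∂K.S.N.μ|
          ≤ π.C * A' * π.m₀ ^ 2 * tent K.S.ℓ y₀ ^ (m + 2 * π.k - 1) := h9
      rw [e1] at h10
      refine h10.trans (le_of_eq ?_)
      ring)
    hTt hη hηs hηd
  have hI : |∫ X, inner ℝ (prV m n X - K.S.N.u (prH m n X)) (η (prH m n X)) ∂K.S.N.μ|
      ≤ C₁ * (A * K.r ^ m) * T ^ (2 * π.k - 1) := by
    refine hcore.trans ?_
    have e2 : π.C * π.m₀ ^ 2 * (58 ^ π.q * CW * A) * T ^ (2 * π.k - 1) / (kap m * π.c₁ ^ m) *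
        (Nov * (kap m * (30 * K.r) ^ m))
        = (π.C * π.m₀ ^ 2 * (58 ^ π.q * CW) / (kap m * π.c₁ ^ m) * (Nov * (kap m * 30 ^ m))) *
          ((A * K.r ^ m) * T ^ (2 * π.k - 1)) := by
      rw [mul_pow]
      ring
    rw [e2, hC₁def, mul_assoc _ (A * K.r ^ m)]
    have : 0 ≤ (A * K.r ^ m) * T ^ (2 * π.k - 1) := by positivity
    nlinarith
  calc |∫ X, inner ℝ (prV m n X - K.S.N.u (prH m n X)) (η (prH m n X)) ∂K.S.N.μ| ^ (2 * π.k + m)
      ≤ (C₁ * (A * K.r ^ m) * T ^ (2 * π.k - 1)) ^ (2 * π.k + m) :=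
        pow_le_pow_left₀ (abs_nonneg _) hI _
    _ = C₁ ^ (2 * π.k + m) * (A * K.r ^ m) ^ (2 * π.k + m) *
          (T ^ (2 * π.k + m)) ^ (2 * π.k - 1) := by
        rw [mul_pow, mul_pow, ← pow_mul, ← pow_mul, mul_comm (2 * π.k - 1)]
    _ = C₁ ^ (2 * π.k + m) / cT ^ (2 * π.k - 1) * (A * K.r ^ m) ^ (2 * π.k + m) *
          (K.a ^ 2 * K.r ^ (m + 2)) ^ (2 * π.k - 1) := by
        rw [hTpow, div_pow]
        field_simp

/-- **First moment of the vertical heights, equicontinuous tests** (leaf `L-Blow-moment-vert`).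
PLAN.  `Tool.grid_pou m π.q 1` at the mesh `l = min ϑ 1`: `ξ' = Σ_κ ξ(x_κ) χ_κ` is smooth, `|ξ' - ξ| ≤ ε`, supported in `ball 0 21`,
`|D^j ξ'| ≤ Nov C l^{-j}`.  `moment_smooth` for `η = ξ'(· / r)`: `|∫| ≤ C(ϑ) a^{κ} a r^{m+1}`, `κ = (2k - 2 - m)/(2k + m) > 0`
(take `(2k+m)`-th powers), `≤ ε a r^{m+1}` for `a ≤ a₀(ε, ϑ)`.  Remainder: `|d| ≤ 2 |zz| ≤ 2 C a r` (`sup_height`; `|X| ≤ 25 r` by `loc`
and `C m₀ ≤ 1/10`), mass `≤ C r^m` (`energy`, item 3). -/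
theorem moment_vert (m n Q : ℕ) (hm : 1 ≤ m) (hn : 1 ≤ n) (hQ : 1 ≤ Q) :
    Stm m (fun π => ∀ C₀ : ℝ, ∃ C : ℝ, 0 < C ∧ ∀ ε ϑ : ℝ, 0 < ε → 0 < ϑ → ∃ a₀ : ℝ, 0 < a₀ ∧
      ∀ K : Ctx m n Q π C₀, K.a ≤ a₀ → ∀ ξ : E m → E n, Continuous ξ → (∀ x, ‖ξ x‖ ≤ 1) →
      (∀ x, 20 ≤ ‖x‖ → ξ x = 0) → (∀ x x', ‖x - x'‖ ≤ ϑ → ‖ξ x - ξ x'‖ ≤ ε) →
      |∫ X, inner ℝ (prV m n X - K.S.N.u (prH m n X)) (ξ (K.r⁻¹ • prH m n X)) ∂K.S.N.μ|
        ≤ C * ε * K.a * K.r ^ (m + 1)) :=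
  moment_vert_of m n Q
    (mv_ctx m n Q (loc m n Q hm hn hQ) (energy m n Q hm hn hQ) (sup_height m n Q hm hn hQ))
    (moment_smooth m n Q hm hn hQ)

/-- **First moment of the normal heights** (leaf `L-Blow-moment-norm`; CO "Finally convert from vertical graph-height differences to
normal displacements").
PLAN.  `X = F y + z = F w + (0, d)`, `y = npr X`, `w = prH X`.  `|w - y| ≤ |z|`, `|d| ≤ 2 |z|`,
`z = P_v(y) (0, d) + P_v(y) (F w - F y - dF(y)(w - y))`, remainder `≤ C m₀ |z|²`.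
`⟨ζ(y/r), P_v(y) (0,d)⟩ = ⟨ξ(y/r), d⟩`, `ξ x = prV (P_v(r x) ζ x)`; `‖P_v(y) - P_v(y')‖ ≤ C |y - y'|`, so `ξ` is `(ϑ', 2ε)`-equicontinuous with
`ϑ' = min ϑ (ε / C)`; `|y - w| / r ≤ C a ≤ ϑ'`.  `moment_vert` for `ξ`; errors by `sup_height`, `energy` (item 3), `loc`. -/
theorem moment_norm (m n Q : ℕ) (hm : 1 ≤ m) (hn : 1 ≤ n) (hQ : 1 ≤ Q) :
    Stm m (fun π => ∀ C₀ : ℝ, ∃ C : ℝ, 0 < C ∧ ∀ ε ϑ : ℝ, 0 < ε → 0 < ϑ → ∃ a₀ : ℝ, 0 < a₀ ∧
      ∀ K : Ctx m n Q π C₀, K.a ≤ a₀ → ∀ ζ : E m → E (m + n), Continuous ζ → (∀ x, ‖ζ x‖ ≤ 1) →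
      (∀ x, 18 ≤ ‖x‖ → ζ x = 0) → (∀ x x', ‖x - x'‖ ≤ ϑ → ‖ζ x - ζ x'‖ ≤ ε) →
      |∫ X, inner ℝ (ζ (K.r⁻¹ • npr K.S.N.u X)) (zz K.S.N.u X) ∂K.S.N.μ|
        ≤ C * ε * K.a * K.r ^ (m + 1)) :=
  moment_norm_of m n Q
    (mv_ctx m n Q (loc m n Q hm hn hQ) (energy m n Q hm hn hQ) (sup_height m n Q hm hn hQ))
    (moment_vert m n Q hm hn hQ)

end Claimed.Agent.R322.Blow
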