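import Claimed.Agent.R322.Pack046
import Claimed.Agent.R322.Pack048
import Claimed.Agent.R322.Pack017

/-!
# CO Proposition 5.1, target units: mass estimates for a cylinder of a good varifold

Abstract part of the leaves `lamT`, `nuT`, `massT` of `Blow/Target.lean`: `N` is a normal cylinder over
`ball 0 12` of a varifold which is `δ`-good, the reference graph is `ε`-close to the horizontal plane.
-/

set_option autoImplicit false

open scoped ENNReal ContDiff Topology
open MeasureTheory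

namespace Claimed.Agent.R322.Blow

open Claimed.Agent.R322.Tube Claimed.Agent.R322.Freq Claimed.Agent.R322.Lin

variable {m n : ℕ}

/-! ### truncated cones -/

/-- `χ X = max 0 (min 1 (R + 1 - |X - p|))` -/
noncomputable def tmCone {N : ℕ} (p : E N) (R : ℝ) (X : E N) : ℝ := max 0 (min 1 (R + 1 - ‖X - p‖))

theorem tmCone_lip {N : ℕ} (p : E N) (R : ℝ) : LipschitzWith 1 (tmCone p R) := by
  have h1 : LipschitzWith 1 (fun X : E N => R + 1 - ‖X - p‖) := by
    refine LipschitzWith.of_dist_le_mul fun X Y => ?_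
    rw [Real.dist_eq, dist_eq_norm, NNReal.coe_one, one_mul]
    have e : R + 1 - ‖X - p‖ - (R + 1 - ‖Y - p‖) = ‖Y - p‖ - ‖X - p‖ := by ring
    rw [e]
    refine (abs_norm_sub_norm_le _ _).trans (le_of_eq ?_)
    rw [← norm_neg]
    congr 1
    abel
  exact (h1.const_min 1).const_max 0

theorem tmCone_nonneg {N : ℕ} (p : E N) (R : ℝ) (X : E N) : 0 ≤ tmCone p R X := le_max_left _ _

theorem tmCone_le_one {N : ℕ} (p : E N) (R : ℝ) (X : E N) : tmCone p R X ≤ 1 :=
  max_le zero_le_one (min_le_left _ _)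

theorem tmCone_abs_le {N : ℕ} (p : E N) (R : ℝ) (X : E N) : |tmCone p R X| ≤ 1 := by
  rw [abs_of_nonneg (tmCone_nonneg p R X)]; exact tmCone_le_one p R X

theorem tmCone_eq_one {N : ℕ} {p : E N} {R : ℝ} {X : E N} (h : ‖X - p‖ ≤ R) : tmCone p R X = 1 := by
  unfold tmCone
  rw [min_eq_left (by linarith), max_eq_right zero_le_one]

theorem tmCone_eq_zero {N : ℕ} {p : E N} {R : ℝ} {X : E N} (h : R + 1 ≤ ‖X - p‖) :
    tmCone p R X = 0 := by
  unfold tmCone
  exact max_eq_left ((min_le_right _ _).trans (by linarith))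

theorem tmCone_tsupport {N : ℕ} (p : E N) (R : ℝ) :
    tsupport (tmCone p R) ⊆ Metric.closedBall p (R + 1) :=
  closure_minimal (fun X hX => by
    by_contra h
    rw [Metric.mem_closedBall, dist_eq_norm, not_le] at h
    exact hX (tmCone_eq_zero h.le)) Metric.isClosed_closedBall

theorem tm_norm_mkHV_zero (x : E m) : ‖(mkHV x 0 : E (m + n))‖ = ‖x‖ := by
  rw [← inH_apply, norm_inH]

theorem tm_norm_mkHV_sub (y x : E m) : ‖(mkHV y 0 : E (m + n)) - mkHV x 0‖ = ‖y - x‖ := by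
  rw [← inH_apply, ← inH_apply, ← map_sub, norm_inH]

theorem tm_norm_mkHV_le (y : E m) (z : E n) : ‖mkHV y z‖ ≤ ‖y‖ + ‖z‖ := by
  rw [mkHV_eq]
  refine (norm_add_le _ _).trans ?_
  rw [norm_inH, norm_inV]

theorem tm_norm_le_prH_prV (X : E (m + n)) : ‖X‖ ≤ ‖prH m n X‖ + ‖prV m n X‖ := by
  conv_lhs => rw [← mkHV_prH_prV X]
  exact tm_norm_mkHV_le _ _

/-! ### mass of balls centred on the plane -/

theorem tm_mass_ball {W : SIV m n} {Q : ℕ} {δ : ℝ} (hW : IsGood W Q δ) (hδ : δ ≤ 1) (x : E m)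
    {R : ℝ} (hR : 0 ≤ R) (hx : ‖x‖ + R + 1 ≤ 1000) :
    W.μ (Metric.closedBall (mkHV x 0) R) ≤ ENNReal.ofReal (Q * kap m * (R + 1) ^ m + 1) := by
  have := isAddHaar_hausdorff m
  obtain ⟨p, hp⟩ : ∃ p : E (m + n), p = mkHV x 0 := ⟨_, rfl⟩
  rw [← hp]
  have hpn : ‖p‖ = ‖x‖ := by rw [hp, tm_norm_mkHV_zero]
  have hsub : Metric.closedBall p (R + 1) ⊆ Metric.closedBall 0 1000 := by
    intro X hX
    rw [Metric.mem_closedBall, dist_eq_norm] at hX
    rw [Metric.mem_closedBall, dist_zero_right]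
    have : ‖X‖ ≤ ‖X - p‖ + ‖p‖ := by
      have := norm_add_le (X - p) p
      rwa [sub_add_cancel] at this
    linarith
  have hs := (tmCone_tsupport p R).trans hsub
  have hmass := hW.mass (tmCone p R) (tmCone_abs_le p R) (tmCone_lip p R) hs
  have hc : HasCompactSupport (tmCone p R) :=
    (isCompact_closedBall (0 : E (m + n)) 1000).of_isClosed_subset (isClosed_tsupport _) hs
  have hint : Integrable (tmCone p R) W.μ :=
    W.integrable_of_continuous (tmCone_lip p R).continuous hc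
      (hs.trans ((Metric.closedBall_subset_closedBall (by norm_num)).trans hW.dom))
  have hflat : ∫ y : E m, tmCone p R (mkHV y 0) ∂μH[(m : ℝ)] ≤ kap m * (R + 1) ^ m := by
    have h1 : ∫ y : E m, tmCone p R (mkHV y 0) ∂μH[(m : ℝ)]
        ≤ ∫ y : E m, (Metric.closedBall x (R + 1)).indicator (fun _ => (1 : ℝ)) y ∂μH[(m : ℝ)] := by
      refine integral_mono_of_nonneg (Filter.Eventually.of_forall fun y => tmCone_nonneg _ _ _)
        ((integrable_indicator_iff Metric.isClosed_closedBall.measurableSet).2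
          (integrableOn_const (by
            rw [hausdorff_closedBall m x (by linarith)]; exact ENNReal.ofReal_ne_top)))
        (Filter.Eventually.of_forall fun y => ?_)
      by_cases hy : y ∈ Metric.closedBall x (R + 1)
      · simp only [Set.indicator_of_mem hy]
        exact tmCone_le_one _ _ _
      · simp only [Set.indicator_of_notMem hy]
        rw [Metric.mem_closedBall, dist_eq_norm, not_le] at hy
        refine le_of_eq (tmCone_eq_zero ?_)
        rw [hp, tm_norm_mkHV_sub]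
        exact hy.le
    refine h1.trans (le_of_eq ?_)
    rw [integral_indicator Metric.isClosed_closedBall.measurableSet, setIntegral_const, smul_eq_mul,
      mul_one, Measure.real, hausdorff_closedBall m x (by linarith),
      ENNReal.toReal_ofReal (by have := kap_pos m; positivity)]
  have hle : ∫ X, tmCone p R X ∂W.μ ≤ Q * kap m * (R + 1) ^ m + 1 := by
    have h1 := (abs_le.1 hmass).2
    have h2 : (Q : ℝ) * ∫ y : E m, tmCone p R (mkHV y 0) ∂μH[(m : ℝ)]
        ≤ Q * (kap m * (R + 1) ^ m) := mul_le_mul_of_nonneg_left hflat (Nat.cast_nonneg _)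
    linarith
  calc W.μ (Metric.closedBall p R)
      = ∫⁻ X, (Metric.closedBall p R).indicator 1 X ∂W.μ :=
        (lintegral_indicator_one Metric.isClosed_closedBall.measurableSet).symm
    _ ≤ ∫⁻ X, ENNReal.ofReal (tmCone p R X) ∂W.μ := by
        refine lintegral_mono fun X => ?_
        by_cases hX : X ∈ Metric.closedBall p R
        · rw [Set.indicator_of_mem hX]
          rw [Metric.mem_closedBall, dist_eq_norm] at hX
          rw [tmCone_eq_one hX]
          simp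
        · rw [Set.indicator_of_notMem hX]
          exact zero_le
    _ = ENNReal.ofReal (∫ X, tmCone p R X ∂W.μ) :=
        (ofReal_integral_eq_lintegral_ofReal hint
          (Filter.Eventually.of_forall fun X => tmCone_nonneg _ _ _)).symm
    _ ≤ _ := ENNReal.ofReal_le_ofReal hle

/-! ### nearest points of an almost horizontal graph -/

theorem tm_zz_le {u : E m → E n} (hu : Continuous u) (X : E (m + n)) :
    ‖zz u X‖ ≤ ‖prV m n X - u (prH m n X)‖ := by
  have h1 := npr_spec hu X (prH m n X)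
  have e : X - Fg u (prH m n X) = inV m n (prV m n X - u (prH m n X)) := by
    conv_lhs => rw [← mkHV_prH_prV X]
    unfold Fg
    rw [prH_mkHV, ← mkHV_sub, sub_self, inV_apply]
  rw [e, norm_inV] at h1
  exact h1

theorem tm_npr_sub_le (u : E m → E n) (X : E (m + n)) : ‖npr u X - prH m n X‖ ≤ ‖zz u X‖ := by
  have e : prH m n (zz u X) = prH m n X - npr u X := by
    unfold zz Fg
    rw [map_sub, prH_mkHV]
  rw [← norm_neg, neg_sub, ← e]
  exact norm_prH_le _

theorem tm_sub_le (u : E m → E n) (X : E (m + n)) (x : E m) :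
    ‖X - mkHV x 0‖ ≤ ‖zz u X‖ + (‖npr u X - x‖ + ‖u (npr u X)‖) := by
  have e : X - mkHV x 0 = zz u X + mkHV (npr u X - x) (u (npr u X)) := by
    have : (mkHV (npr u X - x) (u (npr u X)) : E (m + n)) = Fg u (npr u X) - mkHV x 0 := by
      unfold Fg
      rw [← mkHV_sub, sub_zero]
    rw [this]
    unfold zz
    abel
  rw [e]
  exact (norm_add_le _ _).trans (add_le_add le_rfl (tm_norm_mkHV_le _ _))

/-! ### a cylinder of a good varifold over an almost horizontal graph -/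

/-- `N` is a cylinder over `ball 0 12` of a `δ`-good varifold, over a graph of height `≤ ε`. -/
structure GCyl (N : NCyl m n) (Q : ℕ) (δ ε : ℝ) : Prop where
  good : IsGood N.W Q δ
  Ω : N.Ω = Metric.ball 0 12
  ok : CylOK N
  small : ∀ y, ‖N.u y‖ ≤ ε
  flat : ∀ X ∈ N.W.support, X ∈ Cyl N.u N.Ω N.h → ‖X‖ ≤ 14

namespace GCyl

variable {N : NCyl m n} {Q : ℕ} {δ ε : ℝ}

theorem cont (h : GCyl N Q δ ε) : Continuous N.u := h.ok.smooth.continuous

/-- total mass of the cylinder -/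
theorem mass_univ (h : GCyl N Q δ ε) (hδ : δ ≤ 1) :
    N.μ Set.univ ≤ ENNReal.ofReal (Q * kap m * 15 ^ m + 1) := by
  have h1 : N.μ (Metric.closedBall (0 : E (m + n)) 14)ᶜ = 0 := by
    refine measure_mono_null (fun X hX => ?_) h.ok.carrier
    intro hc
    refine hX ?_
    rw [Metric.mem_closedBall, dist_zero_right]
    exact h.flat X hc.1 hc.2.1
  have h2 : N.μ Set.univ ≤ N.μ (Metric.closedBall (0 : E (m + n)) 14) := by
    calc N.μ Set.univ ≤ N.μ (Metric.closedBall (0 : E (m + n)) 14)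
          + N.μ (Metric.closedBall (0 : E (m + n)) 14)ᶜ := by
          rw [← Set.union_compl_self (Metric.closedBall (0 : E (m + n)) 14)]
          exact measure_union_le _ _
      _ = _ := by rw [h1, add_zero]
  have h3 := tm_mass_ball h.good hδ (0 : E m) (R := 14) (by norm_num) (by rw [norm_zero]; norm_num)
  have e0 : (mkHV (0 : E m) (0 : E n) : E (m + n)) = 0 := by rw [← inH_apply, map_zero]
  rw [e0] at h3
  refine h2.trans ((Measure.restrict_le_self _).trans (h3.trans (le_of_eq ?_)))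
  norm_num

theorem isFinite (h : GCyl N Q δ ε) (hδ : δ ≤ 1) : IsFiniteMeasure N.μ :=
  ⟨(h.mass_univ hδ).trans_lt ENNReal.ofReal_lt_top⟩

/-- mass over unit balls of the base -/
theorem nu_ball (h : GCyl N Q δ ε) (hδ : δ ≤ 1) (hε : N.h + ε ≤ 1) {x : E m} (hx : ‖x‖ ≤ 8) :
    N.nu (Metric.ball x 1) ≤ ENNReal.ofReal (Q * kap m * 3 ^ m + 1) := by
  rw [h.ok.nu_apply Metric.isOpen_ball.measurableSet]
  have h1 : N.μ ({X | npr N.u X ∈ Metric.ball x 1} \ Metric.closedBall (mkHV x 0) 2) = 0 := by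
    refine measure_mono_null (fun X hX => ?_) h.ok.carrier
    intro hc
    refine hX.2 ?_
    rw [Metric.mem_closedBall, dist_eq_norm]
    have h2 := tm_sub_le N.u X x
    have h3 : ‖npr N.u X - x‖ < 1 := by
      have := hX.1
      rwa [Set.mem_ofPred_eq, Metric.mem_ball, dist_eq_norm] at this
    have h4 := h.small (npr N.u X)
    have h5 := hc.2.1.2
    linarith
  have h2 : N.μ {X | npr N.u X ∈ Metric.ball x 1} ≤ N.μ (Metric.closedBall (mkHV x 0) 2) := by
    calc N.μ {X | npr N.u X ∈ Metric.ball x 1}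
        ≤ N.μ (Metric.closedBall (mkHV x 0) 2 ∪
            ({X | npr N.u X ∈ Metric.ball x 1} \ Metric.closedBall (mkHV x 0) 2)) := by
          refine measure_mono fun X hX => ?_
          by_cases hc : X ∈ Metric.closedBall (mkHV x 0 : E (m + n)) 2
          · exact Or.inl hc
          · exact Or.inr ⟨hX, hc⟩
      _ ≤ _ := (measure_union_le _ _).trans (by rw [h1, add_zero])
  have h3 := tm_mass_ball h.good hδ x (R := 2) (by norm_num) (by linarith)
  refine h2.trans ((Measure.restrict_le_self _).trans (h3.trans (le_of_eq ?_)))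
  norm_num

/-- the geometric error measure -/
theorem Lm_le (h : GCyl N Q δ ε) (hδ : δ ≤ 1) {C₁ a : ℝ}
    (hz : ∀ X ∈ N.W.support, X ∈ Cyl N.u N.Ω N.h → ‖zz N.u X‖ ≤ C₁ * a)
    (hH : ∀ y ∈ Metric.ball (0 : E m) 12, ‖HS N.u y‖ + Real.sqrt (DHSsq N.u y) ≤ a) :
    N.Lm (Metric.ball 0 12) ≤ ENNReal.ofReal ((C₁ ^ 2 + 2) * (Q * kap m * 15 ^ m + 1) * a ^ 2) := by
  have hk := kap_pos m
  unfold NCyl.Lm
  rw [← h.Ω, h.ok.push_Ω]
  calc ∫⁻ X, ENNReal.ofReal (lam N.u X) ∂N.μ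
      ≤ ∫⁻ _X, ENNReal.ofReal ((C₁ ^ 2 + 2) * a ^ 2) ∂N.μ := by
        refine lintegral_mono_ae ?_
        filter_upwards [h.ok.ae_mem] with X hX
        refine ENNReal.ofReal_le_ofReal ?_
        have h1 := hz X hX.1 hX.2.1
        have h2 := hH (npr N.u X) (h.Ω ▸ hX.2.1.1)
        have hs := Real.sqrt_nonneg (DHSsq N.u (npr N.u X))
        have hn := norm_nonneg (HS N.u (npr N.u X))
        have h3 : ‖zz N.u X‖ ^ 2 ≤ (C₁ * a) ^ 2 := pow_le_pow_left₀ (norm_nonneg _) h1 2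
        have h4 : ‖HS N.u (npr N.u X)‖ ^ 2 ≤ a ^ 2 := pow_le_pow_left₀ hn (by linarith) 2
        have h5 : DHSsq N.u (npr N.u X) ≤ a ^ 2 := by
          rcases le_total 0 (DHSsq N.u (npr N.u X)) with h0 | h0
          · rw [← Real.sq_sqrt h0]
            exact pow_le_pow_left₀ hs (by linarith) 2
          · exact h0.trans (sq_nonneg _)
        unfold lam
        nlinarith
    _ = ENNReal.ofReal ((C₁ ^ 2 + 2) * a ^ 2) * N.μ Set.univ := lintegral_const _
    _ ≤ ENNReal.ofReal ((C₁ ^ 2 + 2) * a ^ 2) * ENNReal.ofReal (Q * kap m * 15 ^ m + 1) := by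
        gcongr; exact h.mass_univ hδ
    _ = _ := by
        rw [← ENNReal.ofReal_mul (by positivity)]
        congr 1
        ring

end GCyl

/-! ### smooth averages -/

/-- vertical cutoff -/
noncomputable def tmKap (t : ℝ) : ℝ := max 0 (min 1 (2 - 2 * t))

theorem tmKap_lip : LipschitzWith 2 tmKap := by
  have h1 : LipschitzWith 2 (fun t : ℝ => 2 - 2 * t) := by
    refine LipschitzWith.of_dist_le_mul fun s t => ?_
    rw [Real.dist_eq, Real.dist_eq]
    have e : 2 - 2 * s - (2 - 2 * t) = -(2 * (s - t)) := by ring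
    rw [e, abs_neg, abs_mul]
    simp
  exact (h1.const_min 1).const_max 0

theorem tmKap_nonneg (t : ℝ) : 0 ≤ tmKap t := le_max_left _ _

theorem tmKap_le_one (t : ℝ) : tmKap t ≤ 1 := max_le zero_le_one (min_le_left _ _)

theorem tmKap_eq_one {t : ℝ} (h : t ≤ 1 / 2) : tmKap t = 1 := by
  unfold tmKap
  rw [min_eq_left (by linarith), max_eq_right zero_le_one]

theorem tmKap_eq_zero {t : ℝ} (h : 1 ≤ t) : tmKap t = 0 := by
  unfold tmKap
  exact max_eq_left ((min_le_right _ _).trans (by linarith))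

/-- flat test function -/
noncomputable def tmFlat (η : E m → ℝ) (x : E m) (X : E (m + n)) : ℝ :=
  η (prH m n X - x) * tmKap ‖prV m n X‖

section Flat

variable {η : E m → ℝ} {B : ℝ} {L₀ : NNReal}

theorem tmFlat_abs_le (hB : ∀ y, |η y| ≤ B) (x : E m) (X : E (m + n)) : |tmFlat η x X| ≤ B := by
  unfold tmFlat
  rw [abs_mul, abs_of_nonneg (tmKap_nonneg _)]
  calc |η (prH m n X - x)| * tmKap ‖prV m n X‖ ≤ B * 1 :=
        mul_le_mul (hB _) (tmKap_le_one _) (tmKap_nonneg _) ((abs_nonneg _).trans (hB 0))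
    _ = B := mul_one B

theorem tmFlat_sub_le (hB : ∀ y, |η y| ≤ B) (hL : LipschitzWith L₀ η) (x : E m)
    (X Y : E (m + n)) : |tmFlat η x X - tmFlat η x Y| ≤ (L₀ + 2 * B) * ‖X - Y‖ := by
  have hB0 : 0 ≤ B := (abs_nonneg _).trans (hB 0)
  have e : tmFlat η x X - tmFlat η x Y
      = (η (prH m n X - x) - η (prH m n Y - x)) * tmKap ‖prV m n X‖
        + η (prH m n Y - x) * (tmKap ‖prV m n X‖ - tmKap ‖prV m n Y‖) := by
    unfold tmFlat; ring
  have h1 : |η (prH m n X - x) - η (prH m n Y - x)| ≤ L₀ * ‖X - Y‖ := by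
    have := hL.dist_le_mul (prH m n X - x) (prH m n Y - x)
    rw [Real.dist_eq, dist_eq_norm] at this
    refine this.trans (mul_le_mul_of_nonneg_left ?_ L₀.coe_nonneg)
    have e2 : prH m n X - x - (prH m n Y - x) = prH m n (X - Y) := by rw [map_sub]; abel
    rw [e2]
    exact norm_prH_le _
  have h2 : |tmKap ‖prV m n X‖ - tmKap ‖prV m n Y‖| ≤ 2 * ‖X - Y‖ := by
    have := tmKap_lip.dist_le_mul ‖prV m n X‖ ‖prV m n Y‖
    rw [Real.dist_eq, Real.dist_eq] at this
    refine this.trans ?_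
    have h3 : |‖prV m n X‖ - ‖prV m n Y‖| ≤ ‖X - Y‖ :=
      (abs_norm_sub_norm_le _ _).trans (by rw [← map_sub]; exact norm_prV_le _)
    simpa using mul_le_mul_of_nonneg_left h3 (by norm_num : (0 : ℝ) ≤ 2)
  rw [e]
  refine (abs_add_le _ _).trans ?_
  rw [abs_mul, abs_mul, abs_of_nonneg (tmKap_nonneg _)]
  have h4 : |η (prH m n X - x) - η (prH m n Y - x)| * tmKap ‖prV m n X‖ ≤ (L₀ * ‖X - Y‖) * 1 :=
    mul_le_mul h1 (tmKap_le_one _) (tmKap_nonneg _) (by positivity)
  have h5 : |η (prH m n Y - x)| * |tmKap ‖prV m n X‖ - tmKap ‖prV m n Y‖| ≤ B * (2 * ‖X - Y‖) :=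
    mul_le_mul (hB _) h2 (abs_nonneg _) hB0
  linarith

theorem tmFlat_continuous (hL : LipschitzWith L₀ η) (x : E m) :
    Continuous (tmFlat (n := n) η x) := by
  unfold tmFlat
  exact (hL.continuous.comp ((prH m n).continuous.sub continuous_const)).mul
    (tmKap_lip.continuous.comp (prV m n).continuous.norm)

theorem tmFlat_ne_zero (hs : tsupport η ⊆ Metric.ball 0 (3 / 4)) {x : E m} {X : E (m + n)}
    (h : tmFlat η x X ≠ 0) : ‖prH m n X - x‖ < 3 / 4 ∧ ‖prV m n X‖ < 1 := by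
  unfold tmFlat at h
  constructor
  · have h1 : η (prH m n X - x) ≠ 0 := left_ne_zero_of_mul h
    have := hs (subset_tsupport _ h1)
    rwa [Metric.mem_ball, dist_zero_right] at this
  · by_contra hc
    exact right_ne_zero_of_mul h (tmKap_eq_zero (not_lt.1 hc))

theorem tmFlat_tsupport (hs : tsupport η ⊆ Metric.ball 0 (3 / 4)) {x : E m} (hx : ‖x‖ ≤ 8) :
    tsupport (tmFlat (n := n) η x) ⊆ Metric.closedBall 0 10 :=
  closure_minimal (fun X hX => by
    obtain ⟨h1, h2⟩ := tmFlat_ne_zero hs hX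
    rw [Metric.mem_closedBall, dist_zero_right]
    have h3 := tm_norm_le_prH_prV X
    have h4 : ‖prH m n X‖ ≤ ‖prH m n X - x‖ + ‖x‖ := by
      have := norm_add_le (prH m n X - x) x
      rwa [sub_add_cancel] at this
    linarith) Metric.isClosed_closedBall

/-- the flat test function against a good varifold -/
theorem tm_flat_mass {W : SIV m n} {Q : ℕ} {δ : ℝ} (hW : IsGood W Q δ) (hB : ∀ y, |η y| ≤ B)
    (hL : LipschitzWith L₀ η) (hs : tsupport η ⊆ Metric.ball 0 (3 / 4)) {x : E m} (hx : ‖x‖ ≤ 8) :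
    |∫ X, tmFlat η x X ∂W.μ - Q * ∫ y, η y ∂μH[(m : ℝ)]| ≤ (L₀ + 3 * B + 1) * δ := by
  have := isAddHaar_hausdorff m
  have hB0 : 0 ≤ B := (abs_nonneg _).trans (hB 0)
  have hL0 : (0 : ℝ) ≤ L₀ := L₀.coe_nonneg
  obtain ⟨c, hc⟩ : ∃ c : ℝ, c = (L₀ + 3 * B + 1)⁻¹ := ⟨_, rfl⟩
  have hD : 0 < (L₀ : ℝ) + 3 * B + 1 := by positivity
  have hc0 : 0 < c := by rw [hc]; positivity
  have hcD : c * (L₀ + 3 * B + 1) = 1 := by rw [hc]; exact inv_mul_cancel₀ hD.ne'
  have h1 : ∀ X, |c * tmFlat (n := n) η x X| ≤ 1 := fun X => by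
    rw [abs_mul, abs_of_pos hc0]
    calc c * |tmFlat η x X| ≤ c * (L₀ + 3 * B + 1) :=
          mul_le_mul_of_nonneg_left ((tmFlat_abs_le hB x X).trans (by linarith)) hc0.le
      _ = 1 := hcD
  have h2 : LipschitzWith 1 (fun X => c * tmFlat (n := n) η x X) := by
    refine LipschitzWith.of_dist_le_mul fun X Y => ?_
    rw [Real.dist_eq, dist_eq_norm, NNReal.coe_one, one_mul, ← mul_sub, abs_mul, abs_of_pos hc0]
    calc c * |tmFlat η x X - tmFlat η x Y| ≤ c * ((L₀ + 2 * B) * ‖X - Y‖) :=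
          mul_le_mul_of_nonneg_left (tmFlat_sub_le hB hL x X Y) hc0.le
      _ ≤ c * ((L₀ + 3 * B + 1) * ‖X - Y‖) := by
          refine mul_le_mul_of_nonneg_left (mul_le_mul_of_nonneg_right ?_ (norm_nonneg _)) hc0.le
          linarith
      _ = ‖X - Y‖ := by rw [← mul_assoc, hcD, one_mul]
  have h3 : tsupport (fun X => c * tmFlat (n := n) η x X) ⊆ Metric.closedBall 0 1000 := by
    refine closure_minimal (fun X hX => ?_) Metric.isClosed_closedBall
    have hX' : tmFlat η x X ≠ 0 := right_ne_zero_of_mul hX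
    exact Metric.closedBall_subset_closedBall (by norm_num)
      (tmFlat_tsupport hs hx (subset_tsupport _ hX'))
  have h4 := hW.mass _ h1 h2 h3
  have e1 : ∫ y : E m, c * tmFlat (n := n) η x (mkHV y 0) ∂μH[(m : ℝ)] = c * ∫ y, η y ∂μH[(m : ℝ)] := by
    rw [integral_const_mul]
    congr 1
    rw [← integral_sub_right_eq_self η x]
    refine integral_congr_ae (Filter.Eventually.of_forall fun y => ?_)
    simp only [tmFlat, prH_mkHV, prV_mkHV, norm_zero]
    rw [tmKap_eq_one (by norm_num), mul_one]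
  rw [integral_const_mul, e1] at h4
  have e2 : c * ∫ X, tmFlat η x X ∂W.μ - Q * (c * ∫ y, η y ∂μH[(m : ℝ)])
      = c * (∫ X, tmFlat η x X ∂W.μ - Q * ∫ y, η y ∂μH[(m : ℝ)]) := by ring
  rw [e2, abs_mul, abs_of_pos hc0] at h4
  calc |∫ X, tmFlat η x X ∂W.μ - Q * ∫ y, η y ∂μH[(m : ℝ)]|
      = (L₀ + 3 * B + 1) * (c * |∫ X, tmFlat η x X ∂W.μ - Q * ∫ y, η y ∂μH[(m : ℝ)]|) := by
        rw [← mul_assoc, mul_comm _ c, hcD, one_mul]
    _ ≤ (L₀ + 3 * B + 1) * δ := mul_le_mul_of_nonneg_left h4 hD.le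

end Flat

namespace GCyl

variable {N : NCyl m n} {Q : ℕ} {δ ε : ℝ} {η : E m → ℝ} {B : ℝ} {L₀ : NNReal}

/-- **smooth averages of the projected mass** -/
theorem nu_avg (h : GCyl N Q δ ε) (hB : ∀ y, |η y| ≤ B) (hL : LipschitzWith L₀ η)
    (hs : tsupport η ⊆ Metric.ball 0 (3 / 4)) (hδ : δ ≤ 1 / 2) (hε : δ + ε < N.h)
    (hh : N.h ≤ 3 / 4) {x : E m} (hx : ‖x‖ ≤ 8) :
    |∫ y, η (y - x) ∂N.nu - Q * ∫ y, η y ∂μH[(m : ℝ)]|
      ≤ L₀ * (δ + ε) * (Q * kap m * 3 ^ m + 1) + (L₀ + 3 * B + 1) * δ := by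
  have hfin := h.isFinite (hδ.trans (by norm_num))
  have hk := kap_pos m
  have hL0 : (0 : ℝ) ≤ L₀ := L₀.coe_nonneg
  have hε0 : 0 ≤ ε := (norm_nonneg _).trans (h.small 0)
  have hδ0 : 0 ≤ δ := (abs_nonneg _).trans
    (h.good.mass 0 (by simp) ((LipschitzWith.const (0 : ℝ)).weaken zero_le_one) (by simp))
  have hη0 : ∀ y, 3 / 4 ≤ ‖y‖ → η y = 0 := fun y hy =>
    image_eq_zero_of_notMem_tsupport fun hc => by
      have := hs hc
      rw [Metric.mem_ball, dist_zero_right] at this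
      linarith
  have hηx : Continuous fun y => η (y - x) := hL.continuous.comp (continuous_id.sub continuous_const)
  obtain ⟨p, hp⟩ : ∃ p : E (m + n), p = mkHV x 0 := ⟨_, rfl⟩
  -- the two integrands
  obtain ⟨f₁, hf₁⟩ : ∃ f₁ : E (m + n) → ℝ,
      f₁ = (Cyl N.u N.Ω N.h).indicator (fun X => η (npr N.u X - x)) := ⟨_, rfl⟩
  have e1 : ∫ y, η (y - x) ∂N.nu = ∫ X, f₁ X ∂N.W.μ := by
    unfold NCyl.nu
    rw [integral_map h.ok.aemeasurable_npr hηx.aestronglyMeasurable, hf₁,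
      integral_indicator h.ok.measurableSet]
    rfl
  have i1 : Integrable f₁ N.W.μ := by
    rw [hf₁, integrable_indicator_iff h.ok.measurableSet]
    exact Integrable.of_bound (μ := N.μ) (h.ok.aesm_comp_npr hηx) B
      (Filter.Eventually.of_forall fun X => hB _)
  have i2 : Integrable (tmFlat (n := n) η x) N.W.μ :=
    N.W.integrable_of_continuous (tmFlat_continuous hL x)
      ((isCompact_closedBall (0 : E (m + n)) 10).of_isClosed_subset (isClosed_tsupport _)
        (tmFlat_tsupport hs hx))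
      ((tmFlat_tsupport hs hx).trans
        ((Metric.closedBall_subset_closedBall (by norm_num)).trans h.good.dom))
  have hmass := tm_mass_ball h.good (hδ.trans (by norm_num)) x (R := 2) (by norm_num)
    (by linarith)
  rw [← hp] at hmass
  have hmassR : N.W.μ.real (Metric.closedBall p 2) ≤ Q * kap m * 3 ^ m + 1 := by
    refine ENNReal.toReal_le_of_le_ofReal (by positivity) (hmass.trans (le_of_eq ?_))
    norm_num
  have hae : ∀ᵐ X ∂N.W.μ, ‖f₁ X - tmFlat η x X‖
      ≤ (Metric.closedBall p 2).indicator (fun _ => (L₀ : ℝ) * (δ + ε)) X := by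
    have hsupp : ∀ᵐ X ∂N.W.μ, X ∈ N.W.support := by
      rw [ae_iff]; exact N.W.μ_compl_support
    filter_upwards [hsupp] with X hX
    rw [Real.norm_eq_abs]
    by_cases hXC : X ∈ Cyl N.u N.Ω N.h
    · have h14 := h.flat X hX hXC
      have hV : ‖prV m n X‖ ≤ δ := h.good.height X hX (h14.trans (by norm_num))
      have hz : ‖zz N.u X‖ ≤ δ + ε := by
        refine (tm_zz_le h.cont X).trans ((norm_sub_le _ _).trans ?_)
        exact add_le_add hV (h.small _)
      have hd : ‖npr N.u X - prH m n X‖ ≤ δ + ε := (tm_npr_sub_le N.u X).trans hz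
      have ef : f₁ X - tmFlat η x X = η (npr N.u X - x) - η (prH m n X - x) := by
        rw [hf₁, Set.indicator_of_mem hXC]
        unfold tmFlat
        rw [tmKap_eq_one (hV.trans hδ), mul_one]
      rw [ef]
      by_cases hXp : X ∈ Metric.closedBall p 2
      · rw [Set.indicator_of_mem hXp]
        have := hL.dist_le_mul (npr N.u X - x) (prH m n X - x)
        rw [Real.dist_eq, dist_eq_norm] at this
        refine this.trans (mul_le_mul_of_nonneg_left ?_ hL0)
        have e2 : npr N.u X - x - (prH m n X - x) = npr N.u X - prH m n X := by abel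
        rw [e2]
        exact hd
      · rw [Set.indicator_of_notMem hXp]
        rw [Metric.mem_closedBall, dist_eq_norm, not_le] at hXp
        have h3 : ‖X - p‖ ≤ ‖prH m n X - x‖ + ‖prV m n X‖ := by
          have := tm_norm_le_prH_prV (X - p)
          rwa [map_sub, map_sub, hp, prH_mkHV, prV_mkHV, sub_zero, ← hp] at this
        have h4 : 3 / 2 < ‖prH m n X - x‖ := by linarith
        have h5 : ‖prH m n X - x‖ ≤ ‖npr N.u X - x‖ + ‖npr N.u X - prH m n X‖ := by
          have e3 : prH m n X - x = (npr N.u X - x) - (npr N.u X - prH m n X) := by abel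
          rw [e3]
          exact norm_sub_le _ _
        rw [hη0 _ (by linarith), hη0 _ (by linarith), sub_zero, abs_zero]
    · have e0 : f₁ X = 0 := by rw [hf₁, Set.indicator_of_notMem hXC]
      have e2 : tmFlat η x X = 0 := by
        by_contra hne
        obtain ⟨h1, h2⟩ := tmFlat_ne_zero hs hne
        have h4 : ‖prH m n X‖ ≤ ‖prH m n X - x‖ + ‖x‖ := by
          have := norm_add_le (prH m n X - x) x
          rwa [sub_add_cancel] at this
        have h3 := tm_norm_le_prH_prV X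
        have hV : ‖prV m n X‖ ≤ δ := h.good.height X hX (by linarith)
        have hz : ‖zz N.u X‖ ≤ δ + ε := by
          refine (tm_zz_le h.cont X).trans ((norm_sub_le _ _).trans ?_)
          exact add_le_add hV (h.small _)
        have hd : ‖npr N.u X - prH m n X‖ ≤ δ + ε := (tm_npr_sub_le N.u X).trans hz
        refine hXC ⟨?_, lt_of_le_of_lt hz hε⟩
        rw [h.Ω, Metric.mem_ball, dist_zero_right]
        have h5 : ‖npr N.u X‖ ≤ ‖npr N.u X - prH m n X‖ + ‖prH m n X‖ := by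
          have := norm_add_le (npr N.u X - prH m n X) (prH m n X)
          rwa [sub_add_cancel] at this
        linarith
      rw [e0, e2, sub_zero, abs_zero]
      exact Set.indicator_nonneg (fun _ _ => by positivity) _
  have hgi : Integrable ((Metric.closedBall p 2).indicator (fun _ => (L₀ : ℝ) * (δ + ε))) N.W.μ :=
    (integrable_indicator_iff Metric.isClosed_closedBall.measurableSet).2
      (integrableOn_const (hmass.trans_lt ENNReal.ofReal_lt_top).ne)
  have b1 : |∫ X, f₁ X ∂N.W.μ - ∫ X, tmFlat η x X ∂N.W.μ|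
      ≤ L₀ * (δ + ε) * (Q * kap m * 3 ^ m + 1) := by
    rw [← integral_sub i1 i2, ← Real.norm_eq_abs]
    refine (norm_integral_le_of_norm_le hgi hae).trans ?_
    rw [integral_indicator Metric.isClosed_closedBall.measurableSet, setIntegral_const, smul_eq_mul,
      mul_comm]
    exact mul_le_mul_of_nonneg_left hmassR (by positivity)
  have b2 := tm_flat_mass h.good hB hL hs hx
  rw [e1]
  calc |∫ X, f₁ X ∂N.W.μ - Q * ∫ y, η y ∂μH[(m : ℝ)]|
      = |(∫ X, f₁ X ∂N.W.μ - ∫ X, tmFlat η x X ∂N.W.μ)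
          + (∫ X, tmFlat η x X ∂N.W.μ - Q * ∫ y, η y ∂μH[(m : ℝ)])| := by congr 1; ring
    _ ≤ _ := (abs_add_le _ _).trans (add_le_add b1 b2)

end GCyl

/-- **smooth averages of the reference volume** -/
theorem tm_volS_avg (N : NCyl m n) (hΩ : N.Ω = Metric.ball 0 12) {η : E m → ℝ} {B ε : ℝ}
    (hη : Continuous η) (hB : ∀ y, |η y| ≤ B) (hs : tsupport η ⊆ Metric.ball 0 (3 / 4))
    (hv : ∀ y, |vdens (fderiv ℝ N.u y) - 1| ≤ ε) {x : E m} (hx : ‖x‖ ≤ 8) :
    |∫ y, η (y - x) ∂N.volS - ∫ y, η y ∂μH[(m : ℝ)]| ≤ ε * B * kap m := by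
  have := isAddHaar_hausdorff m
  have hk := kap_pos m
  have hB0 : 0 ≤ B := (abs_nonneg _).trans (hB 0)
  have hε0 : 0 ≤ ε := (abs_nonneg _).trans (hv 0)
  have hm := cyla_measurable_vdens N.u
  have hη0 : ∀ y, y ∉ Metric.ball x 1 → η (y - x) = 0 := fun y hy =>
    image_eq_zero_of_notMem_tsupport fun hc => by
      have := hs hc
      rw [Metric.mem_ball, dist_zero_right] at this
      rw [Metric.mem_ball, dist_eq_norm, not_lt] at hy
      linarith
  have hsub : Metric.ball x 1 ⊆ N.Ω := by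
    rw [hΩ]
    intro y hy
    rw [Metric.mem_ball, dist_eq_norm] at hy
    rw [Metric.mem_ball, dist_zero_right]
    have : ‖y‖ ≤ ‖y - x‖ + ‖x‖ := by
      have := norm_add_le (y - x) x
      rwa [sub_add_cancel] at this
    linarith
  have hηx : Continuous fun y => η (y - x) := hη.comp (continuous_id.sub continuous_const)
  have e1 : ∫ y, η (y - x) ∂N.volS
      = ∫ y in Metric.ball x 1, vdens (fderiv ℝ N.u y) * η (y - x) ∂μH[(m : ℝ)] := by
    unfold NCyl.volS
    rw [integral_withDensity_eq_integral_toReal_smul hm.ennreal_ofReal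
      (ae_of_all _ fun y => ENNReal.ofReal_lt_top)]
    rw [← setIntegral_eq_of_subset_of_forall_sdiff_eq_zero N.isOpen_Ω.measurableSet hsub
      (fun y hy => by rw [hη0 y hy.2]; simp)]
    refine integral_congr_ae (ae_of_all _ fun y => ?_)
    simp only [smul_eq_mul]
    rw [ENNReal.toReal_ofReal (vdens_nonneg _)]
  have e2 : ∫ y, η y ∂μH[(m : ℝ)] = ∫ y in Metric.ball x 1, η (y - x) ∂μH[(m : ℝ)] := by
    rw [← integral_sub_right_eq_self η x]
    exact (setIntegral_eq_integral_of_forall_compl_eq_zero fun y hy => hη0 y hy).symm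
  have hfinb : (μH[(m : ℝ)] : Measure (E m)) (Metric.ball x 1) < ⊤ := measure_ball_lt_top
  have i2 : IntegrableOn (fun y => η (y - x)) (Metric.ball x 1) μH[(m : ℝ)] :=
    Measure.integrableOn_of_bounded (M := B) hfinb.ne hηx.aestronglyMeasurable
      (ae_of_all _ fun y => hB _)
  have i1 : IntegrableOn (fun y => vdens (fderiv ℝ N.u y) * η (y - x)) (Metric.ball x 1)
      μH[(m : ℝ)] :=
    Measure.integrableOn_of_bounded (M := (1 + ε) * B) hfinb.ne
      (hm.mul hηx.measurable).aestronglyMeasurable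
      (ae_of_all _ fun y => by
        rw [norm_mul, Real.norm_eq_abs, Real.norm_eq_abs]
        refine mul_le_mul ?_ (hB _) (abs_nonneg _) (by positivity)
        rw [abs_of_nonneg (vdens_nonneg _)]
        have := (abs_le.1 (hv y)).2
        linarith)
  rw [e1, e2, ← integral_sub i1 i2, ← Real.norm_eq_abs]
  refine (norm_setIntegral_le_of_norm_le_const (C := ε * B) hfinb fun y _ => ?_).trans ?_
  · have e3 : vdens (fderiv ℝ N.u y) * η (y - x) - η (y - x)
        = (vdens (fderiv ℝ N.u y) - 1) * η (y - x) := by ring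
    rw [e3, norm_mul, Real.norm_eq_abs, Real.norm_eq_abs]
    exact mul_le_mul (hv y) (hB _) (abs_nonneg _) hε0
  · rw [Measure.real, hausdorff_ball m x one_pos, one_pow, mul_one,
      ENNReal.toReal_ofReal hk.le]

/-! ### constructors and numerics for the glue -/

/-- bounded geometry from `C⁴`-smallness -/
theorem tm_geo {u : E m → E n} {ε : ℝ} (hs : ContDiff ℝ 4 u)
    (hb : ∀ j : ℕ, j ≤ 4 → ∀ x, ‖iteratedFDeriv ℝ j u x‖ ≤ ε) (hε : ε ≤ 1 / 2) : Geo 1 u :=
  ⟨hs, fun y => by rw [← norm_iteratedFDeriv_one]; exact (hb 1 (by norm_num) y).trans hε,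
    fun y => (hb 2 (by norm_num) y).trans (hε.trans (by norm_num)),
    fun y => (hb 3 (by norm_num) y).trans (hε.trans (by norm_num)), le_rfl⟩

theorem GCyl.of_small {N : NCyl m n} {Q : ℕ} {δ ε h₀ : ℝ}
    (Hok : ∀ (κ₂ : ℝ) (N : NCyl m n), Geo κ₂ N.u → N.h ≤ h₀ → CylOK N)
    (good : IsGood N.W Q δ) (hΩ : N.Ω = Metric.ball 0 12) (hh : N.h ≤ h₀)
    (hs : ContDiff ℝ 4 N.u) (hb : ∀ j : ℕ, j ≤ 4 → ∀ x, ‖iteratedFDeriv ℝ j N.u x‖ ≤ ε)
    (hε : ε ≤ 1 / 2) (flat : ∀ X ∈ N.W.support, X ∈ Cyl N.u N.Ω N.h → ‖X‖ ≤ 14) :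
    GCyl N Q δ ε :=
  ⟨good, hΩ, Hok 1 N (tm_geo hs hb hε) hh, fun y => by
    rw [← norm_iteratedFDeriv_zero (𝕜 := ℝ)]; exact hb 0 (by norm_num) y, flat⟩

theorem tm_vdens_zero : vdens (0 : E m →L[ℝ] E n) = 1 := by
  unfold vdens gmat
  simp

/-- the volume density is close to `1` for small slopes -/
theorem tm_vdens_near (m n : ℕ) {ε : ℝ} (hε : 0 < ε) :
    ∃ d : ℝ, 0 < d ∧ ∀ A : E m →L[ℝ] E n, ‖A‖ ≤ d → |vdens A - 1| ≤ ε := by
  have h := (continuous_vdens (m := m) (n := n)).continuousAt (x := 0)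
  rw [Metric.continuousAt_iff] at h
  obtain ⟨d, hd, H⟩ := h ε hε
  refine ⟨d / 2, half_pos hd, fun A hA => ?_⟩
  have := H (x := A) (by rw [dist_zero_right]; linarith)
  rw [Real.dist_eq, tm_vdens_zero] at this
  exact this.le

/-- identification of the integer -/
theorem tm_integer {q Q : ℕ} {Iν IS : ℝ} (h1 : |Iν - Q| ≤ 1 / (8 * (Q + 1)))
    (h2 : |IS - 1| ≤ 1 / (8 * (Q + 1))) (h3 : |Iν - q * IS| ≤ 1 / 8) : q = Q := by
  have hQ0 : (0 : ℝ) ≤ Q := Nat.cast_nonneg _
  have hq0 : (0 : ℝ) ≤ q := Nat.cast_nonneg _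
  obtain ⟨e, he⟩ : ∃ e : ℝ, e = 1 / (8 * ((Q : ℝ) + 1)) := ⟨_, rfl⟩
  rw [← he] at h1 h2
  have he0 : 0 < e := by rw [he]; positivity
  have heQ : e * (8 * ((Q : ℝ) + 1)) = 1 := by rw [he]; field_simp
  have he8 : e ≤ 1 / 8 := by nlinarith
  obtain ⟨a1, a2⟩ := abs_le.1 h1
  obtain ⟨b1, b2⟩ := abs_le.1 h2
  obtain ⟨c1, c2⟩ := abs_le.1 h3
  have hq : (q : ℝ) ≤ 2 * (Q + 1) := by nlinarith
  have hqe : (q : ℝ) * e ≤ 1 / 4 := by nlinarith
  have hlt : |(q : ℝ) - Q| < 1 := by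
    rw [abs_lt]
    constructor <;> nlinarith
  rw [abs_lt] at hlt
  rcases lt_trichotomy q Q with h | h | h
  · have : (q : ℝ) + 1 ≤ Q := by exact_mod_cast h
    linarith
  · exact h
  · have : (Q : ℝ) + 1 ≤ q := by exact_mod_cast h
    linarith

/-! ### the mass defect: abstract form of `massT` -/

/-- one ball of radius `1/2`: the conclusion of `Tube.scalar_input` (hypothesis `Hsc`), the integer being
identified by smooth averages. -/
theorem tm_Mabs_ball {N' : NCyl m n} {Q Jsc : ℕ} {Cm εs Csc D A : ℝ} {η : E m → ℝ}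
    (hΩ : N'.Ω = Metric.ball 0 12) (hQ : N'.Q = Q) (hCsc : 0 < Csc) (hD0 : 0 ≤ D)
    (Hsc : ∀ (x : E m) (s ε : ℝ), 0 < s → s ≤ 1 / 2 → Metric.closedBall x (2 * s) ⊆ N'.Ω →
        N'.nu (Metric.ball x (2 * s)) ≤ ENNReal.ofReal (Cm * s ^ m) →
        (N'.Dm + N'.Lm) (Metric.ball x (2 * s)) ≤ ENNReal.ofReal (ε * s ^ m) → 0 ≤ ε → ε ≤ εs →
        ∃ q : ℕ,
          N'.volS {y | y ∈ Metric.ball x ((1 + 2) / 2 * s) ∧ N'.cnt y ≠ q}
            ≤ ENNReal.ofReal (Csc * ε * s ^ m) ∧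
          (∀ (η : E m → ℝ) (A : ℝ), ContDiff ℝ ∞ η →
            tsupport η ⊆ Metric.ball x ((1 + 2) / 2 * s) →
            (∀ j : ℕ, j ≤ Jsc → ∀ y, s ^ j * ‖iteratedFDeriv ℝ j η y‖ ≤ A) →
            |∫ y, η y ∂N'.nu - q * ∫ y, η y ∂N'.volS| ≤ Csc * ε * s ^ m * A) ∧
          (q = N'.Q →
            N'.Mabs (Metric.ball x s) + N'.volS {y | y ∈ Metric.ball x s ∧ N'.cnt y ≠ N'.Q}
              ≤ ENNReal.ofReal Csc * (N'.Dm + N'.Lm) (Metric.ball x (2 * s))))
    (hη : ContDiff ℝ ∞ η) (hηs : tsupport η ⊆ Metric.ball 0 (3 / 4))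
    (hηi : ∫ y, η y ∂μH[(m : ℝ)] = 1)
    (hA : ∀ j : ℕ, j ≤ Jsc → ∀ y, ‖iteratedFDeriv ℝ j η y‖ ≤ A)
    (hDL : (N'.Dm + N'.Lm) (Metric.ball 0 12) ≤ ENNReal.ofReal D)
    (hν : ∀ x : E m, ‖x‖ ≤ 8 → N'.nu (Metric.ball x 1) ≤ ENNReal.ofReal (Cm * (1 / 2) ^ m))
    (hnu : ∀ x : E m, ‖x‖ ≤ 8 →
      |∫ y, η (y - x) ∂N'.nu - Q * ∫ y, η y ∂μH[(m : ℝ)]| ≤ 1 / (8 * (Q + 1)) ∧
      |∫ y, η (y - x) ∂N'.volS - ∫ y, η y ∂μH[(m : ℝ)]| ≤ 1 / (8 * (Q + 1)))
    (hs1 : 2 ^ m * D ≤ εs) (hs2 : Csc * D * A ≤ 1 / 8) {x : E m} (hx : ‖x‖ ≤ 8) :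
    N'.Mabs (Metric.ball x (1 / 2)) ≤ ENNReal.ofReal (Csc * D) := by
  have h21 : (2 : ℝ) * (1 / 2) = 1 := by norm_num
  have h34 : (1 + 2 : ℝ) / 2 * (1 / 2) = 3 / 4 := by norm_num
  have hpow : (2 : ℝ) ^ m * (1 / 2) ^ m = 1 := by rw [← mul_pow]; norm_num
  have hb12 : Metric.closedBall x 1 ⊆ Metric.ball (0 : E m) 12 := by
    intro y hy
    rw [Metric.mem_closedBall, dist_eq_norm] at hy
    rw [Metric.mem_ball, dist_zero_right]
    have : ‖y‖ ≤ ‖y - x‖ + ‖x‖ := by
      have := norm_add_le (y - x) x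
      rwa [sub_add_cancel] at this
    linarith
  have hDL1 : (N'.Dm + N'.Lm) (Metric.ball x 1) ≤ ENNReal.ofReal D :=
    (measure_mono (Metric.ball_subset_closedBall.trans hb12)).trans hDL
  have he1 : 2 ^ m * D * (1 / 2) ^ m = D := by
    calc 2 ^ m * D * (1 / 2) ^ m = (2 ^ m * (1 / 2) ^ m) * D := by ring
      _ = D := by rw [hpow, one_mul]
  obtain ⟨q, -, hq2, hq3⟩ := Hsc x (1 / 2) (2 ^ m * D) (by norm_num) le_rfl
    (by rw [h21, hΩ]; exact hb12) (by rw [h21]; exact hν x hx)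
    (by rw [h21, he1]; exact hDL1) (by positivity) hs1
  have hqQ : q = Q := by
    have t1 := hq2 (fun y => η (y - x)) A (hη.comp (contDiff_id.sub contDiff_const))
      (by
        rw [h34]
        refine (tsupport_comp_subset_preimage η
          (f := fun y : E m => y - x) (continuous_id.sub continuous_const)).trans ?_
        intro y hy
        have := hηs hy
        rw [Metric.mem_ball, dist_zero_right] at this
        rwa [Metric.mem_ball, dist_eq_norm])
      (fun j hj y => by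
        rw [iteratedFDeriv_comp_sub]
        exact (mul_le_of_le_one_left (norm_nonneg _)
          (pow_le_one₀ (by norm_num) (by norm_num))).trans (hA j hj _))
    obtain ⟨n1, n2⟩ := hnu x hx
    rw [hηi, mul_one] at n1
    rw [hηi] at n2
    refine tm_integer n1 n2 (t1.trans ?_)
    have h3 : Csc * (2 ^ m * D) * (1 / 2) ^ m * A = Csc * D * A := by
      calc Csc * (2 ^ m * D) * (1 / 2) ^ m * A = Csc * (2 ^ m * D * (1 / 2) ^ m) * A := by ring
        _ = _ := by rw [he1]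
    rw [h3]
    exact hs2
  have h5 := hq3 (hqQ.trans hQ.symm)
  rw [h21] at h5
  calc N'.Mabs (Metric.ball x (1 / 2)) ≤ _ := le_self_add
    _ ≤ ENNReal.ofReal Csc * (N'.Dm + N'.Lm) (Metric.ball x 1) := h5
    _ ≤ ENNReal.ofReal Csc * ENNReal.ofReal D := by gcongr
    _ = _ := by rw [← ENNReal.ofReal_mul hCsc.le]

/-- finite cover -/
theorem tm_Mabs_cover {N N' : NCyl m n} (hres : N.Mabs = N'.Mabs.restrict N.Ω)
    (hΩ : N.Ω = Metric.ball 0 8) (T : Finset (E m))
    (hT8 : ∀ x ∈ T, x ∈ Metric.closedBall (0 : E m) 8)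
    (hTcov : Metric.closedBall (0 : E m) 8 ⊆ ⋃ x ∈ T, Metric.ball x (1 / 2)) {c : ℝ≥0∞}
    (key : ∀ x : E m, ‖x‖ ≤ 8 → N'.Mabs (Metric.ball x (1 / 2)) ≤ c) :
    N.Mabs (Metric.ball 0 8) ≤ T.card * c := by
  rw [hres, hΩ, Measure.restrict_apply Metric.isOpen_ball.measurableSet, Set.inter_self]
  calc N'.Mabs (Metric.ball 0 8) ≤ N'.Mabs (⋃ x ∈ T, Metric.ball x (1 / 2)) :=
        measure_mono (Metric.ball_subset_closedBall.trans hTcov)
    _ ≤ ∑ x ∈ T, N'.Mabs (Metric.ball x (1 / 2)) := measure_biUnion_finset_le _ _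
    _ ≤ ∑ _x ∈ T, c := Finset.sum_le_sum fun x hx => key x (mem_closedBall_zero_iff.1 (hT8 x hx))
    _ = _ := by rw [Finset.sum_const, nsmul_eq_mul]

/-- a normalised bump with bounded derivatives -/
theorem tm_exists_bump (m Jsc : ℕ) : ∃ (η : E m → ℝ) (A : ℝ), ContDiff ℝ ∞ η ∧
    tsupport η ⊆ Metric.ball 0 (3 / 4) ∧ ∫ y, η y ∂μH[(m : ℝ)] = 1 ∧ 0 ≤ A ∧
    ∀ j : ℕ, j ≤ Jsc → ∀ y, ‖iteratedFDeriv ℝ j η y‖ ≤ A := by
  have hHaar := isAddHaar_hausdorff m
  obtain ⟨φ, hφ⟩ : ∃ φ : ContDiffBump (0 : E m), φ.rOut = 1 / 2 :=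
    ⟨⟨1 / 4, 1 / 2, by norm_num, by norm_num⟩, rfl⟩
  obtain ⟨η, hηdef⟩ : ∃ η : E m → ℝ, η = φ.normed μH[(m : ℝ)] := ⟨_, rfl⟩
  have hη : ContDiff ℝ ∞ η := hηdef ▸ φ.contDiff_normed
  have hηs : tsupport η ⊆ Metric.ball 0 (3 / 4) := by
    rw [hηdef, φ.tsupport_normed_eq, hφ]
    exact Metric.closedBall_subset_ball (by norm_num)
  have hηi : ∫ y, η y ∂μH[(m : ℝ)] = 1 := hηdef ▸ φ.integral_normed
  have hηc : HasCompactSupport η := hηdef ▸ φ.hasCompactSupport_normed
  have h1 : ∀ j : ℕ, ∃ b : ℝ, ∀ y, ‖iteratedFDeriv ℝ j η y‖ ≤ b := fun j =>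
    (hηc.iteratedFDeriv (𝕜 := ℝ) j).exists_bound_of_continuous
      (hη.continuous_iteratedFDeriv (by exact_mod_cast le_top))
  choose b hb using h1
  refine ⟨η, ∑ j ∈ Finset.range (Jsc + 1), |b j|, hη, hηs, hηi,
    Finset.sum_nonneg fun _ _ => abs_nonneg _,
    fun j hj y => (hb j y).trans ((le_abs_self _).trans ?_)⟩
  exact Finset.single_le_sum (f := fun j => |b j|) (fun _ _ => abs_nonneg _)
    (Finset.mem_range.2 (by omega))

end Claimed.Agent.R322.Blow
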