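import Claimed.Agent.R322.Blow.Start

/-!
# Auxiliary lemmas for `Blow/Target.lean` (leaves `good_near`, `rot_small`, `ut_graph`, `flatT`, ...)

Geometric part (helper250): cone tests, the conclusions of `loc` as a structure, elementary facts on graphs, the similarity `K.T`.
-/

set_option autoImplicit false

open scoped ENNReal ContDiff
open MeasureTheory Filter Topology

namespace Claimed.Agent.R322.Blow

open Claimed.Agent.R322.Tube Claimed.Agent.R322.Freq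

variable {m n : ℕ}

/-- cone function -/
noncomputable def gnCone {k : ℕ} (ρ : ℝ) (c X : E k) : ℝ := max (ρ - ‖X - c‖) 0

theorem gnCone_nonneg {k : ℕ} (ρ : ℝ) (c X : E k) : 0 ≤ gnCone ρ c X := le_max_right _ _

theorem gnCone_le {k : ℕ} {ρ : ℝ} (hρ : 0 ≤ ρ) (c X : E k) : gnCone ρ c X ≤ ρ :=
  max_le (by linarith [norm_nonneg (X - c)]) hρ

theorem gnCone_eq_zero {k : ℕ} {ρ : ℝ} {c X : E k} (h : ρ ≤ ‖X - c‖) : gnCone ρ c X = 0 :=
  max_eq_right (by linarith)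

theorem gnCone_lip {k : ℕ} (ρ : ℝ) (c : E k) : LipschitzWith 1 (gnCone ρ c) := by
  refine LipschitzWith.of_dist_le_mul fun X X' => ?_
  rw [Real.dist_eq, dist_eq_norm, NNReal.coe_one, one_mul]
  unfold gnCone
  refine (abs_max_sub_max_le_abs _ _ _).trans ?_
  have e : ρ - ‖X - c‖ - (ρ - ‖X' - c‖) = ‖X' - c‖ - ‖X - c‖ := by ring
  rw [e]
  refine (abs_norm_sub_norm_le _ _).trans ?_
  rw [sub_sub_sub_cancel_right, norm_sub_rev]

theorem gnCone_tsupport {k : ℕ} (ρ : ℝ) (c : E k) :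
    tsupport (gnCone ρ c) ⊆ Metric.closedBall c ρ := by
  refine closure_minimal (fun X hX => ?_) Metric.isClosed_closedBall
  rw [mem_closedBall_iff_norm]
  by_contra h
  push Not at h
  exact hX (gnCone_eq_zero h.le)

theorem gnCone_integral_pos (m : ℕ) {ρ : ℝ} (hρ : 0 < ρ) :
    0 < ∫ y : E m, gnCone ρ 0 y ∂μH[(m : ℝ)] := by
  have : (μH[(m : ℝ)] : Measure (E m)).IsAddHaarMeasure := isAddHaar_hausdorff m
  refine Continuous.integral_pos_of_hasCompactSupport_nonneg_nonzero (x := 0)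
    (gnCone_lip ρ 0).continuous ?_ (fun y => gnCone_nonneg ρ 0 y) ?_
  · exact HasCompactSupport.of_support_subset_isCompact (isCompact_closedBall 0 ρ)
      ((subset_tsupport _).trans (gnCone_tsupport ρ 0))
  · unfold gnCone
    simp [hρ.le, hρ.ne']

theorem good_near_core (m n Q : ℕ) (hQ : 1 ≤ Q) (ρ : ℝ) (hρ : 0 < ρ) :
    ∃ ε₀ : ℝ, 0 < ε₀ ∧ ∀ W : SIV m n, IsGood W Q ε₀ → ∀ y : E m, ‖y‖ ≤ 900 →
      ∃ X ∈ W.support, ‖X - mkHV y 0‖ ≤ ρ := by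
  have : (μH[(m : ℝ)] : Measure (E m)).IsAddHaarMeasure := isAddHaar_hausdorff m
  obtain ⟨ρ', hρ'⟩ : ∃ ρ' : ℝ, ρ' = min ρ 1 := ⟨_, rfl⟩
  have h0 : 0 < ρ' := hρ' ▸ lt_min hρ one_pos
  have h1 : ρ' ≤ 1 := hρ' ▸ min_le_right _ _
  have h2 : ρ' ≤ ρ := hρ' ▸ min_le_left _ _
  have hI := gnCone_integral_pos m h0
  refine ⟨(∫ y : E m, gnCone ρ' 0 y ∂μH[(m : ℝ)]) / 2, by positivity, fun W hW y hy => ?_⟩
  by_contra hcon
  push Not at hcon
  have hm := hW.mass (gnCone ρ' (mkHV y 0))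
    (fun X => by
      rw [abs_of_nonneg (gnCone_nonneg _ _ _)]
      exact (gnCone_le h0.le _ _).trans h1)
    (gnCone_lip _ _)
    ((gnCone_tsupport _ _).trans fun X hX => by
      rw [mem_closedBall_iff_norm] at hX
      rw [mem_closedBall_zero_iff]
      have e : ‖(mkHV y 0 : E (m + n))‖ = ‖y‖ := by rw [← inH_apply, norm_inH]
      have := norm_le_norm_add_norm_sub' X (mkHV y 0)
      linarith)
  have e1 : ∫ X, gnCone ρ' (mkHV y 0) X ∂W.μ = 0 := by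
    refine integral_eq_zero_of_ae ?_
    filter_upwards [measure_eq_zero_iff_ae_notMem.1 W.μ_compl_support] with X hX
    have hX' : X ∈ W.support := by
      by_contra h
      exact hX h
    exact gnCone_eq_zero (h2.trans (hcon X hX').le)
  have e2 : ∫ y' : E m, gnCone ρ' (mkHV y 0 : E (m + n)) (mkHV y' 0) ∂μH[(m : ℝ)]
      = ∫ y : E m, gnCone ρ' 0 y ∂μH[(m : ℝ)] := by
    have e3 : ∀ y' : E m, gnCone ρ' (mkHV y 0 : E (m + n)) (mkHV y' 0) = gnCone ρ' 0 (y' - y) := by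
      intro y'
      unfold gnCone
      rw [← inH_apply, ← inH_apply, ← map_sub, norm_inH, sub_zero]
    simp_rw [e3]
    exact integral_sub_right_eq_self (fun y => gnCone ρ' 0 y) y
  rw [e1, e2, zero_sub, abs_neg, abs_of_nonneg (by positivity)] at hm
  have hQ' : (1 : ℝ) ≤ Q := by exact_mod_cast hQ
  nlinarith

/-! ### the conclusions of `loc` as a structure -/

/-- the conclusions of `loc` for one context -/
structure Loc {Q : ℕ} {π : Par} {C₀ : ℝ} (K : Ctx m n Q π C₀) : Prop where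
  geo : Geo (π.C * π.m₀) K.S.N.u
  Cm : π.C * π.m₀ ≤ 1 / 10
  u0 : ‖K.S.N.u 0‖ ≤ K.r / 100
  r_le : K.r ≤ 1 / 1000
  inn : ∀ X ∈ K.S.N.W.support, ‖X‖ ≤ 60 * K.r → K.S.In X
  est : ∀ X, K.S.In X → (‖prH m n X‖ ≤ 41 * K.r ∨ ‖npr K.S.N.u X‖ ≤ 41 * K.r) →
        ‖zz K.S.N.u X‖ ≤ K.r / 100 ∧ ‖prV m n X - K.S.N.u (prH m n X)‖ ≤ K.r / 100 ∧ ‖X‖ ≤ 60 * K.r ∧
        rho K.S.N.u (npr K.S.N.u X) < 200 * K.r ∧
        ‖zz K.S.N.u X‖ ≤ 1000 * K.r * qd K.S.N (1000 * K.r)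

theorem loc' (m n Q : ℕ) (hm : 1 ≤ m) (hn : 1 ≤ n) (hQ : 1 ≤ Q) :
    Stm m (fun π => ∀ (C₀ : ℝ) (K : Ctx m n Q π C₀), Loc K) :=
  (loc m n Q hm hn hQ).mono fun _ _ h C₀ K =>
    ⟨(h C₀ K).1, (h C₀ K).2.1, (h C₀ K).2.2.1, (h C₀ K).2.2.2.1, (h C₀ K).2.2.2.2.1,
      (h C₀ K).2.2.2.2.2⟩

/-! ### elementary facts on graphs -/

theorem ta_norm_Fg_le (u : E m → E n) (y : E m) : ‖Fg u y‖ ≤ ‖y‖ + ‖u y‖ := by
  rw [Fg_eq]
  refine (norm_add_le _ _).trans ?_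
  rw [norm_inH, norm_inV]

theorem ta_norm_Fg_zero (u : E m → E n) : ‖Fg u 0‖ = ‖u 0‖ := by
  rw [Fg_eq, map_zero, zero_add, norm_inV]

theorem ta_sub_Fg_prH (u : E m → E n) (X : E (m + n)) :
    ‖X - Fg u (prH m n X)‖ = ‖prV m n X - u (prH m n X)‖ := by
  have e : X - Fg u (prH m n X) = inV m n (prV m n X - u (prH m n X)) := by
    rw [Fg_eq, map_sub]
    conv_lhs => rw [← inH_prH_add_inV_prV X]
    simp only [prH_inH, prH_inV, map_add, add_zero]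
    abel
  rw [e, norm_inV]

theorem ta_prH_zz (u : E m → E n) (X : E (m + n)) : prH m n (zz u X) = prH m n X - npr u X := by
  unfold zz Fg
  rw [map_sub, prH_mkHV]

theorem ta_npr_sub_le (u : E m → E n) (X : E (m + n)) : ‖npr u X - prH m n X‖ ≤ ‖zz u X‖ := by
  rw [norm_sub_rev, ← ta_prH_zz]
  exact norm_prH_le _

theorem ta_eq_add_zz (u : E m → E n) (X : E (m + n)) : X = Fg u (npr u X) + zz u X := by
  unfold zz
  abel

/-- vertical distance bounds the normal distance -/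
theorem ta_zz_le {u : E m → E n} (hu : Continuous u) (X : E (m + n)) :
    ‖zz u X‖ ≤ ‖prV m n X - u (prH m n X)‖ := by
  rw [← ta_sub_Fg_prH]
  exact npr_isMin u hu X _

/-! ### `ut_graph` -/

theorem ta_cutB_one {x : E m} (hx : ‖x‖ ≤ 16) : Tool.cutB m x = 1 :=
  (Tool.cutB m).one_of_mem_closedBall (by
    rw [mem_closedBall_zero_iff]
    exact hx)

theorem ta_norm_psiT_le (u : E m → E n) (G : E (m + n) ≃ₗᵢ[ℝ] E (m + n)) {r : ℝ} (hr : 0 < r)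
    (y : E m) : ‖psiT u G r y‖ ≤ r⁻¹ * ‖Fg u y‖ := by
  unfold psiT
  rw [norm_smul, norm_inv, Real.norm_eq_abs, abs_of_pos hr]
  exact mul_le_mul_of_nonneg_left (rg_prH_G_le G _) (by positivity)

theorem ut_graph_core {u : E m → E n} {G : E (m + n) ≃ₗᵢ[ℝ] E (m + n)} {r C : ℝ} {J : ℕ}
    (hR : Regr J C u G r) (hr : 0 < r) (hu0 : ‖u 0‖ ≤ r / 100) :
    (∀ y, ‖psiT u G r y‖ < 16 → Fg (uT u G r) (psiT u G r y) = r⁻¹ • G (Fg u y)) ∧
    (∀ x : E m, ‖x‖ < 16 → ∃ y, ‖y‖ ≤ 40 * r ∧ psiT u G r y = x) ∧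
    Continuous (psiT u G r) := by
  refine ⟨fun y hy => ?_, fun x hx => ?_, ?_⟩
  · rw [← hR.graph y]
    unfold Fg uT
    rw [ta_cutB_one hy.le, one_smul]
  · obtain ⟨y, rfl⟩ := hR.bij.2 x
    refine ⟨y, ?_, rfl⟩
    have h1 := hR.lip_lo y 0
    rw [sub_zero] at h1
    have h2 : ‖psiT u G r 0‖ ≤ 1 / 100 := by
      refine (ta_norm_psiT_le u G hr 0).trans ?_
      rw [ta_norm_Fg_zero, inv_mul_le_iff₀ hr]
      linarith
    have h3 := norm_sub_le (psiT u G r y) (psiT u G r 0)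
    have h4 : 2 * r * ‖psiT u G r y - psiT u G r 0‖ ≤ 2 * r * (16 + 1 / 100) :=
      mul_le_mul_of_nonneg_left (by linarith) (by positivity)
    nlinarith
  · have : LipschitzWith (Real.toNNReal (2 / r)) (psiT u G r) := by
      refine LipschitzWith.of_dist_le' fun y y' => ?_
      rw [dist_eq_norm, dist_eq_norm, div_mul_eq_mul_div, le_div_iff₀ hr, mul_comm]
      exact hR.lip_hi y y'
    exact this.continuous

/-! ### `rot_small` -/

theorem ta_T_eq {Q : ℕ} {π : Par} {C₀ : ℝ} (K : Ctx m n Q π C₀) (X : E (m + n)) :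
    K.T X = K.r⁻¹ • K.G X := by
  unfold Ctx.T simMap
  rw [sub_zero, map_smul]

theorem ta_norm_T {Q : ℕ} {π : Par} {C₀ : ℝ} (K : Ctx m n Q π C₀) (X : E (m + n)) :
    ‖K.T X‖ = K.r⁻¹ * ‖X‖ := by
  rw [ta_T_eq, norm_smul, norm_inv, Real.norm_eq_abs, abs_of_pos K.r_pos, K.G.norm_map]

/-- support points of `K.V` are the images of the support points of the start varifold -/
theorem ta_support {Q : ℕ} {π : Par} {C₀ : ℝ} (K : Ctx m n Q π C₀) {X' : E (m + n)}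
    (hX' : X' ∈ K.V.support) :
    ∃ X ∈ K.S.N.W.support, K.T X = X' ∧ ‖X‖ = K.r * ‖X'‖ := by
  unfold Ctx.V at hX'
  rw [SIV.simil_support] at hX'
  refine ⟨simInv 0 K.r K.G X', hX', Base.simMap_simInv 0 K.G K.r_pos X', ?_⟩
  unfold simInv
  rw [zero_add, norm_smul, Real.norm_eq_abs, abs_of_pos K.r_pos, K.G.symm.norm_map]

theorem ta_support_T {Q : ℕ} {π : Par} {C₀ : ℝ} (K : Ctx m n Q π C₀) {X : E (m + n)}
    (hX : X ∈ K.S.N.W.support) : K.T X ∈ K.V.support := by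
  unfold Ctx.V
  rw [SIV.simil_support]
  show simInv 0 K.r K.G (simMap 0 K.r K.G X) ∈ K.S.N.W.support
  rw [Base.simInv_simMap 0 K.G K.r_pos]
  exact hX

theorem rot_small_core {Q : ℕ} {π : Par} {C₀ : ℝ} (K : Ctx m n Q π C₀) {J : ℕ} {C δ ρ : ℝ}
    (hR : Regr J C K.S.N.u K.G K.r) (hJ : 1 ≤ J) (hL : Loc K)
    (hqd : qd K.S.N (1000 * K.r) ≤ δ)
    (hnear : ∀ y : E m, ‖y‖ ≤ 900 → ∃ X ∈ K.V.support, ‖X - mkHV y 0‖ ≤ ρ) (hρ : ρ ≤ 1)
    (x : E m) (hx : ‖x‖ ≤ 20) :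
    ‖uRot K.S.N.u K.G K.r x‖ ≤ 5 / 4 * (1000 * δ + ρ) := by
  have hr := K.r_pos
  obtain ⟨X', hX', hd⟩ := hnear x (by linarith)
  obtain ⟨X, hX, hT, hn⟩ := ta_support K hX'
  have hx0 : ‖(mkHV x 0 : E (m + n))‖ = ‖x‖ := by rw [← inH_apply, norm_inH]
  have hX'n : ‖X'‖ ≤ 21 := by
    have := norm_le_norm_add_norm_sub' X' (mkHV x 0)
    linarith
  have hXn : ‖X‖ ≤ 21 * K.r := by
    rw [hn]
    nlinarith
  have hIn := hL.inn X hX (by linarith)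
  have hest := hL.est X hIn (Or.inl ((norm_prH_le X).trans (by linarith)))
  have hz : ‖zz K.S.N.u X‖ ≤ 1000 * K.r * δ :=
    hest.2.2.2.2.trans (mul_le_mul_of_nonneg_left hqd (by positivity))
  -- the point of the graph
  have hg := hR.graph (npr K.S.N.u X)
  have e1 : X' - Fg (uRot K.S.N.u K.G K.r) (psiT K.S.N.u K.G K.r (npr K.S.N.u X))
      = K.r⁻¹ • K.G (zz K.S.N.u X) := by
    rw [hg, ← hT, ta_T_eq, ← smul_sub, ← map_sub]
    rfl
  have h1 : ‖X' - Fg (uRot K.S.N.u K.G K.r) (psiT K.S.N.u K.G K.r (npr K.S.N.u X))‖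
      ≤ 1000 * δ := by
    rw [e1, norm_smul, norm_inv, Real.norm_eq_abs, abs_of_pos hr, K.G.norm_map,
      inv_mul_le_iff₀ hr]
    linarith
  obtain ⟨x'', hx''⟩ : ∃ x'', x'' = psiT K.S.N.u K.G K.r (npr K.S.N.u X) := ⟨_, rfl⟩
  rw [← hx''] at h1
  have h2 : ‖Fg (uRot K.S.N.u K.G K.r) x'' - mkHV x 0‖ ≤ 1000 * δ + ρ := by
    have e : Fg (uRot K.S.N.u K.G K.r) x'' - mkHV x 0
        = (X' - mkHV x 0) - (X' - Fg (uRot K.S.N.u K.G K.r) x'') := by abel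
    rw [e]
    refine (norm_sub_le _ _).trans ?_
    linarith
  have h3 : ‖x'' - x‖ ≤ 1000 * δ + ρ := by
    have := norm_prH_le (Fg (uRot K.S.N.u K.G K.r) x'' - mkHV x 0)
    rw [map_sub, Fg, prH_mkHV, prH_mkHV] at this
    exact this.trans h2
  have h4 : ‖uRot K.S.N.u K.G K.r x''‖ ≤ 1000 * δ + ρ := by
    have := norm_prV_le (Fg (uRot K.S.N.u K.G K.r) x'' - mkHV x 0)
    rw [map_sub, Fg, prV_mkHV, prV_mkHV, sub_zero] at this
    exact this.trans h2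
  have hdiff : Differentiable ℝ (uRot K.S.N.u K.G K.r) :=
    hR.smooth.differentiable (by exact_mod_cast (by omega : J ≠ 0))
  have h5 := one_lip_of_slope hdiff hR.slope x x''
  have h6 : ‖uRot K.S.N.u K.G K.r x‖ ≤ ‖uRot K.S.N.u K.G K.r x''‖
      + ‖uRot K.S.N.u K.G K.r x - uRot K.S.N.u K.G K.r x''‖ := by
    have := norm_add_le (uRot K.S.N.u K.G K.r x'')
      (uRot K.S.N.u K.G K.r x - uRot K.S.N.u K.G K.r x'')
    rwa [add_sub_cancel] at this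
  rw [norm_sub_rev] at h3
  linarith

/-! ### `flatT` -/

theorem flatT_core {W : SIV m n} {Q : ℕ} {û : E m → E n} {hc δ : ℝ} (hhc : 0 < hc) (hhc1 : hc ≤ 1)
    (hδ : δ ≤ hc / 8) (hW : IsGood W Q δ) (hcont : Continuous û) (hû : ∀ x, ‖û x‖ ≤ hc / 8) :
    Cyl û (Metric.ball 0 12) hc ⊆ W.U ∧
    (∀ X ∈ W.support, X ∈ Cyl û (Metric.ball 0 12) hc → ‖zz û X‖ < hc / 2 ∧ ‖X‖ ≤ 14) ∧
    (∀ X ∈ W.support, ‖X‖ ≤ 2 → X ∈ Cyl û (Metric.ball 0 8) hc) := by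
  have hn : ∀ X ∈ Cyl û (Metric.ball 0 12) hc, ‖X‖ ≤ 14 := by
    rintro X ⟨h1, h2⟩
    rw [mem_ball_zero_iff] at h1
    have h3 := ta_norm_Fg_le û (npr û X)
    have h4 := hû (npr û X)
    have h5 : ‖X‖ ≤ ‖Fg û (npr û X)‖ + ‖zz û X‖ := by
      conv_lhs => rw [ta_eq_add_zz û X]
      exact norm_add_le _ _
    linarith
  have hz : ∀ X ∈ W.support, ‖X‖ ≤ 1000 → ‖zz û X‖ ≤ hc / 4 := by
    intro X hX hXn
    have h1 := hW.height X hX hXn
    have h2 := hû (prH m n X)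
    have h3 := ta_zz_le hcont X
    have h4 := norm_sub_le (prV m n X) (û (prH m n X))
    linarith
  refine ⟨fun X hX => hW.dom ?_, fun X hX hXc => ⟨?_, hn X hXc⟩, fun X hX hXn => ⟨?_, ?_⟩⟩
  · rw [mem_closedBall_zero_iff]
    linarith [hn X hX]
  · have := hz X hX (by linarith [hn X hXc])
    linarith
  · rw [mem_ball_zero_iff]
    have h1 := ta_npr_sub_le û X
    have h2 := hz X hX (by linarith)
    have h3 := norm_prH_le X
    have h4 : ‖npr û X‖ ≤ ‖prH m n X‖ + ‖npr û X - prH m n X‖ := by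
      have := norm_add_le (prH m n X) (npr û X - prH m n X)
      rwa [add_sub_cancel] at this
    linarith
  · have := hz X hX (by linarith)
    linarith

end Claimed.Agent.R322.Blow
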