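import Claimed.Agent.R322.Blow.Start
import Claimed.Agent.R322.Blow.TargetGeo
import Claimed.Agent.R322.Blow.Kit
import Claimed.Agent.R322.Blow.TargetAux

/-!
# CO Proposition 5.1: passage to TARGET units and TARGET coordinates

Package BP-CO5-blow.  `K.T X = G (X / r)`, `K.V = T_# (start varifold)`, `K.ψ`, `K.ut` as in `Blow/Ctx.lean`.

* `good_near`   every point of the plane is close to the support of a good varifold;
* `angle`       the rotation `G` has small angle with the horizontal plane;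
* `regr`        the conclusions of `Tube.regraph` hold for `(u, G, r)`;
* `rot_small`   the regraphed centre is `C⁰`-small on `ball 0 20`;
* `ut_conv`     the cut-off centre is `C^J`-small;
* `ut_graph`    graph identity on `ball 0 16`;
* `flatT`       the target cylinders: domain, gap, covering;
* `corr`        pointwise correspondence of `npr`, `zz`, `tilt` in the two cylinders;
* `heightT`, `tiltT`, `curvT`, `lamT`, `nuT`, `massT`, `mom2T`, `mom1T` : the fields of `Blow.CenteredData`.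
-/

set_option autoImplicit false

open scoped ENNReal ContDiff
open MeasureTheory Filter Topology

namespace Claimed.Agent.R322.Blow

open Claimed.Agent.R322.Tube Claimed.Agent.R322.Freq

variable {m n : ℕ}

/-- **Points of the plane are close to the support** (leaf `L-Blow-good-near`).
PLAN.  `IsGood.mass` with `χ X = (ρ' - |X - (y,0)|)_+`, `ρ' = min ρ 1` (`1`-Lipschitz, `|χ| ≤ 1`, support in `closedBall 0 1000`):
`∫ χ dμ ≥ Q ∫ χ(y',0) dy' - ε₀ > 0` if `ε₀ < ∫_{E m} (ρ' - |y'|)_+ dy'`; hence `μ (ball (y,0) ρ') > 0`, and by `W.μ_compl_support` the ball contains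
a support point. -/
theorem good_near (m n Q : ℕ) (hm : 1 ≤ m) (hQ : 1 ≤ Q) (ρ : ℝ) (hρ : 0 < ρ) :
    ∃ ε₀ : ℝ, 0 < ε₀ ∧ ∀ W : SIV m n, IsGood W Q ε₀ → ∀ y : E m, ‖y‖ ≤ 900 →
      ∃ X ∈ W.support, ‖X - mkHV y 0‖ ≤ ρ :=
  good_near_core m n Q hQ ρ hρ

/-- operator inequality behind `angle` -/
theorem bla_prV_le (G : E (m + n) ≃ₗᵢ[ℝ] E (m + n)) :
    ‖prV m n ∘L (G : E (m + n) →L[ℝ] E (m + n)) ∘L inH m n‖
      ≤ ‖(G : E (m + n) →L[ℝ] E (m + n)) ∘L PH m n ∘L (G.symm : E (m + n) →L[ℝ] E (m + n)) - PH m n‖ := by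
  refine ContinuousLinearMap.opNorm_le_bound _ (norm_nonneg _) fun a => ?_
  obtain ⟨D, hD⟩ : ∃ D : E (m + n) →L[ℝ] E (m + n), D =
    (G : E (m + n) →L[ℝ] E (m + n)) ∘L PH m n ∘L (G.symm : E (m + n) →L[ℝ] E (m + n)) - PH m n := ⟨_, rfl⟩
  rw [← hD]
  have h1 : prV m n (D (G (inH m n a))) = prV m n (G (inH m n a)) := by
    have e : D (G (inH m n a)) = G (inH m n (prH m n (G.symm (G (inH m n a)))))
        - inH m n (prH m n (G (inH m n a))) := by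
      rw [hD]; rfl
    rw [e, G.symm_apply_apply, prH_inH, map_sub, prV_inH, sub_zero]
  calc ‖(prV m n ∘L (G : E (m + n) →L[ℝ] E (m + n)) ∘L inH m n) a‖
      = ‖prV m n (D (G (inH m n a)))‖ := by rw [h1]; rfl
    _ ≤ ‖D (G (inH m n a))‖ := norm_prV_le _
    _ ≤ ‖D‖ * ‖G (inH m n a)‖ := D.le_opNorm _
    _ = ‖D‖ * ‖a‖ := by rw [G.norm_map, norm_inH]

/-- choice of `δ` in `angle` -/
theorem bla_delta (m : ℕ) {t : ℝ} (ht : 0 < t) :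
    ∃ δ : ℝ, 0 < δ ∧ δ ≤ 1 ∧ 1000 * δ + δ ^ ((1 : ℝ) / (m + 1)) ≤ 1001 * t := by
  refine ⟨min 1 (t ^ (m + 1)), lt_min one_pos (by positivity), min_le_left _ _, ?_⟩
  set δ := min 1 (t ^ (m + 1)) with hδ
  have h0 : 0 < δ := lt_min one_pos (by positivity)
  have h1 : δ ≤ 1 := min_le_left _ _
  have e : (1 : ℝ) / (m + 1) = (((m + 1 : ℕ) : ℝ))⁻¹ := by
    push_cast
    rw [one_div]
  have hexp0 : (0 : ℝ) ≤ (1 : ℝ) / (m + 1) := by positivity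
  have hexp1 : (1 : ℝ) / (m + 1) ≤ 1 := by
    rw [div_le_one (by positivity)]
    have : (0 : ℝ) ≤ m := Nat.cast_nonneg m
    linarith
  have h2 : δ ^ ((1 : ℝ) / (m + 1)) ≤ t := by
    calc δ ^ ((1 : ℝ) / (m + 1)) ≤ (t ^ (m + 1)) ^ ((1 : ℝ) / (m + 1)) :=
          Real.rpow_le_rpow h0.le (min_le_right _ _) hexp0
      _ = t := by rw [e, Real.pow_rpow_inv_natCast ht.le (Nat.succ_ne_zero m)]
  have h3 : δ ≤ δ ^ ((1 : ℝ) / (m + 1)) := by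
    have := Real.rpow_le_rpow_of_exponent_ge h0 h1 hexp1
    rwa [Real.rpow_one] at this
  linarith

/-- **The angle between start plane and target plane is small** (leaf `L-Blow-angle`).
PLAN.  `angle_of_near` for `W = K.V`, `Ω = K.G`, `Γ = K.T '' gr u`, slope `s = C m₀` (`start_geo`), distance `d = 1000 δ`:
a support point `X'` of `K.V`, `|X'| ≤ 10`, is `K.T X` with `X ∈ support`, `|X| ≤ 10 r` (`SIV.simil_support`); `loc`: `|zz X| ≤ 1000 r δ`.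
`‖prV G inH‖ ≤ ‖G PH G⁻¹ - PH‖` because `(1 - PH) G inH a = (G PH G⁻¹ - PH) G inH a`.  `C_ang C m₀ ≤ ε₁ / 2` by `Ev.m₀_lt`. -/
theorem angle (m n Q : ℕ) (hm : 1 ≤ m) (hn : 1 ≤ n) (hQ : 1 ≤ Q) (ε₁ : ℝ) (hε₁ : 0 < ε₁) :
    Stm m (fun π => ∀ C₀ : ℝ, ∃ δ : ℝ, 0 < δ ∧ ∀ K : Ctx m n Q π C₀, K.Small δ →
      ‖prV m n ∘L (K.G : E (m + n) →L[ℝ] E (m + n)) ∘L inH m n‖ ≤ ε₁) := by
  obtain ⟨Ca, hCa, hang⟩ := angle_of_near m n Q hm hQ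
  obtain ⟨J₁, hloc⟩ := loc m n Q hm hn hQ
  refine ⟨J₁, fun B hJ hB => ?_⟩
  have hCa0 : 0 < Ca := lt_of_lt_of_le one_pos hCa
  have hBC : 0 < B.C := lt_of_lt_of_le one_pos hB.C_ge
  have h1 := Ev.m₀_lt B (fun _ => ε₁ / (2 * Ca * B.C)) (fun _ => by positivity)
  refine ((hloc B hJ hB).and (h1.and (Ev.pos B))).mono ?_
  rintro π hπ ⟨hl, hm₀, hpos⟩ C₀
  have hπC : π.C = B.C := by rw [← hπ]
  have hm₀0 : 0 < π.m₀ := hpos.2.2.1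
  have hs0 : 0 ≤ π.C * π.m₀ := by rw [hπC]; positivity
  have hsε : Ca * (π.C * π.m₀) ≤ ε₁ / 2 := by
    rw [hπC]
    have h2 : π.m₀ * (2 * Ca * B.C) < ε₁ := (lt_div_iff₀ (by positivity)).1 hm₀
    linarith
  obtain ⟨δ, hδ0, hδ1, hδ⟩ := bla_delta m (t := ε₁ / (2002 * Ca)) (by positivity)
  refine ⟨δ, hδ0, fun K hK => ?_⟩
  obtain ⟨hgeo, hs10, -, -, hIn, hht⟩ := hl C₀ K
  have hr := K.r_pos
  have hT : ∀ X Y : E (m + n), K.T X - K.T Y = K.G (K.r⁻¹ • (X - Y)) := fun X Y => by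
    unfold Ctx.T simMap
    rw [sub_zero, sub_zero, ← map_sub, smul_sub]
  have key := hang K.V δ hδ0 hδ1 hK.good (K.T '' gr K.S.N.u) K.G (π.C * π.m₀) (1000 * δ) hs0
    (hs10.trans (by norm_num)) ?_ ?_
  · refine (bla_prV_le K.G).trans (key.trans ?_)
    have h3 : Ca * (1000 * δ + δ ^ ((1 : ℝ) / (m + 1))) ≤ Ca * (1001 * (ε₁ / (2002 * Ca))) :=
      mul_le_mul_of_nonneg_left hδ hCa0.le
    have h4 : Ca * (1001 * (ε₁ / (2002 * Ca))) = ε₁ / 2 := by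
      field_simp
      ring
    calc Ca * (π.C * π.m₀ + 1000 * δ + δ ^ ((1 : ℝ) / (m + 1)))
        = Ca * (π.C * π.m₀) + Ca * (1000 * δ + δ ^ ((1 : ℝ) / (m + 1))) := by ring
      _ ≤ ε₁ / 2 + ε₁ / 2 := add_le_add hsε (h3.trans h4.le)
      _ = ε₁ := by ring
  · rintro _ ⟨_, ⟨y, rfl⟩, rfl⟩ _ ⟨_, ⟨y', rfl⟩, rfl⟩
    rw [hT, K.G.symm_apply_apply, map_smul, map_smul, norm_smul, norm_smul, Fg, Fg, ← mkHV_sub,
      prV_mkHV, prH_mkHV]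
    have lip : ‖K.S.N.u y - K.S.N.u y'‖ ≤ π.C * π.m₀ * ‖y - y'‖ :=
      Convex.norm_image_sub_le_of_norm_fderiv_le (s := Set.univ)
        (fun x _ => hgeo.differentiable x) (fun x _ => K.S.ref.slope x) convex_univ
        (Set.mem_univ _) (Set.mem_univ _)
    calc ‖K.r⁻¹‖ * ‖K.S.N.u y - K.S.N.u y'‖ ≤ ‖K.r⁻¹‖ * (π.C * π.m₀ * ‖y - y'‖) :=
          mul_le_mul_of_nonneg_left lip (norm_nonneg _)
      _ = _ := by ring
  · intro X' hX' hn'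
    have hX : simInv 0 K.r K.G X' ∈ K.S.N.W.support := by
      have := hX'
      rw [Ctx.V, SIV.simil_support] at this
      exact this
    obtain ⟨X, hXe⟩ : ∃ X, X = simInv 0 K.r K.G X' := ⟨_, rfl⟩
    rw [← hXe] at hX
    have hTX : K.T X = X' := by
      rw [hXe]
      exact Base.simMap_simInv 0 K.G hr X'
    have hnX : ‖X‖ ≤ 10 * K.r := by
      rw [hXe, simInv, zero_add, norm_smul, Real.norm_of_nonneg hr.le, K.G.symm.norm_map]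
      nlinarith
    obtain ⟨-, -, -, -, hz⟩ := hht X (hIn X hX (by linarith))
      (Or.inl ((norm_prH_le X).trans (by linarith)))
    refine ⟨K.T (Fg K.S.N.u (npr K.S.N.u X)), ⟨_, ⟨_, rfl⟩, rfl⟩, ?_⟩
    rw [← hTX, hT, K.G.norm_map, norm_smul, Real.norm_of_nonneg (inv_nonneg.2 hr.le)]
    have hz' : ‖X - Fg K.S.N.u (npr K.S.N.u X)‖ ≤ 1000 * K.r * δ :=
      hz.trans (mul_le_mul_of_nonneg_left hK.qd (by positivity))
    calc K.r⁻¹ * ‖X - Fg K.S.N.u (npr K.S.N.u X)‖ ≤ K.r⁻¹ * (1000 * K.r * δ) :=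
          mul_le_mul_of_nonneg_left hz' (inv_nonneg.2 hr.le)
      _ = 1000 * δ := by field_simp

/-- the slope of the glued centre is below any prescribed threshold (leaf `L-Blow-slope`: `Ev.m₀_lt`, `Ev.pos`) -/
theorem slope_small (m : ℕ) (ε₁ : ℝ) (hε₁ : 0 < ε₁) : Stm m (fun π => π.C * π.m₀ ≤ ε₁ ∧ π.rs ≤ 1) := by
  refine ⟨0, fun B _ hB => ?_⟩
  have hBC : 0 < B.C := lt_of_lt_of_le one_pos hB.C_ge
  have h1 := Ev.m₀_lt B (fun _ => ε₁ / B.C) (fun _ => by positivity)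
  refine (h1.and (Ev.pos B)).mono ?_
  rintro π hπ ⟨hm₀, hpos⟩
  have hπC : π.C = B.C := by rw [← hπ]
  refine ⟨?_, hpos.2.2.2.2.2.2.1⟩
  rw [hπC]
  have h2 : π.m₀ * B.C < ε₁ := (lt_div_iff₀ hBC).1 hm₀
  linarith

/-- **Regraphing of the centre.** -/
theorem regr (m n Q : ℕ) (hm : 1 ≤ m) (hn : 1 ≤ n) (hQ : 1 ≤ Q) :
    Stm m (fun π => ∀ (C₀ : ℝ) (J : ℕ), 1 ≤ J → J ≤ π.J → ∃ C δ : ℝ, 0 < C ∧ 0 < δ ∧
      ∀ K : Ctx m n Q π C₀, K.Small δ → Regr J C K.S.N.u K.G K.r) := by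
  obtain ⟨ε₀, hε₀, h⟩ := regraph m n
  refine ((angle m n Q hm hn hQ ε₀ hε₀).and (slope_small m ε₀ hε₀)).mono ?_
  rintro π - ⟨h₁, h₂, h₃⟩ C₀ J hJ1 hJ
  obtain ⟨δ, hδ, h₁⟩ := h₁ C₀
  obtain ⟨C, hC, h⟩ := h J (π.C * π.m₀)
  refine ⟨C, δ, hC, hδ, fun K hK => ?_⟩
  have hr : K.r ≤ 1 := by
    have := K.r_hi
    have := K.r_pos
    linarith
  exact h _ _ _ hJ1 (K.S.ref.mono hJ le_rfl h₂) (h₁ K hK) K.r_pos hr

/-- **The regraphed centre is uniformly close to the horizontal plane** (leaf `L-Blow-rot-small`; CO "Support convergence to `Q|Π|`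
therefore places a corresponding patch of `Π` in every subsequential graph limit").
PLAN.  `x`, `|x| ≤ 20`.  `good_near` (`ρ = ε / 4`): a support point `X'` of `K.V` with `|X' - (x,0)| ≤ ε/4`; `X' = K.T X`, `|X| ≤ 21 r`;
`loc`: `|zz X| ≤ 1000 r δ`, so `p = K.T (F (npr X)) = F̃ (x'')` (`Regr.graph`) satisfies `|X' - p| ≤ 1000 δ`.  Hence `|x'' - x| ≤ ε/4 + 1000 δ`,
`|ũ x''| ≤ ε/4 + 1000 δ`, and `|ũ x| ≤ |ũ x''| + |x - x''| / 4` (`Regr.slope`, mean value inequality). -/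
theorem rot_small (m n Q : ℕ) (hm : 1 ≤ m) (hn : 1 ≤ n) (hQ : 1 ≤ Q) :
    Stm m (fun π => ∀ (C₀ ε : ℝ), 0 < ε → ∃ δ : ℝ, 0 < δ ∧ ∀ K : Ctx m n Q π C₀, K.Small δ →
      ∀ x : E m, ‖x‖ ≤ 20 → ‖uRot K.S.N.u K.G K.r x‖ ≤ ε) := by
  refine ((regr m n Q hm hn hQ).and ((loc' m n Q hm hn hQ).and (Stm.order m 1))).mono ?_
  rintro π - ⟨h₁, h₂, h₃⟩ C₀ ε hε
  obtain ⟨C, δ₁, -, hδ₁, h₁⟩ := h₁ C₀ 1 le_rfl h₃
  obtain ⟨ε₀, hε₀, hn⟩ := good_near m n Q hm hQ (min (ε / 4) 1) (lt_min (by positivity) one_pos)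
  refine ⟨min δ₁ (min ε₀ (ε / 4000)), lt_min hδ₁ (lt_min hε₀ (by positivity)), fun K hK x hx => ?_⟩
  have hK₁ := hK.mono (min_le_left _ _)
  have hK₂ := hK.mono ((min_le_right _ _).trans (min_le_left _ _))
  have hK₃ := hK.mono ((min_le_right _ _).trans (min_le_right _ _))
  have := rot_small_core K (h₁ K hK₁) le_rfl (h₂ C₀ K) hK₃.qd (hn K.V hK₂.good) (min_le_right _ _)
    x hx
  have h4 : min (ε / 4) 1 ≤ ε / 4 := min_le_left _ _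
  linarith

/-- **The centres converge to the plane in `C^J`.** -/
theorem ut_conv (m n Q : ℕ) (hm : 1 ≤ m) (hn : 1 ≤ n) (hQ : 1 ≤ Q) :
    Stm m (fun π => ∀ (C₀ : ℝ) (J : ℕ), J + 1 ≤ π.J → ∀ ε : ℝ, 0 < ε → ∃ δ : ℝ, 0 < δ ∧
      ∀ K : Ctx m n Q π C₀, K.Small δ →
        ContDiff ℝ J K.ut ∧ ∀ j : ℕ, j ≤ J → ∀ x, ‖iteratedFDeriv ℝ j K.ut x‖ ≤ ε) := by
  refine ((regr m n Q hm hn hQ).and (rot_small m n Q hm hn hQ)).mono ?_
  rintro π - ⟨h₁, h₂⟩ C₀ J hJ ε hε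
  obtain ⟨C, δ₁, hC, hδ₁, h₁⟩ := h₁ C₀ (J + 1) (by omega) hJ
  obtain ⟨d, hd, h₃⟩ := Tool.cut_interp m n J C ε hε
  obtain ⟨δ₂, hδ₂, h₂⟩ := h₂ C₀ d hd
  refine ⟨min δ₁ δ₂, lt_min hδ₁ hδ₂, fun K hK => ?_⟩
  have hR := h₁ K (hK.mono (min_le_left _ _))
  have hs := h₂ K (hK.mono (min_le_right _ _))
  refine ⟨?_, h₃ _ hR.smooth hR.bound hs⟩
  have h4 : ContDiff ℝ J (uRot K.S.N.u K.G K.r) := hR.smooth.of_le (by exact_mod_cast Nat.le_succ J)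
  exact ((Tool.cutB m).contDiff).smul h4

/-- **Graph identity for the cut-off centre** (leaf `L-Blow-ut-graph`).
PLAN.  `Tool.cutB m x = 1` for `|x| ≤ 16` (`ContDiffBump.one_of_mem_closedBall`), `Regr.graph`.  Surjectivity: `Regr.bij`;
`|y| ≤ 2 r |ψ y - ψ 0| ≤ 2 r (16 + |ψ 0|)`, `|ψ 0| ≤ |u 0| / r ≤ 1/100` (`loc`). -/
theorem ut_graph (m n Q : ℕ) (hm : 1 ≤ m) (hn : 1 ≤ n) (hQ : 1 ≤ Q) :
    Stm m (fun π => ∀ C₀ : ℝ, ∃ δ : ℝ, 0 < δ ∧ ∀ K : Ctx m n Q π C₀, K.Small δ →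
      (∀ y, ‖K.ψ y‖ < 16 → Fg K.ut (K.ψ y) = K.r⁻¹ • K.G (Fg K.S.N.u y)) ∧
      (∀ x : E m, ‖x‖ < 16 → ∃ y, ‖y‖ ≤ 40 * K.r ∧ K.ψ y = x) ∧
      Continuous K.ψ) := by
  refine ((regr m n Q hm hn hQ).and ((loc' m n Q hm hn hQ).and (Stm.order m 1))).mono ?_
  rintro π - ⟨h₁, h₂, h₃⟩ C₀
  obtain ⟨C, δ, -, hδ, h₁⟩ := h₁ C₀ 1 le_rfl h₃
  exact ⟨δ, hδ, fun K hK => ut_graph_core (h₁ K hK) K.r_pos (h₂ C₀ K).u0⟩

/-- **The target cylinders** (leaf `L-Blow-flatT`).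
PLAN.  `ut_conv` with `J = 0`: `|ut| ≤ ε := hc / 8` everywhere, `ut` continuous.  `X ∈ Cyl ut (ball 0 12) hc` ⟹ `|X| ≤ |F̂ (npr X)| + |zz X| ≤ 12 + ε + hc ≤ 14`;
`IsGood.dom`.  Gap: `npr_isMin`: `|zz X| ≤ |X - F̂ (prH X)| = |prV X - ut (prH X)| ≤ δ + ε` (`IsGood.height`).  Covering: `|npr X - prH X| ≤ |zz X|`. -/
theorem flatT (m n Q : ℕ) (hm : 1 ≤ m) (hn : 1 ≤ n) (hQ : 1 ≤ Q) :
    Stm m (fun π => ∀ (C₀ hc : ℝ), 0 < hc → hc ≤ 1 → ∃ δ : ℝ, 0 < δ ∧ ∀ K : Ctx m n Q π C₀, K.Small δ →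
      Cyl K.ut (Metric.ball 0 12) hc ⊆ K.V.U ∧
      (∀ X ∈ K.V.support, X ∈ Cyl K.ut (Metric.ball 0 12) hc → ‖zz K.ut X‖ < hc / 2 ∧ ‖X‖ ≤ 14) ∧
      (∀ X ∈ K.V.support, ‖X‖ ≤ 2 → X ∈ Cyl K.ut (Metric.ball 0 8) hc)) := by
  refine ((ut_conv m n Q hm hn hQ).and (Stm.order m 1)).mono ?_
  rintro π - ⟨h₁, h₂⟩ C₀ hc hhc hhc1
  obtain ⟨δ, hδ, h₁⟩ := h₁ C₀ 0 h₂ (hc / 8) (by positivity)
  refine ⟨min δ (hc / 8), lt_min hδ (by positivity), fun K hK => ?_⟩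
  obtain ⟨a1, a2⟩ := h₁ K (hK.mono (min_le_left _ _))
  exact flatT_core hhc hhc1 le_rfl (hK.mono (min_le_right _ _)).good a1.continuous
    (fun x => by simpa using a2 0 le_rfl x)

/-- **Correspondence of the two cylinders** (leaf `L-Blow-corr`).
PLAN.  `ut_conv` (`J = 4`, `ε = 1/2`) gives `Geo 1 K.ut`; `loc` gives `Geo _ u`, `K.S.In X`, `|zz X| ≤ 1000 r δ < r h₀`.  `y = npr u X`:
`|ψ y| ≤ |F y| / r ≤ (|X| + |zz X|) / r < 16`.  `Tube.transport` with `A = {y | |ψ y| < 16}` (open: `ut_graph`, third item), `w = zz u X`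
(`Ph u y w = 0` and `X = F y + w` by `tube_unique`).  Tilt: `tilt = tr (P P_v)`, `P_v' = G P_v G⁻¹`, invariance of the trace under
conjugation (`LinearMap.trace_conj'`). -/
theorem corr (m n Q : ℕ) (hm : 1 ≤ m) (hn : 1 ≤ n) (hQ : 1 ≤ Q) :
    Stm m (fun π => ∀ C₀ : ℝ, ∃ δ : ℝ, 0 < δ ∧ ∀ K : Ctx m n Q π C₀, K.Small δ →
      Geo 1 K.ut ∧
      ∀ X ∈ K.S.N.W.support, ‖X‖ ≤ 15 * K.r →
        K.S.In X ∧ ‖K.ψ (npr K.S.N.u X)‖ < 16 ∧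
        npr K.ut (K.T X) = K.ψ (npr K.S.N.u X) ∧
        zz K.ut (K.T X) = K.r⁻¹ • K.G (zz K.S.N.u X) ∧
        ∀ P : E (m + n) →L[ℝ] E (m + n),
          tilt K.ut ((K.G : E (m + n) →L[ℝ] E (m + n)) ∘L P ∘L (K.G.symm : E (m + n) →L[ℝ] E (m + n))) (K.T X)
            = tilt K.S.N.u P X) := by
  refine (((ut_conv m n Q hm hn hQ).and (ut_graph m n Q hm hn hQ)).and
    ((loc m n Q hm hn hQ).and (Stm.order m 5))).mono ?_
  rintro π - ⟨⟨h₁, h₂⟩, h₃, h₄⟩ C₀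
  obtain ⟨δ₁, hδ₁, h₁⟩ := h₁ C₀ 4 h₄ (1 / 2) (by norm_num)
  obtain ⟨δ₂, hδ₂, h₂⟩ := h₂ C₀
  refine ⟨min δ₁ δ₂, lt_min hδ₁ hδ₂, fun K hK => ?_⟩
  obtain ⟨c1, c2⟩ := h₁ K (hK.mono (min_le_left _ _))
  obtain ⟨g1, -, g3⟩ := h₂ K (hK.mono (min_le_right _ _))
  obtain ⟨l1, -, -, l4, l5, l6⟩ := h₃ C₀ K
  have hgeo' : Geo 1 K.ut := kit_geo_of_bounds c1 c2
  have hr := K.r_pos
  refine ⟨hgeo', fun X hX hXn => ?_⟩
  have hIn := l5 X hX (by linarith)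
  have hz := (l6 X hIn (Or.inl ((norm_prH_le X).trans (by linarith)))).1
  obtain ⟨a1, a2, a3, a4⟩ := K.corr_core l1 hgeo' g1 g3 (by linarith) hz hXn
  exact ⟨hIn, a1, a2, a3, a4⟩

/-- **CO (5.6) in target units** (leaf `L-Blow-heightT`): `flatT` (`|X'| ≤ 14`), `X' = K.T X`, `|X| ≤ 14 r`, `corr`, `sup_height`, `a_small`. -/
theorem heightT (m n Q : ℕ) (hm : 1 ≤ m) (hn : 1 ≤ n) (hQ : 1 ≤ Q) :
    Stm m (fun π => ∀ (C₀ hc : ℝ), 0 < hc → hc ≤ 1 → ∃ C δ : ℝ, 0 < C ∧ 0 < δ ∧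
      ∀ K : Ctx m n Q π C₀, K.Small δ →
        ∀ X ∈ K.V.support, X ∈ Cyl K.ut (Metric.ball 0 12) hc → ‖zz K.ut X‖ ≤ C * K.a) := by
  refine (((flatT m n Q hm hn hQ).and (corr m n Q hm hn hQ)).and
    ((sup_height m n Q hm hn hQ).and (a_small m n Q hm hn hQ))).mono ?_
  rintro π - ⟨⟨h₁, h₂⟩, h₃, h₄⟩ C₀ hc hhc hhc1
  obtain ⟨δ₁, hδ₁, h₁⟩ := h₁ C₀ hc hhc hhc1
  obtain ⟨δ₂, hδ₂, h₂⟩ := h₂ C₀
  obtain ⟨C₃, hC₃, h₃⟩ := h₃ C₀
  obtain ⟨C₄, hC₄, h₄⟩ := h₄ C₀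
  refine ⟨C₃, min (min δ₁ δ₂) (1 / C₄), hC₃, lt_min (lt_min hδ₁ hδ₂) (by positivity),
    fun K hK X hX hXC => ?_⟩
  have hK1 := hK.mono ((min_le_left _ _).trans (min_le_left _ _))
  have hK2 := hK.mono ((min_le_left _ _).trans (min_le_right _ _))
  have hr := K.r_pos
  have ha : K.a ≤ 1 := by
    have h6 : qd K.S.N (1000 * K.r) ≤ 1 / C₄ := hK.qd.trans (min_le_right _ _)
    calc K.a ≤ C₄ * qd K.S.N (1000 * K.r) := h₄ K
      _ ≤ C₄ * (1 / C₄) := mul_le_mul_of_nonneg_left h6 hC₄.le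
      _ = 1 := by field_simp
  obtain ⟨-, f2, -⟩ := h₁ K hK1
  have h14 := (f2 X hX hXC).2
  have hX₁ : simInv 0 K.r K.G X ∈ K.S.N.W.support := K.mem_V_support.1 hX
  have hT : K.T (simInv 0 K.r K.G X) = X := K.T_simInv X
  have hn : ‖simInv 0 K.r K.G X‖ ≤ 14 * K.r := K.norm_le_of_norm_T (by rw [hT]; exact h14)
  obtain ⟨-, hc2⟩ := h₂ K hK2
  obtain ⟨-, -, -, c4, -⟩ := hc2 _ hX₁ (hn.trans (by linarith))
  have h7 := h₃ K ha _ hX₁ (hn.trans (by linarith))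
  rw [hT] at c4
  rw [c4, K.norm_smul_G, inv_mul_le_iff₀ hr]
  exact h7.trans (le_of_eq (by ring))

/-- **Tilt mass in target units** (leaf `L-Blow-tiltT`).
PLAN.  `N.Dm (ball 0 R) ≤ ∫⁻_{Cyl} ofReal (tilt) dK.V.μ` (`Measure.map_apply_of_aemeasurable`, or `Measure.map = 0`); `SIV.simil_μ` and
`lintegral_map`: `= r^{-m} ∫⁻_{T⁻¹ Cyl} ofReal (tilt (T X)) dW.μ`; `K.V.P (T X) = G P(X) G⁻¹` (definition of `simil`, `simInv_simMap`);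
a.e. `X ∈ support`, `|X| ≤ 14 r` (`flatT`), `corr`, `loc` (`ρ(npr X) < 200 r`); `energy`, item 2. -/
theorem tiltT (m n Q : ℕ) (hm : 1 ≤ m) (hn : 1 ≤ n) (hQ : 1 ≤ Q) :
    ∃ h₁ : ℝ, 0 < h₁ ∧ Stm m (fun π => ∀ (C₀ hc : ℝ), 0 < hc → hc ≤ h₁ → ∃ C δ : ℝ, 0 < C ∧ 0 < δ ∧
      ∀ K : Ctx m n Q π C₀, K.Small δ → ∀ (R : ℝ) (N : NCyl m n), 0 < R → R ≤ 12 → K.IsCyl R hc N →
        N.Dm (Metric.ball 0 R) ≤ ENNReal.ofReal (C * K.a ^ 2)) := by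
  refine ⟨2 / 9, by norm_num, ?_⟩
  refine ((((flatT m n Q hm hn hQ).and (corr m n Q hm hn hQ)).and
    ((loc m n Q hm hn hQ).and (energy m n Q hm hn hQ))).and (kit_hc_le m)).mono ?_
  rintro π - ⟨⟨⟨h₁, h₂⟩, h₃, h₄⟩, h₅⟩ C₀ hc hhc hhc1
  obtain ⟨δ₁, hδ₁, h₁⟩ := h₁ C₀ hc hhc (hhc1.trans (by norm_num))
  obtain ⟨δ₂, hδ₂, h₂⟩ := h₂ C₀
  obtain ⟨C, hC, h₄⟩ := h₄ C₀
  refine ⟨C, min δ₁ δ₂, hC, lt_min hδ₁ hδ₂, fun K hK R N _ hR12 hN => ?_⟩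
  obtain ⟨-, f2, -⟩ := h₁ K (hK.mono (min_le_left _ _))
  obtain ⟨hgeo', hc2⟩ := h₂ K (hK.mono (min_le_right _ _))
  obtain ⟨l1, -, -, -, -, l6⟩ := h₃ C₀ K
  obtain ⟨-, e2, -, -⟩ := h₄ K
  have hr := K.r_pos
  refine K.tilt_core hN hR12 l1 hgeo' h₅ hhc1 (fun Y hY hYC => (f2 Y hY hYC).2)
    (fun X hX hXn => ?_) e2
  obtain ⟨c1, -, -, -, c5⟩ := hc2 X hX hXn
  have h6 := l6 X c1 (Or.inl ((norm_prH_le X).trans (by linarith)))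
  exact ⟨c1, h6.2.2.2.1, c5⟩

/-- **CO (5.4): curvature below the height scale** (leaf `L-Blow-curvT`).
PLAN.  `x = ψ y`, `|y| ≤ 40 r` (`ut_graph`); `Tube.transport`: `|HS ut x| = r |HS u y|`, `DHSsq ut x = r⁴ DHSsq u y`; `r ≤ 1`; `curv_start`:
`(..)^{2k+m} ≤ C a^{4k-8} = C a^{2k+m} a^{2k-8-m}`, `2k - 8 - m ≥ 1`; `a ≤ C δ` (`a_small`). -/
theorem curvT (m n Q : ℕ) (hm : 1 ≤ m) (hn : 1 ≤ n) (hQ : 1 ≤ Q) :
    Stm m (fun π => ∀ (C₀ ε : ℝ), 0 < ε → ∃ δ : ℝ, 0 < δ ∧ ∀ K : Ctx m n Q π C₀, K.Small δ →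
      ∀ x ∈ Metric.ball (0 : E m) 12, ‖HS K.ut x‖ + Real.sqrt (DHSsq K.ut x) ≤ ε * K.a) := by
  refine (((ut_graph m n Q hm hn hQ).and (corr m n Q hm hn hQ)).and
    (((loc m n Q hm hn hQ).and (curv_start m n Q hm hn hQ)).and (a_small m n Q hm hn hQ))).mono ?_
  rintro π hAdm ⟨⟨h₁, h₂⟩, ⟨h₃, h₄⟩, h₅⟩ C₀ ε hε
  obtain ⟨δ₁, hδ₁, h₁⟩ := h₁ C₀
  obtain ⟨δ₂, hδ₂, h₂⟩ := h₂ C₀
  obtain ⟨C₄, hC₄, h₄⟩ := h₄ C₀
  obtain ⟨C₅, hC₅, h₅⟩ := h₅ C₀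
  have ha₀ : 0 < min 1 (ε ^ (2 * π.k + m) / C₄) := lt_min one_pos (by positivity)
  refine ⟨min (min δ₁ δ₂) (min 1 (ε ^ (2 * π.k + m) / C₄) / C₅),
    lt_min (lt_min hδ₁ hδ₂) (by positivity), fun K hK x hx => ?_⟩
  have hK1 := hK.mono ((min_le_left _ _).trans (min_le_left _ _))
  have hK2 := hK.mono ((min_le_left _ _).trans (min_le_right _ _))
  have hr := K.r_pos
  have ha0 := K.a_pos
  have ha : K.a ≤ min 1 (ε ^ (2 * π.k + m) / C₄) := by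
    have h6 : qd K.S.N (1000 * K.r) ≤ min 1 (ε ^ (2 * π.k + m) / C₄) / C₅ :=
      hK.qd.trans (min_le_right _ _)
    calc K.a ≤ C₅ * qd K.S.N (1000 * K.r) := h₅ K
      _ ≤ C₅ * (min 1 (ε ^ (2 * π.k + m) / C₄) / C₅) := mul_le_mul_of_nonneg_left h6 hC₅.le
      _ = _ := by field_simp
  have ha1 : K.a ≤ 1 := ha.trans (min_le_left _ _)
  have ha2 : K.a ≤ ε ^ (2 * π.k + m) / C₄ := ha.trans (min_le_right _ _)
  obtain ⟨g1, g2, g3⟩ := h₁ K hK1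
  obtain ⟨hgeo', -⟩ := h₂ K hK2
  obtain ⟨l1, -, -, l4, -, -⟩ := h₃ C₀ K
  have hx16 : ‖x‖ < 16 := (mem_ball_zero_iff.1 hx).trans (by norm_num)
  obtain ⟨y, hy, rfl⟩ := g2 x hx16
  have hA : IsOpen {y | ‖K.ψ y‖ < 16} := isOpen_lt g3.norm continuous_const
  obtain ⟨-, t2, t3, -⟩ := transport_aux (ψ := K.ψ) l1 hgeo' hr hA (fun _ => rfl)
    (fun y hy => g1 y hy) (y := y) hx16
  have hs4 : Real.sqrt (K.r ^ 4 * DHSsq K.S.N.u y) = K.r ^ 2 * Real.sqrt (DHSsq K.S.N.u y) := by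
    rw [Real.sqrt_mul (by positivity), show K.r ^ 4 = (K.r ^ 2) ^ 2 by ring,
      Real.sqrt_sq (by positivity)]
  rw [t2, t3, hs4, norm_smul, LinearIsometryEquiv.norm_map, Real.norm_eq_abs, abs_of_pos hr]
  have hs0 : 0 ≤ ‖HS K.S.N.u y‖ + Real.sqrt (DHSsq K.S.N.u y) := by positivity
  have hle : K.r * ‖HS K.S.N.u y‖ + K.r ^ 2 * Real.sqrt (DHSsq K.S.N.u y)
      ≤ ‖HS K.S.N.u y‖ + Real.sqrt (DHSsq K.S.N.u y) := by
    have hr1 : K.r ≤ 1 := by linarith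
    have hr2 : K.r ^ 2 ≤ 1 := pow_le_one₀ hr.le hr1
    exact add_le_add (mul_le_of_le_one_left (norm_nonneg _) hr1)
      (mul_le_of_le_one_left (Real.sqrt_nonneg _) hr2)
  refine hle.trans ?_
  have hk := hAdm.k_gt
  have hk' : 8 + m < 2 * π.k := hk
  have hp : 2 * π.k + m ≠ 0 := by omega
  rw [← pow_le_pow_iff_left₀ hs0 (by positivity) hp]
  refine (h₄ K y hy).trans ?_
  have he : 2 * (2 * π.k - 4) = (2 * π.k + m) + (2 * π.k - 8 - m) := by omega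
  have he0 : 2 * π.k - 8 - m ≠ 0 := by omega
  rw [← pow_mul, he, pow_add, mul_pow]
  have h7 : K.a ^ (2 * π.k - 8 - m) ≤ ε ^ (2 * π.k + m) / C₄ :=
    (pow_le_of_le_one ha0.le ha1 he0).trans ha2
  calc C₄ * (K.a ^ (2 * π.k + m) * K.a ^ (2 * π.k - 8 - m))
      ≤ C₄ * (K.a ^ (2 * π.k + m) * (ε ^ (2 * π.k + m) / C₄)) := by
        refine mul_le_mul_of_nonneg_left (mul_le_mul_of_nonneg_left h7 (by positivity)) hC₄.le
    _ = ε ^ (2 * π.k + m) * K.a ^ (2 * π.k + m) := by field_simp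

/-- the mass constant of the scalar estimate -/
noncomputable def Cmass (m Q : ℕ) : ℝ := 2 ^ m * (Q * kap m * 3 ^ m + 1)

/-- **Mass and geometric error in target units** (leaf `L-Blow-lamT`).
PLAN.  Mass: `N.nu (ball x 1) ≤ K.V.μ (ball (x,0) 2)` (`|X - (x,0)| ≤ |zz X| + |F̂(npr X) - (x,0)|`); `IsGood.mass` with
`χ X = min 1 (3 - |X - (x,0)|)_+`.  `lam = |z|² + |H|² + |∇H|² ≤ C a²` on the support (`heightT`, `curvT` with `ε = 1`), total mass of the cylinder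
`≤ K.V.μ (ball 0 14) ≤ C`. -/
theorem lamT (m n Q : ℕ) (hm : 1 ≤ m) (hn : 1 ≤ n) (hQ : 1 ≤ Q) :
    ∃ h₁ : ℝ, 0 < h₁ ∧ Stm m (fun π => ∀ (C₀ hc : ℝ), 0 < hc → hc ≤ h₁ → ∃ C δ : ℝ, 0 < C ∧ 0 < δ ∧
      ∀ K : Ctx m n Q π C₀, K.Small δ → ∀ N : NCyl m n, K.IsCyl 12 hc N →
        N.Lm (Metric.ball 0 12) ≤ ENNReal.ofReal (C * K.a ^ 2) ∧
        ∀ x : E m, ‖x‖ ≤ 8 → N.nu (Metric.ball x 1) ≤ ENNReal.ofReal (Cmass m Q * (1 / 2) ^ m)) := by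
  obtain ⟨h₀, hh₀, Hok⟩ := Lin.exists_cylOK m n
  refine ⟨min h₀ (1 / 2), by positivity, ?_⟩
  refine ((((ut_conv m n Q hm hn hQ).and (flatT m n Q hm hn hQ)).and
    ((heightT m n Q hm hn hQ).and (curvT m n Q hm hn hQ))).and (Stm.order m 5)).mono ?_
  rintro π - ⟨⟨⟨hut, hflat⟩, hheight, hcurv⟩, hJ⟩ C₀ hc hc0 hc1
  have hc12 : hc ≤ 1 / 2 := hc1.trans (min_le_right _ _)
  obtain ⟨δ₁, hδ₁, hut⟩ := hut C₀ 4 hJ (1 / 2) (by norm_num)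
  obtain ⟨δ₂, hδ₂, hflat⟩ := hflat C₀ hc hc0 (hc12.trans (by norm_num))
  obtain ⟨C₁, δ₃, hC₁, hδ₃, hheight⟩ := hheight C₀ hc hc0 (hc12.trans (by norm_num))
  obtain ⟨δ₄, hδ₄, hcurv⟩ := hcurv C₀ 1 one_pos
  have hk := kap_pos m
  refine ⟨(C₁ ^ 2 + 2) * (Q * kap m * 15 ^ m + 1), min (min δ₁ δ₂) (min (min δ₃ δ₄) 1),
    by positivity, by positivity, fun K hK N hN => ?_⟩
  have hK1 := hK.mono ((min_le_left _ _).trans (min_le_left _ _))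
  have hK2 := hK.mono ((min_le_left _ _).trans (min_le_right _ _))
  have hK3 := hK.mono ((min_le_right _ _).trans ((min_le_left _ _).trans (min_le_left _ _)))
  have hK4 := hK.mono ((min_le_right _ _).trans ((min_le_left _ _).trans (min_le_right _ _)))
  have hK5 := hK.mono ((min_le_right _ _).trans (min_le_right _ _))
  obtain ⟨hW, hu, hΩ, hh, -⟩ := hN
  have hut := hut K hK1
  have hflat := hflat K hK2
  have hheight := hheight K hK3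
  have hcurv := hcurv K hK4
  have hgood := hK5.good
  rw [← hW, ← hu, ← hh] at hflat hheight
  rw [← hΩ] at hflat hheight
  rw [← hu] at hut hcurv
  rw [← hW] at hgood
  have G : GCyl N Q 1 (1 / 2) := GCyl.of_small Hok hgood hΩ (hh ▸ hc1.trans (min_le_left _ _))
    hut.1 hut.2 le_rfl (fun X hX hXc => (hflat.2.1 X hX hXc).2)
  refine ⟨G.Lm_le le_rfl hheight (fun y hy => by simpa using hcurv y hy), fun x hx => ?_⟩
  refine (G.nu_ball le_rfl (by rw [hh]; linarith) hx).trans (le_of_eq ?_)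
  congr 1
  unfold Cmass
  have hpow : (2 : ℝ) ^ m * (1 / 2) ^ m = 1 := by rw [← mul_pow]; norm_num
  calc (Q : ℝ) * kap m * 3 ^ m + 1 = (2 ^ m * (1 / 2) ^ m) * (Q * kap m * 3 ^ m + 1) := by
        rw [hpow, one_mul]
    _ = _ := by ring

/-- **Smooth averages identify the integer** (leaf `L-Blow-nuT`; CO "Its integer is `Q`, identified by smooth averages and convergence to
`Q|Π|`").
PLAN.  `∫ η(· - x) dν = ∫_{Cyl} η (npr X - x) dK.V.μ`; `|npr X - prH X| ≤ |zz X| ≤ δ + sup |ut|`; `η` Lipschitz; `IsGood.mass` for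
`χ X = c η (prH X - x) κ(|prV X|)` (`κ` a fixed Lipschitz cutoff, `c` normalises the Lipschitz constant); `IsGood.height`.
`vol_S`: `|vdens (D ut) - 1| ≤ C |D ut|²`, `ut_conv`. -/
theorem nuT (m n Q : ℕ) (hm : 1 ≤ m) (hn : 1 ≤ n) (hQ : 1 ≤ Q) (η : E m → ℝ) (hη : ContDiff ℝ ∞ η)
    (hs : tsupport η ⊆ Metric.ball 0 (3 / 4)) :
    ∃ h₁ : ℝ, 0 < h₁ ∧ Stm m (fun π => ∀ (C₀ hc ε : ℝ), 0 < hc → hc ≤ h₁ → 0 < ε → ∃ δ : ℝ, 0 < δ ∧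
      ∀ K : Ctx m n Q π C₀, K.Small δ → ∀ N : NCyl m n, K.IsCyl 12 hc N → ∀ x : E m, ‖x‖ ≤ 8 →
        |∫ y, η (y - x) ∂N.nu - Q * ∫ y, η y ∂μH[(m : ℝ)]| ≤ ε ∧
        |∫ y, η (y - x) ∂N.volS - ∫ y, η y ∂μH[(m : ℝ)]| ≤ ε) := by
  obtain ⟨h₀, hh₀, Hok⟩ := Lin.exists_cylOK m n
  have hcs : HasCompactSupport η :=
    (isCompact_closedBall (0 : E m) (3 / 4)).of_isClosed_subset (isClosed_tsupport _)
      (hs.trans Metric.ball_subset_closedBall)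
  obtain ⟨L₀, hL⟩ := hη.lipschitzWith_of_hasCompactSupport hcs (by simp)
  obtain ⟨B, hB⟩ := hcs.exists_bound_of_continuous hη.continuous
  have hB0 : 0 ≤ B := (norm_nonneg _).trans (hB 0)
  have hL0 : (0 : ℝ) ≤ L₀ := L₀.coe_nonneg
  have hk := kap_pos m
  refine ⟨min h₀ (1 / 2), by positivity, ?_⟩
  refine (((ut_conv m n Q hm hn hQ).and (flatT m n Q hm hn hQ)).and (Stm.order m 5)).mono ?_
  rintro π - ⟨⟨hut, hflat⟩, hJ⟩ C₀ hc ε hc0 hc1 hε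
  have hc12 : hc ≤ 1 / 2 := hc1.trans (min_le_right _ _)
  obtain ⟨D, hD⟩ : ∃ D : ℝ, D = L₀ * (Q * kap m * 3 ^ m + 1) + (L₀ + 3 * B + 1) := ⟨_, rfl⟩
  have hD0 : 0 < D := by rw [hD]; positivity
  obtain ⟨d, hd, Hv⟩ := tm_vdens_near m n (ε := ε / (B * kap m + 1)) (by positivity)
  obtain ⟨t, ht⟩ : ∃ t : ℝ, t = min (min (ε / (2 * D)) (hc / 4)) (min d (1 / 2)) := ⟨_, rfl⟩
  have ht0 : 0 < t := by rw [ht]; positivity
  have ht1 : t ≤ ε / (2 * D) := by rw [ht]; exact (min_le_left _ _).trans (min_le_left _ _)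
  have ht2 : t ≤ hc / 4 := by rw [ht]; exact (min_le_left _ _).trans (min_le_right _ _)
  have ht3 : t ≤ d := by rw [ht]; exact (min_le_right _ _).trans (min_le_left _ _)
  have ht4 : t ≤ 1 / 2 := by rw [ht]; exact (min_le_right _ _).trans (min_le_right _ _)
  obtain ⟨δ₁, hδ₁, hut⟩ := hut C₀ 4 hJ t ht0
  obtain ⟨δ₂, hδ₂, hflat⟩ := hflat C₀ hc hc0 (hc12.trans (by norm_num))
  refine ⟨min (min δ₁ δ₂) t, by positivity, fun K hK N hN x hx => ?_⟩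
  have hK1 := hK.mono ((min_le_left _ _).trans (min_le_left _ _))
  have hK2 := hK.mono ((min_le_left _ _).trans (min_le_right _ _))
  have hK3 := hK.mono (min_le_right _ _)
  obtain ⟨hW, hu, hΩ, hh, -⟩ := hN
  have hut := hut K hK1
  have hflat := hflat K hK2
  have hgood := hK3.good
  rw [← hW, ← hu, ← hh] at hflat
  rw [← hΩ] at hflat
  rw [← hu] at hut
  rw [← hW] at hgood
  have G : GCyl N Q t t := GCyl.of_small Hok hgood hΩ (hh ▸ hc1.trans (min_le_left _ _))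
    hut.1 hut.2 ht4 (fun X hX hXc => (hflat.2.1 X hX hXc).2)
  constructor
  · refine (G.nu_avg hB hL hs ht4 (by rw [hh]; linarith) (by rw [hh]; linarith) hx).trans ?_
    have h1 : t * (2 * D) ≤ ε := (le_div_iff₀ (by positivity)).1 ht1
    have h2 : (L₀ : ℝ) * (t + t) * (Q * kap m * 3 ^ m + 1) + (L₀ + 3 * B + 1) * t
        ≤ t * (2 * D) := by
      rw [hD]
      have : 0 ≤ (L₀ + 3 * B + 1) * t := by positivity
      nlinarith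
    exact h2.trans h1
  · refine (tm_volS_avg N hΩ hη.continuous hB hs (fun y => Hv _ ?_) hx).trans ?_
    · rw [← norm_iteratedFDeriv_one]
      exact (hut.2 1 (by norm_num) y).trans ht3
    · have h3 : 0 < B * kap m + 1 := by positivity
      rw [div_mul_eq_mul_div, div_mul_eq_mul_div, div_le_iff₀ h3]
      nlinarith [mul_nonneg hB0 hk.le]

/-- **`D + |M| = O(a²)`** (leaf `L-Blow-massT`; CO "We can now collect the conclusions in target units").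
PLAN.  `scalar_input m n hm hn (Cmass m Q) 2` gives `Jsc, J₀`, then (for `K = 1`) `ε₀, h₀, εs, C`.  Build the cylinder `N'` over `ball 0 12` (`flatT`).
`RefGraph J₀ 1 ε₀ ut` by `ut_conv`.  For `|x| ≤ 8`, `s = 1/2`: `lamT`, `tiltT` give the hypotheses with `ε = 2^m C a² ≤ εs` (`a_small`).  The integer `q`:
fix a bump `η ≥ 0`, `∫ η = 1`, support in `ball 0 (3/4)`; second conclusion of `scalar_input` and `nuT` (`ε = 1 / (8 (Q + 1))`) give `|q - Q| < 1`.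
Third conclusion: `N'.Mabs (ball x (1/2)) ≤ C a²`.  Finite cover of `ball 0 8` by balls `ball x (1/2)`, `|x| ≤ 8` (compactness; the number of
balls depends only on `m`).  `base_restrict`: `N.Mabs = N'.Mabs.restrict (ball 0 8)`.  `tiltT` with `R = 8`. -/
theorem massT (m n Q : ℕ) (hm : 1 ≤ m) (hn : 1 ≤ n) (hQ : 1 ≤ Q) :
    ∃ (J₀ : ℕ) (h₁ : ℝ), 0 < h₁ ∧ h₁ ≤ 1 ∧ Stm m (fun π => ∀ (C₀ hc : ℝ) (J : ℕ), J₀ ≤ J → J + 1 ≤ π.J → 0 < hc →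
      hc ≤ h₁ → ∃ C δ : ℝ, 0 < C ∧ 0 < δ ∧
      ∀ K : Ctx m n Q π C₀, K.Small δ → ∀ N : NCyl m n, K.IsCyl 8 hc N →
        (N.Dm + N.Mabs) (Metric.ball 0 8) ≤ ENNReal.ofReal (C * K.a ^ 2)) := by
  obtain ⟨Jsc, J₀, Hsc⟩ := scalar_input m n hm hn (Cmass m Q) 2 (by norm_num)
  obtain ⟨ε₀, hsc, εs, Csc, hε₀, hhsc, hεs, hCsc, Hsc⟩ := Hsc 1 le_rfl
  obtain ⟨η, A, hη, hηs, hηi, hA0, hA⟩ := tm_exists_bump m Jsc
  obtain ⟨ht, hht, Ht⟩ := tiltT m n Q hm hn hQ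
  obtain ⟨hl, hhl, Hl⟩ := lamT m n Q hm hn hQ
  obtain ⟨hν, hhν, Hν⟩ := nuT m n Q hm hn hQ η hη hηs
  obtain ⟨hb, hhb, Hb⟩ := base_restrict m n
  obtain ⟨T, hT8, hTcov⟩ := (isCompact_closedBall (0 : E m) 8).elim_nhds_subcover
    (fun x => Metric.ball x (1 / 2)) (fun x _ => Metric.ball_mem_nhds x (by norm_num))
  refine ⟨max J₀ 4, min (min (min ht hl) (min hν hb)) (min hsc 1), by positivity,
    (min_le_right _ _).trans (min_le_right _ _), ?_⟩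
  refine ((((ut_conv m n Q hm hn hQ).and (flatT m n Q hm hn hQ)).and (Ht.and Hl)).and
    (Hν.and (a_small m n Q hm hn hQ))).mono ?_
  rintro π - ⟨⟨⟨hut, hflat⟩, htilt, hlam⟩, hnu, hasm⟩ C₀ hc J hJ0 hJ hc0 hc1
  have hc_t : hc ≤ ht := hc1.trans ((min_le_left _ _).trans ((min_le_left _ _).trans (min_le_left _ _)))
  have hc_l : hc ≤ hl := hc1.trans ((min_le_left _ _).trans ((min_le_left _ _).trans (min_le_right _ _)))
  have hc_ν : hc ≤ hν := hc1.trans ((min_le_left _ _).trans ((min_le_right _ _).trans (min_le_left _ _)))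
  have hc_b : hc ≤ hb := hc1.trans ((min_le_left _ _).trans ((min_le_right _ _).trans (min_le_right _ _)))
  have hc_s : hc ≤ hsc := hc1.trans ((min_le_right _ _).trans (min_le_left _ _))
  have hc_1 : hc ≤ 1 := hc1.trans ((min_le_right _ _).trans (min_le_right _ _))
  have hJ₀ : J₀ ≤ J := (le_max_left _ _).trans hJ0
  have hJ4 : 4 ≤ J := (le_max_right _ _).trans hJ0
  obtain ⟨δ₁, hδ₁, hut⟩ := hut C₀ J hJ (min ε₀ (1 / 2)) (by positivity)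
  obtain ⟨δ₂, hδ₂, hflat⟩ := hflat C₀ hc hc0 hc_1
  obtain ⟨Ct, δ₃, hCt, hδ₃, htilt⟩ := htilt C₀ hc hc0 hc_t
  obtain ⟨Cl, δ₄, hCl, hδ₄, hlam⟩ := hlam C₀ hc hc0 hc_l
  obtain ⟨δ₅, hδ₅, hnu⟩ := hnu C₀ hc (1 / (8 * (Q + 1))) hc0 hc_ν (by positivity)
  obtain ⟨Ca, hCa, hasm⟩ := hasm C₀
  obtain ⟨a₀, ha₀⟩ : ∃ a₀ : ℝ, a₀ = min 1 (min (εs / (2 ^ m * (Ct + Cl)))
    (1 / (8 * (Csc * (Ct + Cl) * (A + 1))))) := ⟨_, rfl⟩
  have ha₀0 : 0 < a₀ := by rw [ha₀]; positivity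
  have ha₀1 : a₀ ≤ 1 := by rw [ha₀]; exact min_le_left _ _
  have ha₀2 : a₀ ≤ εs / (2 ^ m * (Ct + Cl)) := by
    rw [ha₀]; exact (min_le_right _ _).trans (min_le_left _ _)
  have ha₀3 : a₀ ≤ 1 / (8 * (Csc * (Ct + Cl) * (A + 1))) := by
    rw [ha₀]; exact (min_le_right _ _).trans (min_le_right _ _)
  refine ⟨Ct + T.card * (Csc * (Ct + Cl)), min (min (min δ₁ δ₂) (min δ₃ δ₄)) (min δ₅ (a₀ / Ca)),
    by positivity, by positivity, fun K hK N hN => ?_⟩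
  have hK1 := hK.mono ((min_le_left _ _).trans ((min_le_left _ _).trans (min_le_left _ _)))
  have hK2 := hK.mono ((min_le_left _ _).trans ((min_le_left _ _).trans (min_le_right _ _)))
  have hK3 := hK.mono ((min_le_left _ _).trans ((min_le_right _ _).trans (min_le_left _ _)))
  have hK4 := hK.mono ((min_le_left _ _).trans ((min_le_right _ _).trans (min_le_right _ _)))
  have hK5 := hK.mono ((min_le_right _ _).trans (min_le_left _ _))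
  have hK6 := hK.mono ((min_le_right _ _).trans (min_le_right _ _))
  have hut := hut K hK1
  have hflat := hflat K hK2
  have ha0 := K.a_pos
  have ha : K.a ≤ a₀ := by
    refine (hasm K).trans ((mul_le_mul_of_nonneg_left hK6.qd hCa.le).trans (le_of_eq ?_))
    field_simp
  have ha2 : K.a ^ 2 ≤ a₀ := by nlinarith
  obtain ⟨N', hN'⟩ : ∃ N' : NCyl m n, K.IsCyl 12 hc N' :=
    ⟨{ W := K.V, u := K.ut, Ω := Metric.ball 0 12, h := hc, h' := hc / 2, Q := Q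
       isOpen_Ω := Metric.isOpen_ball, h'_pos := by positivity, h'_lt := by linarith, Q_pos := hQ
       cyl_sub := hflat.1, gap := fun X hX hXc => (hflat.2.1 X hX hXc).1 }, ⟨rfl, rfl, rfl, rfl, rfl⟩⟩
  have hD' : N'.Dm (Metric.ball 0 12) ≤ ENNReal.ofReal (Ct * K.a ^ 2) :=
    htilt K hK3 12 N' (by norm_num) le_rfl hN'
  obtain ⟨hL', hν'⟩ := hlam K hK4 N' hN'
  have hRef : RefGraph J₀ 1 ε₀ N'.u := by
    rw [hN'.u]
    refine ⟨hut.1.of_le (by exact_mod_cast hJ₀), fun y => ?_, fun j _ hj y => ?_⟩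
    · rw [← norm_iteratedFDeriv_one]
      exact (hut.2 1 (by omega) y).trans (min_le_left _ _)
    · exact (hut.2 j (hj.trans hJ₀) y).trans ((min_le_right _ _).trans (by norm_num))
  have hCC : 0 < Ct + Cl := by positivity
  have hDL : (N'.Dm + N'.Lm) (Metric.ball 0 12) ≤ ENNReal.ofReal ((Ct + Cl) * K.a ^ 2) := by
    rw [Measure.add_apply, add_mul, ENNReal.ofReal_add (by positivity) (by positivity)]
    exact add_le_add hD' hL'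
  have hs1 : 2 ^ m * ((Ct + Cl) * K.a ^ 2) ≤ εs := by
    have h1 : a₀ * (2 ^ m * (Ct + Cl)) ≤ εs := (le_div_iff₀ (by positivity)).1 ha₀2
    have h2 : K.a ^ 2 * (2 ^ m * (Ct + Cl)) ≤ a₀ * (2 ^ m * (Ct + Cl)) :=
      mul_le_mul_of_nonneg_right ha2 (by positivity)
    linarith
  have hs2 : Csc * ((Ct + Cl) * K.a ^ 2) * A ≤ 1 / 8 := by
    have h1 : a₀ * (8 * (Csc * (Ct + Cl) * (A + 1))) ≤ 1 := (le_div_iff₀ (by positivity)).1 ha₀3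
    have h2 : K.a ^ 2 * (8 * (Csc * (Ct + Cl) * (A + 1))) ≤ a₀ * (8 * (Csc * (Ct + Cl) * (A + 1))) :=
      mul_le_mul_of_nonneg_right ha2 (by positivity)
    have h4 : 0 ≤ Csc * ((Ct + Cl) * K.a ^ 2) := by positivity
    nlinarith
  have key : ∀ x : E m, ‖x‖ ≤ 8 →
      N'.Mabs (Metric.ball x (1 / 2)) ≤ ENNReal.ofReal (Csc * ((Ct + Cl) * K.a ^ 2)) := fun x hx =>
    tm_Mabs_ball hN'.Ω hN'.Q hCsc (by positivity) (Hsc N' hRef (hN'.h ▸ hc_s)) hη hηs hηi hA hDL hν'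
      (hnu K hK5 N' hN') hs1 hs2 hx
  have hD : N.Dm (Metric.ball 0 8) ≤ ENNReal.ofReal (Ct * K.a ^ 2) :=
    htilt K hK3 8 N (by norm_num) (by norm_num) hN
  have hgeo : Geo 1 N.u := by
    rw [hN.u]
    exact tm_geo (hut.1.of_le (by exact_mod_cast hJ4))
      (fun j hj x => (hut.2 j (hj.trans hJ4) x).trans (min_le_right _ _)) le_rfl
  have hres := (Hb 1 N N' hgeo (hN.h ▸ hc_b) (hN'.W.trans hN.W.symm) (hN'.u.trans hN.u.symm)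
    (hN'.h.trans hN.h.symm) (hN'.Q.trans hN.Q.symm)
    (by rw [hN.Ω, hN'.Ω]; exact Metric.ball_subset_ball (by norm_num))).2.2.2
  have hM := tm_Mabs_cover hres hN.Ω T hT8 hTcov key
  rw [Measure.add_apply]
  refine (add_le_add hD hM).trans (le_of_eq ?_)
  rw [← ENNReal.ofReal_natCast T.card, ← ENNReal.ofReal_mul (Nat.cast_nonneg _),
    ← ENNReal.ofReal_add (by positivity) (by positivity)]
  congr 1
  ring

/-- **Nonzero second moment** (leaf `L-Blow-mom2T`).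
PLAN.  `SIV.simil_μ`, change of variables: `∫_{npr' ∈ ball 0 3} |zz'|² dN.μ = r^{-m} ∫_{T X ∈ Cyl', npr' (T X) ∈ ball 0 3} |zz' (T X)|² dW.μ`.
For `X` with `K.S.In X`, `ρ(npr X) < r`: `|X| ≤ ρ + |u 0| + |zz X| ≤ 3 r` (`loc`), `corr`: `|zz' (T X)| = |zz X| / r < hc`, `|npr' (T X)| = |ψ y| ≤ |F y| / r < 3`.
`energy`, item 4. -/
theorem mom2T (m n Q : ℕ) (hm : 1 ≤ m) (hn : 1 ≤ n) (hQ : 1 ≤ Q) :
    ∃ h₁ : ℝ, 0 < h₁ ∧ Stm m (fun π => ∀ (C₀ hc : ℝ), 0 < hc → hc ≤ h₁ → ∃ δ : ℝ, 0 < δ ∧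
      ∀ K : Ctx m n Q π C₀, K.Small δ → ∀ N : NCyl m n, K.IsCyl 8 hc N →
        K.a ^ 2 / 80 ≤ ∫ X in {X | npr N.u X ∈ Metric.ball (0 : E m) 3}, ‖zz N.u X‖ ^ 2 ∂N.μ) := by
  refine ⟨2 / 9, by norm_num, ?_⟩
  refine ((((flatT m n Q hm hn hQ).and (corr m n Q hm hn hQ)).and
    ((loc m n Q hm hn hQ).and (energy m n Q hm hn hQ))).and (kit_hc_le m)).mono ?_
  rintro π - ⟨⟨⟨h₁, h₂⟩, h₃, h₄⟩, h₅⟩ C₀ hc hhc hhc1
  obtain ⟨δ₁, hδ₁, h₁⟩ := h₁ C₀ hc hhc (hhc1.trans (by norm_num))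
  obtain ⟨δ₂, hδ₂, h₂⟩ := h₂ C₀
  obtain ⟨C, hC, h₄⟩ := h₄ C₀
  refine ⟨min (min δ₁ δ₂) (hc / 2000), lt_min (lt_min hδ₁ hδ₂) (by positivity),
    fun K hK N hN => ?_⟩
  obtain ⟨-, f2, -⟩ := h₁ K (hK.mono ((min_le_left _ _).trans (min_le_left _ _)))
  obtain ⟨hgeo', hc2⟩ := h₂ K (hK.mono ((min_le_left _ _).trans (min_le_right _ _)))
  obtain ⟨l1, -, l3, l4, -, l6⟩ := h₃ C₀ K
  obtain ⟨-, -, -, e4⟩ := h₄ K
  have hr := K.r_pos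
  have hri := inv_pos.2 hr
  refine K.mom2_core hN l1 hgeo' h₅ hhc1 (by linarith) (fun Y hY hYC => (f2 Y hY hYC).2)
    (fun X hIn hρ => ?_) e4
  have hF : ‖Fg K.S.N.u (npr K.S.N.u X)‖ ≤ K.r + K.r / 100 :=
    (kit_norm_Fg_le_rho _ _).trans (by linarith)
  have hy : ‖npr K.S.N.u X‖ ≤ 41 * K.r := (kit_norm_le_norm_Fg _ _).trans (by linarith)
  obtain ⟨z1, -, -, -, z5⟩ := l6 X hIn (Or.inr hy)
  have hXn : ‖X‖ ≤ 15 * K.r := (kit_norm_le_Fg_add_zz K.S.N.u X).trans (by linarith)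
  obtain ⟨-, -, c3, c4, -⟩ := hc2 X hIn.1 hXn
  have hψ3 : ‖K.ψ (npr K.S.N.u X)‖ < 3 := by
    have h1 := K.norm_ψ_le (npr K.S.N.u X)
    have h2 : K.r⁻¹ * ‖Fg K.S.N.u (npr K.S.N.u X)‖ ≤ K.r⁻¹ * (K.r + K.r / 100) :=
      mul_le_mul_of_nonneg_left hF hri.le
    have h3 : K.r⁻¹ * (K.r + K.r / 100) = 1 + 1 / 100 := by field_simp
    linarith
  have hzn : ‖zz K.ut (K.T X)‖ = K.r⁻¹ * ‖zz K.S.N.u X‖ := by rw [c4, K.norm_smul_G]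
  have hzlt : ‖zz K.ut (K.T X)‖ < hc := by
    rw [hzn, inv_mul_lt_iff₀ hr]
    have h6 : qd K.S.N (1000 * K.r) ≤ hc / 2000 := hK.qd.trans (min_le_right _ _)
    have h7 : 1000 * K.r * qd K.S.N (1000 * K.r) ≤ 1000 * K.r * (hc / 2000) :=
      mul_le_mul_of_nonneg_left h6 (by positivity)
    nlinarith
  refine ⟨⟨?_, hzlt⟩, ?_, hzn⟩
  · rw [c3]
    exact mem_ball_zero_iff.2 (hψ3.trans (by norm_num))
  · rw [c3]
    exact mem_ball_zero_iff.2 hψ3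

/-- **Vanishing first moment** (leaf `L-Blow-mom1T`).
PLAN.  Normalise `sup |η| ≤ 1`.  Change of variables and `corr`:
`∫ ⟨η (npr' X'), zz' X'⟩ dN.μ = r^{-m-1} ∫ ⟨G⁻¹ η (ψ (npr X)), zz X⟩ dK.S.N.μ`; the two domains of integration agree where the integrand does not vanish:
`ψ y ∈ ball 0 8` ⟹ `|F y| = r |F̂ (ψ y)| ≤ 9 r`, `|y| ≤ 9 r`, `|X| ≤ 10 r` (`loc`).  `ζ x = G⁻¹ η (ψ (r x))` is continuous, bounded by `1`, vanishes for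
`|x| ≥ 18` (`Regr.lip_lo`), and `|ζ x - ζ x'| ≤ ω_η (2 |x - x'|)` (`Regr.lip_hi`), `ω_η` the modulus of continuity of `η` (uniformly continuous).
`moment_norm` with `ε / C`; `a ≤ C δ` (`a_small`). -/
theorem mom1T (m n Q : ℕ) (hm : 1 ≤ m) (hn : 1 ≤ n) (hQ : 1 ≤ Q) :
    ∃ h₁ : ℝ, 0 < h₁ ∧ Stm m (fun π => ∀ (C₀ hc : ℝ), 0 < hc → hc ≤ h₁ →
      ∀ η : E m → E (m + n), Continuous η → HasCompactSupport η → tsupport η ⊆ Metric.ball 0 8 →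
      ∀ ε : ℝ, 0 < ε → ∃ δ : ℝ, 0 < δ ∧
      ∀ K : Ctx m n Q π C₀, K.Small δ → ∀ N : NCyl m n, K.IsCyl 8 hc N →
        |K.a⁻¹ * ∫ X, inner ℝ (η (npr N.u X)) (zz N.u X) ∂N.μ| ≤ ε) := by
  refine ⟨2 / 9, by norm_num, ?_⟩
  refine ((((flatT m n Q hm hn hQ).and (corr m n Q hm hn hQ)).and
    ((loc m n Q hm hn hQ).and (ut_graph m n Q hm hn hQ))).and
    ((((ut_conv m n Q hm hn hQ).and (regr m n Q hm hn hQ)).and
      ((moment_norm m n Q hm hn hQ).and (a_small m n Q hm hn hQ))).and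
      ((kit_hc_le m).and (Stm.order m 1)))).mono ?_
  rintro π - ⟨⟨⟨h₁, h₂⟩, h₃, h₄⟩, ⟨⟨h₅, h₆⟩, h₇, h₈⟩, h₉, h₁₀⟩ C₀ hc hhc hhc1 η hηc hηs hηt ε hε
  obtain ⟨δ₁, hδ₁, h₁⟩ := h₁ C₀ hc hhc (hhc1.trans (by norm_num))
  obtain ⟨δ₂, hδ₂, h₂⟩ := h₂ C₀
  obtain ⟨δ₄, hδ₄, h₄⟩ := h₄ C₀
  obtain ⟨δ₅, hδ₅, h₅⟩ := h₅ C₀ 0 h₁₀ (1 / 2) (by norm_num)
  obtain ⟨C₆, δ₆, hC₆, hδ₆, h₆⟩ := h₆ C₀ 1 le_rfl h₁₀
  obtain ⟨C₇, hC₇, h₇⟩ := h₇ C₀
  obtain ⟨C₈, hC₈, h₈⟩ := h₈ C₀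
  obtain ⟨M₀, hM₀⟩ := hηc.bounded_above_of_compact_support hηs
  have hM : 0 < max M₀ 1 := lt_of_lt_of_le one_pos (le_max_right _ _)
  have hηM : ∀ x, ‖η x‖ ≤ max M₀ 1 := fun x => (hM₀ x).trans (le_max_left _ _)
  have hε' : 0 < ε / (max M₀ 1 * C₇) := by positivity
  have huc := hηs.uniformContinuous_of_continuous hηc
  obtain ⟨ϑ', hϑ', hmod⟩ := Metric.uniformContinuous_iff.1 huc (max M₀ 1 * (ε / (max M₀ 1 * C₇)))
    (by positivity)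
  obtain ⟨a₀, ha₀, h₇⟩ := h₇ (ε / (max M₀ 1 * C₇)) (ϑ' / 4) hε' (by positivity)
  refine ⟨min (min (min δ₁ δ₂) (min δ₄ δ₅)) (min δ₆ (min (hc / 2000) (a₀ / C₈))),
    lt_min (lt_min (lt_min hδ₁ hδ₂) (lt_min hδ₄ hδ₅))
      (lt_min hδ₆ (lt_min (by positivity) (by positivity))), fun K hK N hN => ?_⟩
  have hK1 := hK.mono (((min_le_left _ _).trans (min_le_left _ _)).trans (min_le_left _ _))
  have hK2 := hK.mono (((min_le_left _ _).trans (min_le_left _ _)).trans (min_le_right _ _))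
  have hK4 := hK.mono (((min_le_left _ _).trans (min_le_right _ _)).trans (min_le_left _ _))
  have hK5 := hK.mono (((min_le_left _ _).trans (min_le_right _ _)).trans (min_le_right _ _))
  have hK6 := hK.mono ((min_le_right _ _).trans (min_le_left _ _))
  have hq1 : qd K.S.N (1000 * K.r) ≤ hc / 2000 :=
    hK.qd.trans (((min_le_right _ _).trans (min_le_right _ _)).trans (min_le_left _ _))
  have hq2 : qd K.S.N (1000 * K.r) ≤ a₀ / C₈ :=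
    hK.qd.trans (((min_le_right _ _).trans (min_le_right _ _)).trans (min_le_right _ _))
  have hr := K.r_pos
  have hri := inv_pos.2 hr
  have ha : K.a ≤ a₀ := by
    calc K.a ≤ C₈ * qd K.S.N (1000 * K.r) := h₈ K
      _ ≤ C₈ * (a₀ / C₈) := mul_le_mul_of_nonneg_left hq2 hC₈.le
      _ = a₀ := by field_simp
  obtain ⟨-, f2, -⟩ := h₁ K hK1
  obtain ⟨hgeo', hc2⟩ := h₂ K hK2
  obtain ⟨l1, -, l3, l4, -, l6⟩ := h₃ C₀ K
  obtain ⟨g1, -, g3⟩ := h₄ K hK4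
  obtain ⟨-, u2⟩ := h₅ K hK5
  have hR := h₆ K hK6
  have hzlt : ∀ X, ‖zz K.S.N.u X‖ ≤ 1000 * K.r * qd K.S.N (1000 * K.r) →
      K.r⁻¹ * ‖zz K.S.N.u X‖ < hc := by
    intro X hX
    rw [inv_mul_lt_iff₀ hr]
    have h7 : 1000 * K.r * qd K.S.N (1000 * K.r) ≤ 1000 * K.r * (hc / 2000) :=
      mul_le_mul_of_nonneg_left hq1 (by positivity)
    nlinarith
  have key := K.mom1_final (ε' := ε / (max M₀ 1 * C₇)) (ϑ := ϑ' / 4) (C₇ := C₇) hN l1 hgeo' h₉ hhc1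
    η hηc hηt hM hηM ?_ g3 hR l3 ?_ ?_ (h₇ K ha)
  · refine key.trans (le_of_eq ?_)
    field_simp
  · intro p p' hpp
    have : dist p p' < ϑ' := by
      rw [dist_eq_norm]
      linarith
    have h9 := hmod this
    rw [dist_eq_norm] at h9
    exact h9.le
  · intro X hX hXC
    have hXC' : K.T X ∈ Cyl K.ut (Metric.ball 0 12) hc :=
      ⟨Metric.ball_subset_ball (by norm_num) hXC.1, hXC.2⟩
    have h14 := (f2 _ (K.T_mem_V_support.2 hX) hXC').2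
    have h15 : ‖X‖ ≤ 15 * K.r := (K.norm_le_of_norm_T h14).trans (by linarith)
    obtain ⟨c1, -, c3, c4, -⟩ := hc2 X hX h15
    exact ⟨c1, c3, c4⟩
  · intro X hIn hne
    have hmem : K.ψ (npr K.S.N.u X) ∈ tsupport η := subset_tsupport _ hne
    have h8 : ‖K.ψ (npr K.S.N.u X)‖ < 8 := mem_ball_zero_iff.1 (hηt hmem)
    have hg := g1 (npr K.S.N.u X) (h8.trans (by norm_num))
    have hut : ‖K.ut (K.ψ (npr K.S.N.u X))‖ ≤ 1 / 2 := by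
      have := u2 0 le_rfl (K.ψ (npr K.S.N.u X))
      rwa [norm_iteratedFDeriv_zero] at this
    have hF : ‖Fg K.S.N.u (npr K.S.N.u X)‖ ≤ 9 * K.r := by
      have h1 := kit_norm_Fg_le K.ut (K.ψ (npr K.S.N.u X))
      rw [hg, K.norm_smul_G, inv_mul_le_iff₀ hr] at h1
      nlinarith
    have hy : ‖npr K.S.N.u X‖ ≤ 41 * K.r := (kit_norm_le_norm_Fg _ _).trans (by linarith)
    obtain ⟨z1, -, -, -, z5⟩ := l6 X hIn (Or.inr hy)
    have hXn : ‖X‖ ≤ 15 * K.r := (kit_norm_le_Fg_add_zz K.S.N.u X).trans (by linarith)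
    obtain ⟨-, -, c3, c4, -⟩ := hc2 X hIn.1 hXn
    refine ⟨?_, ?_⟩
    · rw [c3]
      exact mem_ball_zero_iff.2 h8
    · rw [c4, K.norm_smul_G]
      exact hzlt X z5

end Claimed.Agent.R322.Blow
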